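import Vale.Agent.P042.Upper.WeylInverse

/-!
The exponential sum over the polynomial values is small away from few major arcs.
-/

open Finset Polynomial

namespace Vale.Agent.P042.Upper

noncomputable section

/-- The phases of a rational frequency are periodic. -/
theorem phase_periodic (g : ℤ[X]) (a : ℤ) {q : ℕ} (hq : 1 ≤ q) (n : ℤ) :
    ee (((a * g.eval (n + q) : ℤ) : ℝ) / q) = ee (((a * g.eval n : ℤ) : ℝ) / q) := by
  obtain ⟨t, ht⟩ := Polynomial.sub_dvd_eval_sub (n + q) n g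
  have hqR : (q : ℝ) ≠ 0 := Nat.cast_ne_zero.2 (by omega)
  rw [show g.eval (n + q) = g.eval n + q * t by rw [← sub_eq_iff_eq_add']; rw [ht]; ring,
    show (((a * (g.eval n + q * t) : ℤ) : ℝ) / q) =
      ((a * g.eval n : ℤ) : ℝ) / q + ((a * t : ℤ) : ℝ) by push_cast; field_simp,
    ee_add_int]

/-- Incomplete periodic sums are close to their share of the complete sum. -/
theorem phase_window (g : ℤ[X]) (a : ℤ) {q : ℕ} (hq : 1 ≤ q) (c : ℕ) (t : ℕ) :
    ‖∑ n ∈ range t, (ee (((a * g.eval ((c + n : ℕ) : ℤ) : ℤ) : ℝ) / q) - gauss g a q)‖ ≤ 2 * q := by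
  set u : ℕ → ℂ := fun n => ee (((a * g.eval (n : ℤ) : ℤ) : ℝ) / q) with hu
  have hqC : (q : ℂ) ≠ 0 := Nat.cast_ne_zero.2 (by omega)
  have hper : ∀ n, u (n + q) = u n := fun n => by
    simp only [hu]; rw [Nat.cast_add]; exact phase_periodic g a hq n
  have hfull : ∀ c : ℕ, ∑ n ∈ range q, (u (c + n) - gauss g a q) = 0 := by
    intro c
    induction c with
    | zero =>
      simp only [Nat.zero_add, sum_sub_distrib, sum_const, card_range, nsmul_eq_mul, hu, gauss]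
      rw [mul_div_cancel₀ _ hqC, sub_self]
    | succ c ih =>
      have h1 := sum_range_succ (fun n => u (c + n) - gauss g a q) q
      have h2 := sum_range_succ' (fun n => u (c + n) - gauss g a q) q
      simp only [Nat.add_zero] at h2
      rw [h1, ih, hper, zero_add] at h2
      have h3 : ∑ n ∈ range q, (u (c + (n + 1)) - gauss g a q) = 0 :=
        add_right_cancel (h2.symm.trans (zero_add _).symm)
      rw [← h3]
      refine sum_congr rfl fun n _ => ?_
      rw [show c + 1 + n = c + (n + 1) by omega]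
  show ‖∑ n ∈ range t, (u (c + n) - gauss g a q)‖ ≤ 2 * q
  induction t using Nat.strong_induction_on generalizing c with
  | _ t ih =>
    rcases lt_or_ge t q with ht | ht
    · have hG : ‖gauss g a q‖ ≤ 1 := by
        rw [gauss, norm_div, Complex.norm_natCast, div_le_one (by exact_mod_cast (by omega : 0 < q))]
        refine (norm_sum_le _ _).trans ?_
        simp [norm_ee]
      refine (norm_sum_le _ _).trans ((sum_le_card_nsmul _ _ (2 : ℝ) fun n _ => ?_).trans ?_)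
      · refine (norm_sub_le _ _).trans ?_
        simp only [hu, norm_ee]
        linarith
      · rw [card_range, nsmul_eq_mul, mul_comm]
        exact mul_le_mul_of_nonneg_left (Nat.cast_le.2 ht.le) zero_le_two
    · obtain ⟨r, rfl⟩ := Nat.exists_eq_add_of_le ht
      rw [sum_range_add, hfull, zero_add]
      refine le_of_eq_of_le ?_ (ih r (by omega) (c + q))
      congr 1
      exact sum_congr rfl fun n _ => by rw [show c + (q + n) = c + q + n by omega]

/-- Abel summation with bounded partial sums. -/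
theorem abel_bound (w v : ℕ → ℂ) {B : ℝ} (hv : ∀ t, ‖∑ n ∈ range t, v n‖ ≤ B)
    (hw : ∀ n, ‖w n‖ ≤ 1) (N : ℕ) :
    ‖∑ n ∈ range N, w n * v n‖ ≤ B * (1 + ∑ n ∈ range (N - 1), ‖w (n + 1) - w n‖) := by
  have h := Finset.sum_range_by_parts w v N
  simp only [smul_eq_mul] at h
  rw [h]
  have hB : 0 ≤ B := (norm_nonneg _).trans (hv 0)
  refine (norm_sub_le _ _).trans ?_
  rw [mul_add, mul_one]
  refine add_le_add ?_ ((norm_sum_le _ _).trans ?_)
  · rw [norm_mul]
    exact (mul_le_mul_of_nonneg_left (hv N) (norm_nonneg _)).trans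
      (mul_le_of_le_one_left hB (hw _))
  · rw [mul_sum]
    refine sum_le_sum fun n _ => ?_
    rw [norm_mul, mul_comm B]
    exact mul_le_mul_of_nonneg_left (hv _) (norm_nonneg _)

/-- Increments of a polynomial with dominant leading coefficient. -/
theorem poly_step (g : ℤ[X]) {k : ℕ} (hk : g.natDegree = k) {B₀ : ℝ}
    (hB : ∀ i, |(g.coeff i : ℝ)| ≤ B₀ * (g.leadingCoeff : ℝ)) {X n : ℕ} (hX : 1 ≤ X)
    (hn : n + 1 ≤ 2 * X) :
    |((g.eval ((n + 1 : ℕ) : ℤ) : ℤ) : ℝ) - ((g.eval (n : ℤ) : ℤ) : ℝ)| ≤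
      B₀ * (g.leadingCoeff : ℝ) * (((k : ℝ) + 1) * k * (2 * (X : ℝ)) ^ (k - 1)) := by
  have he : ∀ x : ℕ, ((g.eval (x : ℤ) : ℤ) : ℝ) = ∑ i ∈ range (k + 1), (g.coeff i : ℝ) * (x : ℝ) ^ i := by
    intro x
    rw [eval_eq_sum_range, hk]
    push_cast
    rfl
  rw [he, he, ← sum_sub_distrib]
  refine (abs_sum_le_sum_abs _ _).trans ((sum_le_card_nsmul _ _
    (B₀ * (g.leadingCoeff : ℝ) * (k * (2 * (X : ℝ)) ^ (k - 1))) fun i hi => ?_).trans (le_of_eq ?_))
  · have hik : i ≤ k := Nat.lt_succ_iff.1 (mem_range.1 hi)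
    rw [← mul_sub, abs_mul]
    refine mul_le_mul (hB i) ?_ (abs_nonneg _) ((abs_nonneg _).trans (hB i))
    refine (abs_pow_sub_pow_le _ _ i).trans ?_
    have h1 : |((n + 1 : ℕ) : ℝ) - (n : ℝ)| = 1 := by push_cast; simp
    rw [h1, one_mul, Nat.abs_cast, Nat.abs_cast, max_eq_left (by push_cast; linarith)]
    rcases Nat.eq_zero_or_pos i with rfl | hi0
    · simp; positivity
    refine mul_le_mul (Nat.cast_le.2 hik) ?_ (by positivity) (Nat.cast_nonneg _)
    calc ((n + 1 : ℕ) : ℝ) ^ (i - 1) ≤ (2 * (X : ℝ)) ^ (i - 1) :=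
          pow_le_pow_left₀ (Nat.cast_nonneg _) (by exact_mod_cast hn) _
      _ ≤ _ := pow_le_pow_right₀ (by
          have : (1 : ℝ) ≤ X := by exact_mod_cast hX
          linarith) (by omega)
  · rw [card_range, nsmul_eq_mul]; push_cast; ring

/-- On a major arc the average is at most the complete sum and a small error. -/
theorem major_arc (g : ℤ[X]) {k : ℕ} (hk : g.natDegree = k) (hk1 : 1 ≤ k) {B₀ : ℝ}
    (hlead : 0 < g.leadingCoeff)
    (hB : ∀ i, |(g.coeff i : ℝ)| ≤ B₀ * (g.leadingCoeff : ℝ)) {X : ℕ} (hX : 1 ≤ X) (a : ℤ)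
    {q : ℕ} (hq : 1 ≤ q) (β : ℝ) {P : ℝ}
    (hβ : |β| ≤ P / ((g.leadingCoeff : ℝ) * (X : ℝ) ^ k)) :
    ‖(∑ n ∈ range X, ee (((a : ℝ) / q + β) * (g.eval ((X + 1 + n : ℕ) : ℤ) : ℤ))) / X‖ ≤
      ‖gauss g a q‖ + 2 * q * (1 + 2 * Real.pi * P * B₀ * ((k + 1) * k * 2 ^ (k - 1))) / X := by
  have hl : (0 : ℝ) < g.leadingCoeff := by exact_mod_cast hlead
  have hXR : (0 : ℝ) < X := by exact_mod_cast hX
  have hP : 0 ≤ P := by
    have := (abs_nonneg β).trans hβ
    rwa [le_div_iff₀ (by positivity), zero_mul] at this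
  set w : ℕ → ℂ := fun n => if n < X then ee (β * (g.eval ((X + 1 + n : ℕ) : ℤ) : ℤ)) else 0
    with hw
  set v : ℕ → ℂ := fun n =>
    ee (((a * g.eval ((X + 1 + n : ℕ) : ℤ) : ℤ) : ℝ) / q) - gauss g a q with hv
  have hwn : ∀ n, ‖w n‖ ≤ 1 := fun n => by
    simp only [hw]; split
    · rw [norm_ee]
    · simp
  have hsplit : ∑ n ∈ range X, ee (((a : ℝ) / q + β) * (g.eval ((X + 1 + n : ℕ) : ℤ) : ℤ)) =
      gauss g a q * (∑ n ∈ range X, w n) + ∑ n ∈ range X, w n * v n := by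
    rw [mul_sum, ← sum_add_distrib]
    refine sum_congr rfl fun n hn => ?_
    simp only [hw, hv, if_pos (mem_range.1 hn)]
    rw [mul_sub, mul_comm (gauss g a q), add_sub_cancel, ← ee_add]
    congr 1
    push_cast
    ring
  have hvar : ∑ n ∈ range (X - 1), ‖w (n + 1) - w n‖ ≤
      2 * Real.pi * P * B₀ * ((k + 1) * k * 2 ^ (k - 1)) := by
    set D : ℝ := B₀ * (g.leadingCoeff : ℝ) * (((k : ℝ) + 1) * k * (2 * (X : ℝ)) ^ (k - 1)) with hD
    refine (sum_le_card_nsmul _ _ (2 * Real.pi * (|β| * D)) fun n hn => ?_).trans ?_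
    · have hnX : n + 1 < X := by have := mem_range.1 hn; omega
      simp only [hw, if_pos hnX, if_pos (Nat.lt_of_succ_lt hnX)]
      set G₁ : ℝ := ((g.eval ((X + 1 + (n + 1) : ℕ) : ℤ) : ℤ) : ℝ) with hG₁
      set G₀ : ℝ := ((g.eval ((X + 1 + n : ℕ) : ℤ) : ℤ) : ℝ) with hG₀
      rw [show ee (β * G₁) = ee (β * G₀) * ee (β * (G₁ - G₀)) by rw [← ee_add]; ring_nf,
        ← mul_sub_one, norm_mul, norm_ee, one_mul]
      refine (norm_ee_sub_one_le _).trans ?_
      rw [abs_mul]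
      refine mul_le_mul_of_nonneg_left (mul_le_mul_of_nonneg_left ?_ (abs_nonneg β)) (by positivity)
      exact poly_step g hk hB hX (n := X + 1 + n) (by omega)
    · rw [card_range, nsmul_eq_mul]
      have hB₀ : 0 ≤ B₀ := nonneg_of_mul_nonneg_left ((abs_nonneg _).trans (hB 0)) hl
      have hD0 : 0 ≤ D := by positivity
      calc ((X - 1 : ℕ) : ℝ) * (2 * Real.pi * (|β| * D))
          ≤ (X : ℝ) * (2 * Real.pi * (P / ((g.leadingCoeff : ℝ) * (X : ℝ) ^ k) * D)) := by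
            gcongr
            exact Nat.sub_le _ _
        _ = _ := by
            obtain ⟨j, rfl⟩ := Nat.exists_eq_add_of_le hk1
            rw [hD, Nat.add_sub_cancel_left, mul_pow, add_comm 1 j, pow_succ]
            field_simp
  have hab := (abel_bound w v (phase_window g a hq (X + 1)) hwn X).trans
    (mul_le_mul_of_nonneg_left (add_le_add le_rfl hvar) (by positivity))
  rw [hsplit, norm_div, Complex.norm_natCast, div_le_iff₀ hXR]
  refine (norm_add_le _ _).trans ?_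
  rw [add_mul, div_mul_cancel₀ _ hXR.ne', norm_mul]
  refine add_le_add (mul_le_mul_of_nonneg_left ?_ (norm_nonneg _)) hab
  refine (norm_sum_le _ _).trans ((sum_le_card_nsmul _ _ (1 : ℝ) fun n _ => hwn n).trans ?_)
  simp

open scoped Classical in
/-- Major arc majorant of the exponential sum. -/
theorem arc_bound (k : ℕ) (hk : 1 ≤ k) (B₀ : ℝ) (ω : ℕ → ℕ → ℝ) (C δ : ℝ)
    (hω : GoodWeight ω C δ) (ε : ℝ) (hε : 0 < ε) :
    ∃ C₁ : ℝ, 0 < C₁ ∧ ∀ m : ℕ, C₁ ≤ m → ∀ g : ℤ[X], g.natDegree = k → 0 < g.leadingCoeff →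
      (∀ i, |(g.coeff i : ℝ)| ≤ B₀ * (g.leadingCoeff : ℝ)) →
      (∀ q : ℕ, 1 ≤ q → ∀ a : ℤ, Int.gcd a q = 1 → ‖gauss g a q‖ ≤ wt ω q) →
      ∀ X : ℕ, (g.leadingCoeff : ℝ) * Real.exp (C₁ * m) ≤ X → ∀ θ : ℝ,
        ‖(∑ n ∈ Ioc X (2 * X), ee (θ * (g.eval (n : ℤ) : ℤ))) / X‖ ≤ ε * Real.exp (-(m : ℝ)) +
          ∑ q ∈ Icc 1 ⌈Real.exp (C₁ * m)⌉₊, ∑ a ∈ reduced q,
            if ∃ z : ℤ, |θ - (a : ℝ) / q - z| ≤
                Real.exp (C₁ * m) / ((g.leadingCoeff : ℝ) * (X : ℝ) ^ k)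
            then wt ω q else 0 := by
  obtain ⟨A, e, hA, hW⟩ := weyl_inverse k hk
  set KB : ℝ := 1 + 2 * Real.pi * |B₀| * ((k + 1) * k * 2 ^ (k - 1)) with hKB
  have hKB1 : 1 ≤ KB := le_add_of_nonneg_right (by positivity)
  set ε₁ : ℝ := min ε 1 with hε₁
  have hε1 : 0 < ε₁ := lt_min hε one_pos
  set K : ℝ := A / ε₁ ^ e with hK
  set L : ℝ := (2 * |C| / ε₁ + 1) ^ (1 / δ) with hL
  have hδ := hω.delta_pos
  refine ⟨2 * e + 2 + 1 / δ + K + L + 8 * K ^ 2 * KB / ε₁, by positivity,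
    fun m hm g hg hlead hcoef hgauss X hX θ => ?_⟩
  set C₁ : ℝ := 2 * e + 2 + 1 / δ + K + L + 8 * K ^ 2 * KB / ε₁ with hC₁
  have hK0 : 0 < K := by positivity
  have hL0 : 0 < L := by positivity
  have hl : (0 : ℝ) < g.leadingCoeff := by exact_mod_cast hlead
  have hl1 : (1 : ℝ) ≤ g.leadingCoeff := by exact_mod_cast hlead
  have hδinv : 0 < 1 / δ := by positivity
  have h8 : 0 ≤ 8 * K ^ 2 * KB / ε₁ := by positivity
  have hm1 : (1 : ℝ) ≤ m := by
    have : (0 : ℝ) ≤ e := Nat.cast_nonneg e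
    linarith
  have absorb : ∀ c : ℝ, 0 ≤ c → c ≤ Real.exp (c * m) := fun c hc =>
    ((by linarith [Real.add_one_le_exp c] : c ≤ Real.exp c)).trans
      (Real.exp_le_exp.2 (le_mul_of_one_le_right hc hm1))
  have hsum0 : 0 ≤ ∑ q ∈ Icc 1 ⌈Real.exp (C₁ * m)⌉₊, ∑ a ∈ reduced q,
      if ∃ z : ℤ, |θ - (a : ℝ) / q - z| ≤
          Real.exp (C₁ * m) / ((g.leadingCoeff : ℝ) * (X : ℝ) ^ k)
      then wt ω q else 0 :=
    sum_nonneg fun q _ => sum_nonneg fun a _ => by
      split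
      · exact hω.wt_nonneg q
      · exact le_rfl
  set η : ℝ := ε₁ * Real.exp (-(m : ℝ)) with hη
  have hη0 : 0 < η := by positivity
  have hη1 : η ≤ 1 := mul_le_one₀ (min_le_right _ _) (Real.exp_pos _).le
    (Real.exp_le_one_iff.2 (by linarith))
  have hηε : η ≤ ε * Real.exp (-(m : ℝ)) :=
    mul_le_mul_of_nonneg_right (min_le_left _ _) (Real.exp_pos _).le
  by_cases hsmall : ‖(∑ n ∈ Ioc X (2 * X), ee (θ * (g.eval (n : ℤ) : ℤ))) / (X : ℂ)‖ < η
  · linarith
  push Not at hsmall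
  have hXR : (0 : ℝ) < X := lt_of_lt_of_le (by positivity) hX
  have hX1 : 1 ≤ X := by exact_mod_cast hXR
  have hshift : ∀ φ : ℝ, ∑ n ∈ Ioc X (2 * X), ee (φ * (g.eval (n : ℤ) : ℤ)) =
      ∑ n ∈ range X, ee (φ * (g.eval ((X + 1 + n : ℕ) : ℤ) : ℤ)) := by
    intro φ
    rw [show Ioc X (2 * X) = Ico (X + 1) (2 * X + 1) by
      ext n; simp only [mem_Ioc, mem_Ico]; omega]
    rw [sum_Ico_eq_sum_range, show 2 * X + 1 - (X + 1) = X by omega]
  -- Weyl's inequality
  set p : ℝ[X] := Polynomial.C θ * taylor ((X : ℝ) + 1) (g.map (Int.castRingHom ℝ)) with hp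
  have hpd : p.natDegree ≤ k := by
    refine (natDegree_C_mul_le _ _).trans ?_
    rw [natDegree_taylor]
    exact natDegree_map_le.trans hg.le
  have hpc : p.coeff k = θ * (g.leadingCoeff : ℝ) := by
    rw [hp, coeff_C_mul, taylor_coeff]
    congr 1
    have hd : (hasseDeriv k (g.map (Int.castRingHom ℝ))).natDegree ≤ 0 :=
      (natDegree_hasseDeriv_le _ k).trans (by have := natDegree_map_le (f := Int.castRingHom ℝ) (p := g); omega)
    rw [eq_C_of_natDegree_le_zero hd, eval_C, hasseDeriv_coeff]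
    simp [leadingCoeff, hg]
  have hpe : ∀ n : ℕ, p.eval (n : ℝ) = θ * (g.eval ((X + 1 + n : ℕ) : ℤ) : ℤ) := by
    intro n
    rw [hp, eval_mul, eval_C, taylor_eval]
    congr 1
    have h : (((X + 1 + n : ℕ) : ℤ) : ℝ) = (n : ℝ) + ((X : ℝ) + 1) := by push_cast; ring
    rw [← h]
    exact eval_intCast_map (Int.castRingHom ℝ) g _
  rw [hshift, norm_div, Complex.norm_natCast, le_div_iff₀ hXR] at hsmall
  obtain ⟨q₁, hq₁1, hq₁, z, hz⟩ := hW η hη0 hη1 X hX1 p hpd (by simpa only [hpe] using hsmall)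
  set P : ℝ := A / η ^ e with hP
  have hP1 : 1 ≤ P := by
    rw [hP, le_div_iff₀ (by positivity), one_mul]
    exact (pow_le_one₀ hη0.le hη1).trans hA
  have hPe : P = K * Real.exp ((e : ℝ) * m) := by
    rw [hP, hK, hη, mul_pow, ← Real.exp_nat_mul, mul_neg, Real.exp_neg]
    field_simp
  rw [hpc] at hz
  -- the rational approximation
  set Q : ℕ := q₁ * g.leadingCoeff.toNat with hQ
  have hQR : (Q : ℝ) = (q₁ : ℝ) * (g.leadingCoeff : ℝ) := by
    have h : ((g.leadingCoeff.toNat : ℤ) : ℝ) = (g.leadingCoeff : ℝ) := by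
      rw [Int.toNat_of_nonneg hlead.le]
    rw [hQ, Nat.cast_mul, ← h, Int.cast_natCast]
  have hQ0 : 0 < Q := Nat.mul_pos hq₁1 (by omega)
  set r : ℚ := (z : ℚ) / (Q : ℚ) with hr
  set q : ℕ := r.den with hq
  have hq1 : 1 ≤ q := r.pos
  have hqQ : q ≤ Q := by
    refine Nat.le_of_dvd hQ0 ?_
    have h : ((q : ℤ)) ∣ (Q : ℤ) := by
      have h0 : r = Rat.divInt z (Q : ℤ) := by rw [hr, Rat.divInt_eq_div]; push_cast; rfl
      rw [hq, h0]
      exact Rat.den_dvd z Q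
    exact_mod_cast h
  have hrR : (z : ℝ) / Q = (r.num : ℝ) / q := by
    rw [hq, ← Rat.cast_def, hr]; push_cast; rfl
  set β : ℝ := θ - (z : ℝ) / Q with hβdef
  have hβ : |β| ≤ P / ((g.leadingCoeff : ℝ) * (X : ℝ) ^ k) := by
    have e1 : β = ((q₁ : ℝ) * (θ * (g.leadingCoeff : ℝ)) - z) / Q := by
      rw [hβdef, hQR]
      have : (q₁ : ℝ) ≠ 0 := Nat.cast_ne_zero.2 (by omega)
      field_simp
    rw [e1, abs_div, Nat.abs_cast, mul_comm (g.leadingCoeff : ℝ), ← div_div, hQR]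
    refine div_le_div₀ (by positivity) hz hl ?_
    exact le_mul_of_one_le_left hl.le (by exact_mod_cast hq₁1)
  have hθ : θ = (r.num : ℝ) / q + β := by rw [← hrR, hβdef]; ring
  have hmajor := major_arc g hg hk hlead hcoef hX1 r.num hq1 β hβ
  rw [← hθ, ← hshift] at hmajor
  have hP2 : P * P = K ^ 2 * Real.exp (2 * (e : ℝ) * m) := by
    rw [hPe, mul_mul_mul_comm, ← Real.exp_add, sq]; ring_nf
  have herr : 2 * (q : ℝ) * (1 + 2 * Real.pi * P * B₀ * ((k + 1) * k * 2 ^ (k - 1))) / X ≤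
      ε₁ / 4 * Real.exp (-(m : ℝ)) := by
    have h1 : (q : ℝ) ≤ P * g.leadingCoeff :=
      (Nat.cast_le.2 hqQ).trans (by rw [hQR]; exact mul_le_mul_of_nonneg_right hq₁ hl.le)
    have h2 : 1 + 2 * Real.pi * P * B₀ * ((k + 1) * k * 2 ^ (k - 1)) ≤ P * KB := by
      rw [hKB, mul_add, mul_one]
      refine add_le_add hP1 ?_
      calc 2 * Real.pi * P * B₀ * ((k + 1) * k * 2 ^ (k - 1))
          ≤ 2 * Real.pi * P * |B₀| * ((k + 1) * k * 2 ^ (k - 1)) :=
            mul_le_mul_of_nonneg_right (mul_le_mul_of_nonneg_left (le_abs_self _) (by positivity))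
              (by positivity)
        _ = _ := by ring
    rw [div_le_iff₀ hXR]
    have h3 : 2 * (q : ℝ) * (1 + 2 * Real.pi * P * B₀ * ((k + 1) * k * 2 ^ (k - 1))) ≤
        2 * (g.leadingCoeff : ℝ) * KB * (P * P) := by
      calc _ ≤ 2 * (q : ℝ) * (P * KB) := mul_le_mul_of_nonneg_left h2 (by positivity)
        _ ≤ 2 * (P * g.leadingCoeff) * (P * KB) :=
            mul_le_mul_of_nonneg_right (by linarith) (by positivity)
        _ = _ := by ring
    refine h3.trans ?_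
    have h4 : 8 * K ^ 2 * KB / ε₁ * Real.exp ((2 * (e : ℝ) + 1) * m) ≤ Real.exp (C₁ * m) := by
      refine (mul_le_mul_of_nonneg_right (absorb _ h8) (Real.exp_pos _).le).trans ?_
      rw [← Real.exp_add, ← add_mul]
      exact Real.exp_le_exp.2 (mul_le_mul_of_nonneg_right (by linarith) (by linarith))
    calc 2 * (g.leadingCoeff : ℝ) * KB * (P * P)
        = ε₁ / 4 * Real.exp (-(m : ℝ)) * ((g.leadingCoeff : ℝ) *
            (8 * K ^ 2 * KB / ε₁ * Real.exp ((2 * (e : ℝ) + 1) * m))) := by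
          rw [hP2, show (2 * (e : ℝ) + 1) * m = 2 * (e : ℝ) * m + m by ring, Real.exp_add,
            Real.exp_neg]
          field_simp
          ring
      _ ≤ _ := mul_le_mul_of_nonneg_left ((mul_le_mul_of_nonneg_left h4 hl.le).trans hX)
          (by positivity)
  have hgcd : Int.gcd r.num q = 1 := by
    rw [hq, Int.gcd, Int.natAbs_natCast]; exact r.reduced
  have hG : ‖gauss g r.num q‖ ≤ wt ω q := hgauss q hq1 r.num hgcd
  have hwt : η / 2 ≤ wt ω q := by
    rw [norm_div, Complex.norm_natCast] at hmajor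
    have := (le_div_iff₀ hXR).2 hsmall
    rw [← hshift] at this
    linarith
  -- the denominator is small
  have hqsmall : (q : ℝ) ≤ Real.exp (C₁ * m) := by
    have h1 := hwt.trans (hω.decay q hq1)
    have hqR : (0 : ℝ) < q := by exact_mod_cast hq1
    have hpow : 0 < (q : ℝ) ^ δ := Real.rpow_pos_of_pos hqR _
    rw [Real.rpow_neg hqR.le, ← div_eq_mul_inv, le_div_iff₀ hpow] at h1
    have h2 : (q : ℝ) ^ δ ≤ (2 * |C| / ε₁ + 1) * Real.exp m := by
      have h3 : η * (q : ℝ) ^ δ ≤ 2 * |C| := by linarith [le_abs_self C]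
      have h4 : (q : ℝ) ^ δ ≤ 2 * |C| / η := by rw [le_div_iff₀ hη0]; linarith
      refine h4.trans ?_
      rw [hη, add_mul, one_mul, Real.exp_neg]
      refine le_add_of_le_of_nonneg (le_of_eq ?_) (Real.exp_pos _).le
      field_simp
    calc (q : ℝ) = ((q : ℝ) ^ δ) ^ (1 / δ) := by
          rw [← Real.rpow_mul hqR.le, mul_one_div_cancel hδ.ne', Real.rpow_one]
      _ ≤ ((2 * |C| / ε₁ + 1) * Real.exp m) ^ (1 / δ) := Real.rpow_le_rpow hpow.le h2 hδinv.le
      _ = L * Real.exp ((m : ℝ) * (1 / δ)) := by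
          rw [Real.mul_rpow (by positivity) (Real.exp_pos _).le, ← Real.exp_mul]
      _ ≤ Real.exp (L * m) * Real.exp ((m : ℝ) * (1 / δ)) :=
          mul_le_mul_of_nonneg_right (absorb _ hL0.le) (Real.exp_pos _).le
      _ ≤ _ := by
          rw [← Real.exp_add, show L * m + (m : ℝ) * (1 / δ) = (L + 1 / δ) * m by ring]
          exact Real.exp_le_exp.2 (mul_le_mul_of_nonneg_right (by linarith) (by linarith))
  have hPC : P ≤ Real.exp (C₁ * m) := by
    rw [hPe]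
    refine (mul_le_mul_of_nonneg_right (absorb K hK0.le) (Real.exp_pos _).le).trans ?_
    rw [← Real.exp_add, ← add_mul]
    exact Real.exp_le_exp.2 (mul_le_mul_of_nonneg_right (by linarith) (by linarith))
  -- its residue
  set a : ℕ := (r.num % (q : ℤ)).toNat with ha
  have hqZ : (0 : ℤ) < q := by exact_mod_cast hq1
  have haZ : (a : ℤ) = r.num % (q : ℤ) := Int.toNat_of_nonneg (Int.emod_nonneg _ hqZ.ne')
  have hamem : a ∈ reduced q := by
    refine mem_filter.2 ⟨mem_range.2 ?_, ?_⟩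
    · have := Int.emod_lt_of_pos r.num hqZ
      omega
    · have h : Int.gcd (a : ℤ) q = 1 := by rw [haZ, Int.gcd_emod]; exact hgcd
      rw [Int.gcd_natCast_natCast] at h
      exact Nat.coprime_comm.1 h
  have harc : ∃ w : ℤ, |θ - (a : ℝ) / q - w| ≤
      Real.exp (C₁ * m) / ((g.leadingCoeff : ℝ) * (X : ℝ) ^ k) := by
    refine ⟨r.num / (q : ℤ), ?_⟩
    have h1 : (r.num : ℝ) = (a : ℝ) + (q : ℝ) * ((r.num / (q : ℤ) : ℤ) : ℝ) := by
      have h := Int.emod_add_mul_ediv r.num (q : ℤ)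
      rw [← haZ] at h
      exact_mod_cast h.symm
    have hqne : (q : ℝ) ≠ 0 := Nat.cast_ne_zero.2 (by omega)
    have h2 : θ - (a : ℝ) / q - ((r.num / (q : ℤ) : ℤ) : ℝ) = β := by
      rw [hθ, h1]; field_simp; ring
    rw [h2]
    exact hβ.trans (div_le_div_of_nonneg_right hPC (by positivity))
  have hterm : wt ω q ≤ ∑ q ∈ Icc 1 ⌈Real.exp (C₁ * m)⌉₊, ∑ a ∈ reduced q,
      if ∃ z : ℤ, |θ - (a : ℝ) / q - z| ≤
          Real.exp (C₁ * m) / ((g.leadingCoeff : ℝ) * (X : ℝ) ^ k)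
      then wt ω q else 0 := by
    have hnn : ∀ q' a' : ℕ, 0 ≤ if ∃ z : ℤ, |θ - (a' : ℝ) / q' - z| ≤
          Real.exp (C₁ * m) / ((g.leadingCoeff : ℝ) * (X : ℝ) ^ k)
        then wt ω q' else 0 := fun q' a' => by
      split
      · exact hω.wt_nonneg q'
      · exact le_rfl
    have hqmem : q ∈ Icc 1 ⌈Real.exp (C₁ * m)⌉₊ :=
      mem_Icc.2 ⟨hq1, Nat.cast_le.1 (hqsmall.trans (Nat.le_ceil _))⟩
    refine le_trans ?_ (single_le_sum (fun q' _ => sum_nonneg fun a' _ => hnn q' a') hqmem)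
    refine le_trans (le_of_eq ?_) (single_le_sum (fun a' _ => hnn q a') hamem)
    rw [if_pos harc]
  have hfin : ε₁ / 4 * Real.exp (-(m : ℝ)) ≤ ε * Real.exp (-(m : ℝ)) :=
    mul_le_mul_of_nonneg_right (by linarith [min_le_left ε 1]) (Real.exp_pos _).le
  linarith

end

end Vale.Agent.P042.Upper
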