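import Vale.Agent.P042.Upper.Basic

/-!
Weyl's inequality in inverse form.
-/

open Finset Polynomial

namespace Vale.Agent.P042.Upper

noncomputable section

/-- Twice the real part of the differenced sums gives the square of a sum of phases. -/
theorem norm_sq_phase_sum (f : ℕ → ℝ) (N : ℕ) :
    ‖∑ n ∈ range N, ee (f n)‖ ^ 2 =
      N + 2 * (∑ h ∈ range N, ∑ n ∈ range (N - (h + 1)), ee (f (n + (h + 1)) - f n)).re := by
  induction N with
  | zero => simp
  | succ N ih =>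
    have hD : ∑ h ∈ range (N + 1), ∑ n ∈ range (N + 1 - (h + 1)), ee (f (n + (h + 1)) - f n) =
        (∑ h ∈ range N, ∑ n ∈ range (N - (h + 1)), ee (f (n + (h + 1)) - f n)) +
          ∑ h ∈ range N, ee (f N - f (N - (h + 1))) := by
      rw [sum_range_succ, ← sum_add_distrib, show N + 1 - (N + 1) = 0 by omega, range_zero, sum_empty,
        add_zero]
      refine sum_congr rfl fun h hh => ?_
      have hlt : h < N := mem_range.1 hh
      rw [show N + 1 - (h + 1) = N - (h + 1) + 1 by omega, sum_range_succ,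
        show N - (h + 1) + (h + 1) = N by omega]
    have hR : ∑ h ∈ range N, ee (f N - f (N - (h + 1))) =
        ee (f N) * starRingEnd ℂ (∑ n ∈ range N, ee (f n)) := by
      rw [map_sum, mul_sum, ← sum_range_reflect (fun n => ee (f N) * starRingEnd ℂ (ee (f n)))]
      refine sum_congr rfl fun h hh => ?_
      rw [← ee_neg, ← ee_add, ← sub_eq_add_neg, show N - (h + 1) = N - 1 - h by omega]
    rw [hD, hR, sum_range_succ, Complex.add_re, ← Complex.normSq_eq_norm_sq, Complex.normSq_add,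
      Complex.normSq_eq_norm_sq, Complex.normSq_eq_norm_sq, ih, norm_ee]
    have hre : (ee (f N) * starRingEnd ℂ (∑ n ∈ range N, ee (f n))).re =
        ((∑ n ∈ range N, ee (f n)) * starRingEnd ℂ (ee (f N))).re := by
      rw [← Complex.conj_re, map_mul, Complex.conj_conj, mul_comm]
    rw [hre]
    push_cast
    ring

theorem phase_sq_le (f : ℕ → ℝ) (N : ℕ) :
    ‖∑ n ∈ range N, ee (f n)‖ ^ 2 ≤
      N + 2 * ∑ h ∈ range N, ‖∑ n ∈ range (N - (h + 1)), ee (f (n + (h + 1)) - f n)‖ := by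
  rw [norm_sq_phase_sum]
  gcongr
  exact (Complex.re_le_norm _).trans (norm_sum_le _ _)

theorem phase_sum_trivial (f : ℕ → ℝ) (N : ℕ) : ‖∑ n ∈ range N, ee (f n)‖ ≤ N := by
  refine (norm_sum_le _ _).trans ?_
  simp [norm_ee]

/-- A large linear sum has frequency close to an integer. -/
theorem linear_phase {δ α β : ℝ} {N : ℕ} (hδ : 0 < δ) (hN : 1 ≤ N)
    (hS : δ * N ≤ ‖∑ n ∈ range N, ee (α * n + β)‖) :
    ∃ z : ℤ, |α - z| ≤ 1 / (δ * N) := by
  refine ⟨round α, ?_⟩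
  set t := α - round α with ht
  have ht2 : |t| ≤ 1 / 2 := abs_sub_round α
  rcases eq_or_ne t 0 with h0 | h0
  · rw [h0, abs_zero]; positivity
  have hterm : ∀ n : ℕ, ee (α * n + β) = ee β * ee t ^ n := by
    intro n
    induction n with
    | zero => simp
    | succ n ih =>
      rw [pow_succ, ← mul_assoc, ← ih, ← ee_add, ← ee_add_int (α * n + β + t) (round α)]
      congr 1
      push_cast
      rw [ht]; ring
  have hlow : 4 * |t| ≤ ‖ee t - 1‖ := by
    have h1 : ‖ee t - 1‖ = 2 * |Real.sin (Real.pi * t)| := by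
      rw [ee, show 2 * (Real.pi : ℂ) * (t : ℂ) * Complex.I
        = Complex.I * ((2 * Real.pi * t : ℝ) : ℂ) by push_cast; ring,
        Complex.norm_exp_I_mul_ofReal_sub_one]
      rw [Real.norm_eq_abs, abs_mul, abs_two, show 2 * Real.pi * t / 2 = Real.pi * t by ring]
    have h2 : |Real.pi * t| ≤ Real.pi / 2 := by
      rw [abs_mul, abs_of_pos Real.pi_pos]
      nlinarith [Real.pi_pos]
    have h3 := Real.mul_abs_le_abs_sin h2
    rw [abs_mul, abs_of_pos Real.pi_pos] at h3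
    rw [h1]
    have h4 : 2 / Real.pi * (Real.pi * |t|) = 2 * |t| := by field_simp
    linarith
  have hne : ee t ≠ 1 := by
    intro he
    rw [he, sub_self, norm_zero] at hlow
    exact h0 (abs_eq_zero.1 (le_antisymm (by linarith) (abs_nonneg _)))
  simp only [hterm, ← mul_sum] at hS
  rw [norm_mul, norm_ee, one_mul, geom_sum_eq hne, norm_div] at hS
  have hnum : ‖ee t ^ N - 1‖ ≤ 2 := by
    refine (norm_sub_le _ _).trans ?_
    rw [norm_pow, norm_ee, one_pow, norm_one]; norm_num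
  have hden : 0 < ‖ee t - 1‖ := norm_pos_iff.2 (sub_ne_zero.2 hne)
  rw [le_div_iff₀ hden] at hS
  have hN' : (0 : ℝ) < N := by exact_mod_cast hN
  rw [le_div_iff₀ (mul_pos hδ hN')]
  nlinarith [mul_le_mul_of_nonneg_left hlow (mul_pos hδ hN').le]

/-- Many near multiples force a small denominator. -/
theorem linear_recurrence {β η ε : ℝ} {N : ℕ} (S : Finset ℕ) (hη : 0 < η) (hη1 : η ≤ 1)
    (hε0 : 0 ≤ ε) (hε : ε ≤ η / 24) (hN : 8 / η ≤ N) (hS : ∀ h ∈ S, 1 ≤ h ∧ h ≤ N)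
    (hcard : η * N ≤ S.card) (hnear : ∀ h ∈ S, ∃ z : ℤ, |(h : ℝ) * β - z| ≤ ε) :
    ∃ q : ℕ, 1 ≤ q ∧ (q : ℝ) ≤ 4 / η ∧ ∃ z : ℤ, |(q : ℝ) * β - z| ≤ ε / (η * N) := by
  classical
  have hNpos : (0 : ℝ) < N := lt_of_lt_of_le (by positivity) hN
  have hNnat : 0 < 2 * N := by
    have : 0 < N := by exact_mod_cast hNpos
    omega
  obtain ⟨r, hr, hrden⟩ := Real.exists_rat_abs_sub_le_and_den_le β hNnat
  set q := r.den with hq
  have hq0 : 0 < q := r.pos
  have hqR : (0 : ℝ) < q := by exact_mod_cast hq0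
  set θ := β - r with hθ
  have hrq : (r : ℝ) * q = (r.num : ℝ) := by
    rw [hq]; exact_mod_cast Rat.mul_den_eq_num r
  have hθb : ∀ h : ℕ, h ≤ N → |(h : ℝ) * θ| * q ≤ 1 / 2 := by
    intro h hh
    have h1 : |θ| * ((2 * (N : ℝ) + 1) * q) ≤ 1 := by
      rw [← le_div_iff₀ (by positivity)]
      exact_mod_cast hr
    have hhR : (h : ℝ) ≤ N := by exact_mod_cast hh
    rw [abs_mul, Nat.abs_cast]
    nlinarith [mul_le_mul_of_nonneg_right hhR (mul_nonneg (abs_nonneg θ) hqR.le),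
      mul_nonneg (abs_nonneg θ) hqR.le]
  -- the residue attached to an element of `S`
  have hres : ∀ h ∈ S, ∃ u : ℤ, |(u : ℝ)| ≤ ε * q + 1 / 2 ∧ (q : ℤ) ∣ (h : ℤ) * r.num - u := by
    intro h hh
    obtain ⟨z, hz⟩ := hnear h hh
    refine ⟨(h : ℤ) * r.num - z * q, ?_, ⟨z, by ring⟩⟩
    push_cast
    have e : (h : ℝ) * r.num - z * q = ((h : ℝ) * β - z) * q - (h : ℝ) * θ * q := by
      rw [← hrq, hθ]; ring
    rw [e]
    refine (abs_sub _ _).trans (add_le_add ?_ ?_)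
    · rw [abs_mul, Nat.abs_cast]; exact mul_le_mul_of_nonneg_right hz hqR.le
    · rw [abs_mul, Nat.abs_cast q]; exact hθb h (hS h hh).2
  choose! u hu hud using hres
  set L : ℤ := ⌊ε * q + 1 / 2⌋ with hL
  have hL0 : 0 ≤ L := Int.floor_nonneg.2 (by positivity)
  have huI : ∀ h ∈ S, u h ∈ Icc (-L) L := by
    intro h hh
    have h1 : |u h| ≤ L := Int.le_floor.2 (by push_cast; exact hu h hh)
    exact mem_Icc.2 (abs_le.1 h1)
  have hcop : IsCoprime (q : ℤ) r.num := by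
    rw [Int.isCoprime_iff_nat_coprime, Int.natAbs_natCast]
    exact r.reduced.symm
  have hfib : ∀ x ∈ Icc (-L) L, (S.filter fun h => u h = x).card ≤ N / q + 1 := by
    intro x _
    calc (S.filter fun h => u h = x).card
        ≤ (range (N / q + 1)).card := by
          refine card_le_card_of_injOn (fun h => h / q) (fun h hh => ?_) fun a ha b hb hab => ?_
          · simp only [mem_coe, mem_range]
            exact Nat.lt_succ_of_le (Nat.div_le_div_right (hS h (mem_filter.1 hh).1).2)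
          · have ha' := mem_filter.1 ha
            have hb' := mem_filter.1 hb
            have hd : (q : ℤ) ∣ ((a : ℤ) - b) * r.num := by
              have := dvd_sub (hud a ha'.1) (hud b hb'.1)
              rw [ha'.2, hb'.2] at this
              rwa [show ((a : ℤ) - b) * r.num = (a : ℤ) * r.num - x - ((b : ℤ) * r.num - x) by ring]
            have hmod : a % q = b % q := by
              have h2 := (Int.modEq_iff_dvd.2 (hcop.dvd_of_dvd_mul_right hd)).symm
              exact (Int.natCast_modEq_iff.1 h2)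
            simp only at hab
            rw [← Nat.div_add_mod a q, ← Nat.div_add_mod b q, hab, hmod]
      _ = _ := card_range _
  have hcount : S.card ≤ (Icc (-L) L).card * (N / q + 1) := by
    rw [card_eq_sum_card_fiberwise huI]
    refine (sum_le_card_nsmul _ _ _ hfib).trans ?_
    simp
  have hqN : (q : ℝ) ≤ 2 * N := by exact_mod_cast hrden
  have hq4 : (q : ℝ) ≤ 4 / η := by
    have h1 : ((Icc (-L) L).card : ℝ) ≤ 2 * ε * q + 2 := by
      have h2 : ((Icc (-L) L).card : ℤ) = 2 * L + 1 := by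
        rw [Int.card_Icc, Int.toNat_of_nonneg (by omega)]; ring
      have h3 : ((Icc (-L) L).card : ℝ) = 2 * (L : ℝ) + 1 := by exact_mod_cast h2
      have := Int.floor_le (ε * q + 1 / 2)
      rw [h3]; linarith
    have h2 : ((N / q : ℕ) : ℝ) ≤ N / q := Nat.cast_div_le
    have h3 : (S.card : ℝ) ≤ (2 * ε * q + 2) * (N / q + 1) := by
      refine (Nat.cast_le.2 hcount).trans ?_
      push_cast
      gcongr
    have h4 : (2 * ε * q + 2) * (N / q + 1) = 2 * ε * N + 2 * ε * q + 2 * N / q + 2 := by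
      field_simp; ring
    have h5 : η * N / 2 ≤ 2 * N / q := by
      have h6 : 2 * ε * q ≤ 4 * ε * N := by nlinarith
      have h7 : 8 ≤ η * N := by
        rw [div_le_iff₀ hη] at hN; linarith
      nlinarith
    rw [le_div_iff₀ hqR] at h5
    rw [le_div_iff₀ hη]
    nlinarith
  have hεq : ε * q < 1 / 2 := by
    rw [le_div_iff₀ hη] at hq4
    nlinarith
  have hL' : L = 0 := by
    have : L < 1 := Int.floor_lt.2 (by push_cast; linarith)
    omega
  have hdiv : ∀ h ∈ S, q ∣ h := by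
    intro h hh
    have h0 := huI h hh
    rw [hL', neg_zero, mem_Icc] at h0
    have := hud h hh
    rw [show u h = 0 by omega, sub_zero] at this
    exact Int.natCast_dvd_natCast.1 (hcop.dvd_of_dvd_mul_right this)
  have hne : S.Nonempty := card_pos.1 (by
    have : (0 : ℝ) < S.card := lt_of_lt_of_le (mul_pos hη hNpos) hcard
    exact_mod_cast this)
  set M := (S.image fun h => h / q).max' (hne.image _) with hM
  have hMcard : η * N ≤ M := by
    refine hcard.trans (Nat.cast_le.2 ?_)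
    have hinj : Set.InjOn (fun h => h / q) S := fun a ha b hb hab => by
      rw [← Nat.div_mul_cancel (hdiv a ha), ← Nat.div_mul_cancel (hdiv b hb)]
      exact congrArg (· * q) hab
    rw [← card_image_of_injOn hinj]
    calc (S.image fun h => h / q).card ≤ (Icc 1 M).card := by
          refine card_le_card fun x hx => mem_Icc.2 ⟨?_, le_max' _ x hx⟩
          obtain ⟨h, hh, rfl⟩ := mem_image.1 hx
          exact Nat.one_le_div_iff hq0 |>.2 (Nat.le_of_dvd (hS h hh).1 (hdiv h hh))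
      _ = M := by simp
  obtain ⟨h, hh, hhM⟩ := mem_image.1 (max'_mem (S.image fun h => h / q) (hne.image _))
  refine ⟨q, hq0, hq4, r.num, ?_⟩
  have hhq : (h : ℝ) = (M : ℝ) * q := by
    rw [hM, ← hhM]
    exact_mod_cast (Nat.div_mul_cancel (hdiv h hh)).symm
  have hθq : (q : ℝ) * β - r.num = q * θ := by rw [← hrq, hθ]; ring
  rw [hθq]
  obtain ⟨z, hz⟩ := hnear h hh
  have hzM : (z : ℝ) - M * r.num = 0 := by
    have hb : |(((z - M * r.num : ℤ)) : ℝ)| < 1 := by
      have e : ((z - M * r.num : ℤ) : ℝ) = (h : ℝ) * θ - ((h : ℝ) * β - z) := by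
        push_cast; rw [hhq, ← hrq, hθ]; ring
      rw [e]
      have hb1 : |(h : ℝ) * θ| ≤ 1 / 2 := by
        have hq1 : (1 : ℝ) ≤ q := by exact_mod_cast hq0
        nlinarith [hθb h (hS h hh).2, abs_nonneg ((h : ℝ) * θ)]
      have : ε < 1 / 2 := by linarith
      exact (abs_sub _ _).trans_lt (by linarith)
    have h1 : |z - (M : ℤ) * r.num| < 1 := by exact_mod_cast hb
    rw [abs_lt] at h1
    have h2 : z - (M : ℤ) * r.num = 0 := by omega
    exact_mod_cast h2
  have hfin : |(M : ℝ) * ((q : ℝ) * θ)| ≤ ε := by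
    refine le_of_eq_of_le ?_ hz
    congr 1
    rw [hhq, ← hθq]
    linarith
  rw [abs_mul, Nat.abs_cast] at hfin
  rw [le_div_iff₀ (mul_pos hη hNpos)]
  nlinarith [mul_le_mul_of_nonneg_right hMcard (abs_nonneg ((q : ℝ) * θ))]

/-- The differenced polynomial. -/
theorem diff_poly (p : ℝ[X]) (k : ℕ) (hp : p.natDegree ≤ k + 1) (h : ℝ) :
    ∃ p' : ℝ[X], p'.natDegree ≤ k ∧ p'.coeff k = (k + 1) * h * p.coeff (k + 1) ∧
      ∀ x : ℝ, p'.eval x = p.eval (x + h) - p.eval x := by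
  refine ⟨taylor h p - p, ?_, ?_, fun x => ?_⟩
  · refine natDegree_le_iff_coeff_eq_zero.2 fun j hj => ?_
    rw [coeff_sub, taylor_coeff]
    have hd : (hasseDeriv j p).natDegree ≤ 0 := (natDegree_hasseDeriv_le p j).trans (by omega)
    rw [eq_C_of_natDegree_le_zero hd, eval_C, hasseDeriv_coeff]
    simp
  · rw [coeff_sub, taylor_coeff]
    have hd : (hasseDeriv k p).natDegree ≤ 1 := (natDegree_hasseDeriv_le p k).trans (by omega)
    rw [eq_X_add_C_of_natDegree_le_one hd]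
    simp only [hasseDeriv_coeff, eval_add, eval_mul, eval_C, eval_X, zero_add, Nat.choose_self,
      Nat.cast_one, one_mul]
    rw [show 1 + k = k + 1 by omega, Nat.choose_succ_self_right]
    push_cast
    ring
  · rw [eval_sub, taylor_eval]

/-- Many of the summands are large. -/
theorem many_large {F : ℕ → ℝ} {N : ℕ} {δ' : ℝ} (hN : (0 : ℝ) < N) (hδ : 0 ≤ δ')
    (hF : ∀ h, F h ≤ N) (hsum : 8 * δ' * (N : ℝ) ^ 2 ≤ N + 2 * ∑ h ∈ range N, F h)
    (hbig : 2 ≤ 8 * δ' * N) :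
    δ' * N ≤ ((range N).filter fun h => δ' * N ≤ F h).card := by
  set G := (range N).filter fun h => δ' * N ≤ F h with hG
  have h1 : ∑ h ∈ range N, F h ≤ ∑ h ∈ range N, (δ' * N + if h ∈ G then (N : ℝ) else 0) := by
    refine sum_le_sum fun h hh => ?_
    have hnn : 0 ≤ δ' * N := by positivity
    split
    · linarith [hF h]
    · rename_i hg
      have : F h < δ' * N := lt_of_not_ge fun hge => hg (mem_filter.2 ⟨hh, hge⟩)
      linarith
  have h2 : ∑ h ∈ range N, (δ' * N + if h ∈ G then (N : ℝ) else 0) =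
      N * (δ' * N) + G.card * N := by
    rw [sum_add_distrib, sum_const, card_range, nsmul_eq_mul, ← sum_filter,
      filter_mem_eq_inter, inter_eq_right.2 (filter_subset _ _), sum_const, nsmul_eq_mul]
  refine le_of_mul_le_mul_right ?_ hN
  nlinarith

/-- One denominator serves many shifts; recurrence then gives a second one. -/
theorem common_step (G : Finset ℕ) {N : ℕ} (hGN : ∀ h ∈ G, h < N) {η ε Q δ' : ℝ} (hη0 : 0 < η)
    (hη1 : η ≤ 1) (hε0 : 0 ≤ ε) (hε : ε ≤ η / 24) (hN8 : 8 / η ≤ N) (hQ1 : 1 ≤ Q)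
    (hGcard : δ' * N ≤ G.card) (hQη : Q * η = δ') (α : ℝ)
    (hq : ∀ h ∈ G, ∃ q : ℕ, 1 ≤ q ∧ (q : ℝ) ≤ Q ∧
      ∃ z : ℤ, |((h + 1 : ℕ) : ℝ) * ((q : ℝ) * α) - z| ≤ ε) :
    ∃ q₁ q₂ : ℕ, 1 ≤ q₁ ∧ (q₁ : ℝ) ≤ Q ∧ 1 ≤ q₂ ∧ (q₂ : ℝ) ≤ 4 / η ∧
      ∃ z : ℤ, |(q₂ : ℝ) * ((q₁ : ℝ) * α) - z| ≤ ε / (η * N) := by
  classical
  choose! qf hqf1 hqfQ hqfz using hq
  set Qn := ⌊Q⌋₊ with hQn
  have hmap : ∀ h ∈ G, qf h ∈ Icc 1 Qn := fun h hh =>
    mem_Icc.2 ⟨hqf1 h hh, Nat.le_floor (hqfQ h hh)⟩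
  obtain ⟨q₁, hq₁, hfib⟩ : ∃ q₁ ∈ Icc 1 Qn, η * N ≤ (G.filter fun h => qf h = q₁).card := by
    by_contra hcon
    push Not at hcon
    have hne : (Icc 1 Qn).Nonempty := nonempty_Icc.2 (Nat.one_le_floor_iff _ |>.2 hQ1)
    have hlt : ∑ q₁ ∈ Icc 1 Qn, ((G.filter fun h => qf h = q₁).card : ℝ) <
        ∑ _q₁ ∈ Icc 1 Qn, η * N := sum_lt_sum_of_nonempty hne hcon
    rw [sum_const, nsmul_eq_mul, Nat.card_Icc, Nat.add_sub_cancel, ← Nat.cast_sum,
      ← card_eq_sum_card_fiberwise hmap] at hlt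
    have h1 : (Qn : ℝ) * (η * N) ≤ Q * (η * N) :=
      mul_le_mul_of_nonneg_right (Nat.floor_le (by linarith)) (by positivity)
    have h2 : Q * (η * N) = δ' * N := by rw [← mul_assoc, hQη]
    linarith
  set S := (G.filter fun h => qf h = q₁).image fun h => h + 1 with hSdef
  obtain ⟨q₂, hq₂1, hq₂, z, hz⟩ := linear_recurrence (β := (q₁ : ℝ) * α) S hη0 hη1 hε0 hε hN8
    (fun h hh => by
      obtain ⟨a, ha, rfl⟩ := mem_image.1 hh
      have := hGN a (mem_filter.1 ha).1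
      omega)
    (by rw [hSdef, card_image_of_injective _ (add_left_injective 1)]; exact hfib)
    (fun h hh => by
      obtain ⟨a, ha, rfl⟩ := mem_image.1 hh
      obtain ⟨z, hz⟩ := hqfz a (mem_filter.1 ha).1
      exact ⟨z, by rw [← (mem_filter.1 ha).2]; exact hz⟩)
  exact ⟨q₁, q₂, (mem_Icc.1 hq₁).1,
    (Nat.cast_le.2 (mem_Icc.1 hq₁).2).trans (Nat.floor_le (by linarith)), hq₂1, hq₂, z, hz⟩

/-- Weyl's inequality in inverse form. -/
theorem weyl_inverse (k : ℕ) (hk : 1 ≤ k) :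
    ∃ (A : ℝ) (e : ℕ), 1 ≤ A ∧ ∀ δ : ℝ, 0 < δ → δ ≤ 1 → ∀ N : ℕ, 1 ≤ N → ∀ p : ℝ[X],
      p.natDegree ≤ k → δ * N ≤ ‖∑ n ∈ range N, ee (p.eval (n : ℝ))‖ →
      ∃ q : ℕ, 1 ≤ q ∧ (q : ℝ) ≤ A / δ ^ e ∧
        ∃ z : ℤ, |(q : ℝ) * p.coeff k - z| ≤ A / δ ^ e / (N : ℝ) ^ k := by
  induction k, hk using Nat.le_induction with
  | base =>
    refine ⟨1, 1, le_rfl, fun δ hδ hδ1 N hN p hp hS => ⟨1, le_rfl, ?_, ?_⟩⟩
    · rw [pow_one, le_div_iff₀ hδ]; push_cast; linarith
    · have he : ∀ n : ℕ, p.eval (n : ℝ) = p.coeff 1 * n + p.coeff 0 := fun n => by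
        nth_rewrite 1 [eq_X_add_C_of_natDegree_le_one hp]
        simp
      simp only [he] at hS
      obtain ⟨z, hz⟩ := linear_phase hδ hN hS
      refine ⟨z, ?_⟩
      rw [Nat.cast_one, one_mul, pow_one, pow_one, div_div]
      exact hz
  | succ k hk ih =>
    obtain ⟨A, e, hA, hI⟩ := ih
    set u := 2 * (2 * e + (k + 1)) with hu
    set U : ℝ := A ^ 2 * 8 ^ (2 * e + (k + 1)) with hU
    have hU1 : 1 ≤ U := one_le_mul_of_one_le_of_one_le (one_le_pow₀ hA) (one_le_pow₀ (by norm_num))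
    refine ⟨4 * (k + 1) * (32 * U) ^ (k + 1), u * (k + 1), ?_, fun δ hδ hδ1 N hN p hp hS => ?_⟩
    · refine one_le_mul_of_one_le_of_one_le ?_ (one_le_pow₀ (by linarith))
      have : (0 : ℝ) ≤ k := Nat.cast_nonneg k
      linarith
    set T : ℝ := U / δ ^ u with hT
    have hT1 : 1 ≤ T := by
      rw [hT, le_div_iff₀ (by positivity), one_mul]
      exact (pow_le_one₀ hδ.le hδ1).trans hU1
    set B : ℝ := 4 * (k + 1) * (32 * U) ^ (k + 1) / δ ^ (u * (k + 1)) with hB
    have hBT : B = 4 * (k + 1) * (32 * T) ^ (k + 1) := by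
      rw [hB, hT, ← mul_div_assoc 32, div_pow, ← pow_mul, mul_div_assoc]
    set δ' : ℝ := δ ^ 2 / 8 with hδ'
    have hδ'0 : 0 < δ' := by positivity
    have hδ'1 : δ' ≤ 1 := by
      rw [hδ']
      have : δ ^ 2 ≤ 1 := pow_le_one₀ hδ.le hδ1
      linarith
    set Q : ℝ := A / δ' ^ e with hQ
    have hQ1 : 1 ≤ Q := by
      rw [hQ, le_div_iff₀ (by positivity), one_mul]
      exact (pow_le_one₀ hδ'0.le hδ'1).trans hA
    have hTQ : Q ^ 2 / δ' ^ (k + 1) = T := by
      rw [hQ, hT, hU, hu, hδ', div_pow A, div_div, ← pow_mul, ← pow_add, div_pow, ← pow_mul δ,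
        mul_comm e 2, div_div_eq_mul_div]
    set η : ℝ := δ' / Q with hη
    have hη0 : 0 < η := by positivity
    have hη1 : η ≤ 1 := by rw [hη, div_le_one (by positivity)]; exact hδ'1.trans hQ1
    set R : ℝ := Q / δ' ^ k with hR
    have hR0 : 0 ≤ R := by positivity
    have hRη : R / η = T := by
      rw [← hTQ, hR, hη]; field_simp; ring
    have hηT : 1 / η ≤ T := by
      rw [← hRη]
      gcongr
      rw [hR, le_div_iff₀ (by positivity), one_mul]
      exact (pow_le_one₀ hδ'0.le hδ'1).trans hQ1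
    have hk1 : (1 : ℝ) ≤ 4 * (k + 1) := by
      have : (0 : ℝ) ≤ k := Nat.cast_nonneg k
      linarith
    have hB0 : 4 * (k + 1) * T ≤ B := by
      rw [hBT]
      refine mul_le_mul_of_nonneg_left ?_ (by positivity)
      exact (by linarith : T ≤ 32 * T).trans (le_self_pow₀ (by linarith) (by omega))
    have hB1 : (1 : ℝ) ≤ B := le_trans (one_le_mul_of_one_le_of_one_le hk1 hT1) hB0
    have hNpos : (0 : ℝ) < N := by exact_mod_cast hN
    by_cases hbig : (N : ℝ) ≤ 32 * T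
    · refine ⟨1, le_rfl, by exact_mod_cast hB1, round (p.coeff (k + 1)), ?_⟩
      rw [Nat.cast_one, one_mul]
      refine (abs_sub_round _).trans ?_
      rw [le_div_iff₀ (pow_pos hNpos _)]
      have h1 : (N : ℝ) ^ (k + 1) ≤ (32 * T) ^ (k + 1) := pow_le_pow_left₀ hNpos.le hbig _
      have h2 : (32 * T) ^ (k + 1) ≤ B := by
        rw [hBT]; exact le_mul_of_one_le_left (by positivity) hk1
      have h3 : (0 : ℝ) ≤ (N : ℝ) ^ (k + 1) := by positivity
      linarith
    push Not at hbig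
    have hdiff := fun h : ℕ => diff_poly p k hp ((h : ℝ) + 1)
    choose P hPd hPc hPe using hdiff
    set F : ℕ → ℝ := fun h => ‖∑ n ∈ range (N - (h + 1)), ee ((P h).eval (n : ℝ))‖ with hF
    have hsum : δ ^ 2 * (N : ℝ) ^ 2 ≤ N + 2 * ∑ h ∈ range N, F h := by
      rw [← mul_pow]
      refine (pow_le_pow_left₀ (by positivity) hS 2).trans ((phase_sq_le _ N).trans (le_of_eq ?_))
      simp only [hF, hPe, Nat.cast_add, Nat.cast_one]
    set G := (range N).filter fun h => δ' * N ≤ F h with hG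
    have hFN : ∀ h, F h ≤ N := fun h =>
      (phase_sum_trivial _ _).trans (Nat.cast_le.2 (Nat.sub_le _ _))
    have h3 : 2 ≤ 8 * δ' * N := by
      have h4 : 1 / δ' ≤ 1 / η := by
        refine one_div_le_one_div_of_le hη0 ?_
        rw [hη]; exact div_le_self hδ'0.le hQ1
      have h5 : 1 / δ' ≤ N := by linarith
      rw [div_le_iff₀ hδ'0] at h5
      linarith
    have hGcard : δ' * N ≤ G.card :=
      many_large hNpos hδ'0.le hFN (by rw [show 8 * δ' = δ ^ 2 by rw [hδ']; ring]; exact hsum) h3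
    have hq : ∀ h ∈ G, ∃ q : ℕ, 1 ≤ q ∧ (q : ℝ) ≤ Q ∧
        ∃ z : ℤ, |((h + 1 : ℕ) : ℝ) * ((q : ℝ) * (k + 1) * p.coeff (k + 1)) - z| ≤
          R / (N : ℝ) ^ k := by
      intro h hh
      have hFh : δ' * N ≤ F h := (mem_filter.1 hh).2
      set N' := N - (h + 1) with hN'
      have hN'le : (N' : ℝ) ≤ N := Nat.cast_le.2 (Nat.sub_le _ _)
      have hlen : δ' * N ≤ N' := hFh.trans (phase_sum_trivial _ _)
      have hN'1 : 1 ≤ N' := by
        have : (0 : ℝ) < N' := lt_of_lt_of_le (by positivity) hlen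
        exact_mod_cast this
      obtain ⟨q, hq1, hqle, z, hz⟩ := hI δ' hδ'0 hδ'1 N' hN'1 (P h) (hPd h)
        ((mul_le_mul_of_nonneg_left hN'le hδ'0.le).trans hFh)
      refine ⟨q, hq1, hqle, z, ?_⟩
      calc |((h + 1 : ℕ) : ℝ) * ((q : ℝ) * (k + 1) * p.coeff (k + 1)) - z|
          = |(q : ℝ) * (P h).coeff k - z| := by rw [hPc]; push_cast; ring_nf
        _ ≤ Q / (N' : ℝ) ^ k := hz
        _ ≤ Q / (δ' * N) ^ k := by
          gcongr
        _ = R / (N : ℝ) ^ k := by rw [hR, hQ, mul_pow]; field_simp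
    have hεη : R / (N : ℝ) ^ k ≤ η / 24 := by
      rw [div_le_iff₀ (pow_pos hNpos _)]
      have h1 : (N : ℝ) ≤ (N : ℝ) ^ k := le_self_pow₀ (by exact_mod_cast hN) (by omega)
      have h2 : R = T * η := by rw [← hRη]; field_simp
      rw [h2]
      nlinarith
    have hN8 : 8 / η ≤ N := by
      rw [div_eq_mul_inv, ← one_div]
      linarith
    obtain ⟨q₁, q₂, hq₁1, hq₁, hq₂1, hq₂, z, hz⟩ :=
      common_step G (fun h hh => mem_range.1 (mem_filter.1 hh).1) hη0 hη1 (by positivity) hεη hN8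
        hQ1 hGcard (by rw [hη]; field_simp) ((k + 1 : ℝ) * p.coeff (k + 1)) (fun h hh => by
          obtain ⟨q, h1, h2, z, hz⟩ := hq h hh
          exact ⟨q, h1, h2, z, by rw [← mul_assoc (q : ℝ)]; exact hz⟩)
    refine ⟨q₂ * q₁ * (k + 1), Nat.mul_pos (Nat.mul_pos hq₂1 hq₁1) k.succ_pos, ?_,
      z, ?_⟩
    · have h1 : (q₁ : ℝ) ≤ Q := hq₁
      have h2 : (q₂ : ℝ) * q₁ ≤ 4 / η * Q := mul_le_mul hq₂ h1 (Nat.cast_nonneg _) (by positivity)
      have h3 : 4 / η * Q ≤ 4 * T := by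
        rw [← hTQ, hη]
        have : δ' ^ (k + 1) ≤ δ' := pow_le_of_le_one hδ'0.le hδ'1 (by omega)
        calc 4 / (δ' / Q) * Q = 4 * (Q ^ 2 / δ') := by field_simp
          _ ≤ _ := by gcongr
      push_cast
      calc (q₂ : ℝ) * q₁ * (k + 1) ≤ 4 * T * (k + 1) :=
            mul_le_mul_of_nonneg_right (h2.trans h3) (by positivity)
        _ ≤ B := by linarith
    · calc |((q₂ * q₁ * (k + 1) : ℕ) : ℝ) * p.coeff (k + 1) - z|
          = |(q₂ : ℝ) * ((q₁ : ℝ) * ((k + 1 : ℝ) * p.coeff (k + 1))) - z| := by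
            push_cast; ring_nf
        _ ≤ R / (N : ℝ) ^ k / (η * N) := hz
        _ = T / (N : ℝ) ^ (k + 1) := by rw [← hRη, pow_succ]; field_simp
        _ ≤ B / (N : ℝ) ^ (k + 1) := by
          gcongr
          nlinarith

end

end Vale.Agent.P042.Upper
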