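import Vale.Agent.P042.Upper.Basic

/-!
The auxiliary polynomials of an intersective polynomial.

For each prime `p` fix a `p`-adic root `z p` of `h` and its multiplicity `m p`. For `d ≥ 1` take the
residue `r d` in `(-d, 0]` congruent to `z p` modulo the `p`-part of `d` for all `p`, and divide
`h (r d + d X)` by the product of the `p ^ (m p * v p d)`.
-/

open Finset Polynomial

namespace Vale.Agent.P042.Upper

noncomputable section

namespace Aux

theorem exists_int_multiple (b : ℚ[X]) :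
    ∃ (N : ℤ) (B : ℤ[X]), N ≠ 0 ∧ B.map (Int.castRingHom ℚ) = C (N : ℚ) * b := by
  induction b using Polynomial.induction_on' with
  | add f g hf hg =>
    obtain ⟨N₁, B₁, h1, e1⟩ := hf
    obtain ⟨N₂, B₂, h2, e2⟩ := hg
    refine ⟨N₁ * N₂, C N₂ * B₁ + C N₁ * B₂, mul_ne_zero h1 h2, ?_⟩
    simp only [Polynomial.map_add, Polynomial.map_mul, map_C, e1, e2, Int.coe_castRingHom,
      Int.cast_mul, C_mul]
    ring
  | monomial n a =>
    refine ⟨(a.den : ℤ), monomial n a.num, by simp, ?_⟩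
    rw [map_monomial, C_mul_monomial]
    congr 1
    rw [eq_intCast]
    field_simp
    simp [mul_comm]

theorem map_hasseDeriv {R S : Type*} [Semiring R] [Semiring S] (φ : R →+* S) (n : ℕ) (f : R[X]) :
    (hasseDeriv n f).map φ = hasseDeriv n (f.map φ) := by
  ext i
  simp [hasseDeriv_coeff, map_natCast]

theorem padic_eval {p : ℕ} [Fact p.Prime] (f : ℤ[X]) (z : ℤ_[p]) :
    (((f.map (Int.castRingHom ℤ_[p])).eval z : ℤ_[p]) : ℚ_[p]) =
      f.eval₂ (Int.castRingHom ℚ_[p]) (z : ℚ_[p]) := by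
  rw [eval_map]
  show PadicInt.Coe.ringHom _ = _
  rw [hom_eval₂]
  exact congrArg (fun ψ : ℤ →+* ℚ_[p] => f.eval₂ ψ (z : ℚ_[p])) (RingHom.ext_int _ _)

theorem aeval_map_int {p : ℕ} [Fact p.Prime] (f : ℤ[X]) (x : ℚ_[p]) :
    aeval x (f.map (Int.castRingHom ℚ)) = f.eval₂ (Int.castRingHom ℚ_[p]) x := by
  rw [aeval_def, eval₂_map]
  exact congrArg (fun ψ : ℤ →+* ℚ_[p] => f.eval₂ ψ x) (RingHom.ext_int _ _)

/-- A nonzero integer divisible by every nonzero Taylor coefficient at every `p`-adic root. -/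
theorem exists_bound (h : ℤ[X]) (hh : h ≠ 0) :
    ∃ D₀ : ℤ, D₀ ≠ 0 ∧ ∀ (p : ℕ) [Fact p.Prime] (z : ℤ_[p]),
      (h.map (Int.castRingHom ℤ_[p])).eval z = 0 → ∀ m ≤ h.natDegree,
        ((hasseDeriv m h).map (Int.castRingHom ℤ_[p])).eval z ≠ 0 →
        ((hasseDeriv m h).map (Int.castRingHom ℤ_[p])).eval z ∣ (D₀ : ℤ_[p]) := by
  classical
  let hQ := h.map (Int.castRingHom ℚ)
  have hQ0 : hQ ≠ 0 := (Polynomial.map_ne_zero_iff (RingHom.injective_int _)).2 hh
  let S := (UniqueFactorizationMonoid.normalizedFactors hQ).toFinset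
  let H : ℕ → ℚ[X] := fun m => (hasseDeriv m h).map (Int.castRingHom ℚ)
  have key : ∀ (P : ℚ[X]) (m : ℕ), ∃ (N : ℤ) (B : ℤ[X]), N ≠ 0 ∧
      (IsCoprime P (H m) → ∃ a, a * P + B.map (Int.castRingHom ℚ) * H m = C (N : ℚ)) := by
    intro P m
    by_cases hc : IsCoprime P (H m)
    · obtain ⟨a, b, hab⟩ := hc
      obtain ⟨N, B, hN, hB⟩ := exists_int_multiple b
      refine ⟨N, B, hN, fun _ => ⟨C (N : ℚ) * a, ?_⟩⟩
      rw [hB, mul_assoc, mul_assoc, ← mul_add, hab, mul_one]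
    · exact ⟨1, 0, one_ne_zero, fun h' => absurd h' hc⟩
  choose N B hN hB using key
  refine ⟨∏ x ∈ S ×ˢ range (h.natDegree + 1), N x.1 x.2,
    prod_ne_zero_iff.2 fun x _ => hN _ _, ?_⟩
  intro p _ z hz m hm hu
  let x : ℚ_[p] := z
  have hx : aeval x hQ = 0 := by
    rw [aeval_map_int, ← padic_eval, hz]; rfl
  have hint : IsIntegral ℚ x := (IsAlgebraic.isIntegral ⟨hQ, hQ0, hx⟩)
  have hP : minpoly ℚ x ∈ S := by
    rw [Multiset.mem_toFinset, Polynomial.mem_normalizedFactors_iff hQ0]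
    exact ⟨minpoly.irreducible hint, minpoly.monic hint, minpoly.dvd ℚ x hx⟩
  have hc : IsCoprime (minpoly ℚ x) (H m) := by
    refine ((minpoly.irreducible hint).coprime_iff_not_dvd).2 fun hd => hu ?_
    obtain ⟨t, ht⟩ := hd
    have : aeval x (H m) = 0 := by rw [ht, map_mul, minpoly.aeval, zero_mul]
    rw [aeval_map_int, ← padic_eval] at this
    exact PadicInt.coe_eq_zero.1 this
  obtain ⟨a, ha⟩ := hB _ m hc
  have e := congrArg (aeval x) ha
  rw [map_add, map_mul, map_mul, minpoly.aeval, mul_zero, zero_add, aeval_map_int, aeval_map_int,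
    ← padic_eval, ← padic_eval, aeval_C, eq_ratCast, Rat.cast_intCast, ← PadicInt.coe_intCast,
    ← PadicInt.coe_mul] at e
  have e' := Subtype.coe_injective e
  refine (Dvd.intro_left _ e').trans ?_
  have := Int.cast_dvd_cast (α := ℤ_[p]) _ _
    (dvd_prod_of_mem (fun y : ℚ[X] × ℕ => N y.1 y.2)
      ((mem_product (p := (minpoly ℚ x, m))).2 ⟨hP, mem_range.2 (Nat.lt_succ_of_le hm)⟩))
  exact this

/-- A `p`-adic root with its multiplicity and the value of the cofactor. -/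
theorem exists_root (h : ℤ[X]) (hh : h ≠ 0)
    (hint : ∀ q : ℕ, 1 ≤ q → ∃ t : ℤ, (q : ℤ) ∣ h.eval t) (D₀ : ℤ)
    (hD : ∀ (p : ℕ) [Fact p.Prime] (z : ℤ_[p]),
      (h.map (Int.castRingHom ℤ_[p])).eval z = 0 → ∀ m ≤ h.natDegree,
        ((hasseDeriv m h).map (Int.castRingHom ℤ_[p])).eval z ≠ 0 →
        ((hasseDeriv m h).map (Int.castRingHom ℤ_[p])).eval z ∣ (D₀ : ℤ_[p]))
    (p : ℕ) [hp : Fact p.Prime] :
    ∃ (z : ℤ_[p]) (m : ℕ) (g : ℤ_[p][X]), 1 ≤ m ∧ m ≤ h.natDegree ∧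
      h.map (Int.castRingHom ℤ_[p]) = (X - C z) ^ m * g ∧ g.eval z ≠ 0 ∧
      g.eval z ∣ (D₀ : ℤ_[p]) := by
  classical
  let hp' := h.map (Int.castRingHom ℤ_[p])
  let T : ℕ → Set ℤ_[p] := fun n => {z | ‖hp'.eval z‖ ≤ (p : ℝ) ^ (-(n : ℤ))}
  have hclosed : ∀ n, IsClosed (T n) := fun n =>
    isClosed_le (hp'.continuous.norm) continuous_const
  have hanti : ∀ n, T (n + 1) ⊆ T n := fun n x hx => by
    show ‖hp'.eval x‖ ≤ (p : ℝ) ^ (-(n : ℤ))
    have h1 : ‖hp'.eval x‖ ≤ (p : ℝ) ^ (-((n + 1 : ℕ) : ℤ)) := hx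
    exact h1.trans (zpow_le_zpow_right₀ (by exact_mod_cast hp.1.one_le) (by push_cast; omega))
  have hne : ∀ n, (T n).Nonempty := fun n => by
    obtain ⟨t, ht⟩ := hint (p ^ n) (Nat.one_le_pow _ _ hp.1.pos)
    refine ⟨(t : ℤ_[p]), ?_⟩
    show ‖hp'.eval (Int.castRingHom ℤ_[p] t)‖ ≤ _
    rw [eval_map, eval₂_at_apply]
    exact (PadicInt.norm_int_le_pow_iff_dvd ..).2 (by exact_mod_cast ht)
  obtain ⟨z, hz⟩ := IsCompact.nonempty_iInter_of_sequence_nonempty_isCompact_isClosed T hanti hne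
    (hclosed 0).isCompact hclosed
  have hroot : hp'.eval z = 0 := by
    by_contra hne'
    have h1 : hp'.eval z ∈ Ideal.span {(p : ℤ_[p]) ^ ((hp'.eval z).valuation + 1)} :=
      (PadicInt.norm_le_pow_iff_mem_span_pow _ _).1 (Set.mem_iInter.1 hz _)
    rw [PadicInt.mem_span_pow_iff_le_valuation _ hne'] at h1
    omega
  have hh' : hp' ≠ 0 := (Polynomial.map_ne_zero_iff (RingHom.injective_int _)).2 hh
  let m := hp'.rootMultiplicity z
  have hfac : (X - C z) ^ m * (hp' /ₘ (X - C z) ^ m) = hp' :=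
    pow_mul_divByMonic_rootMultiplicity_eq hp' z
  have hne2 := eval_divByMonic_pow_rootMultiplicity_ne_zero z hh'
  have hm : m ≤ h.natDegree := by
    have := natDegree_le_of_dvd (pow_rootMultiplicity_dvd hp' z) hh'
    rw [natDegree_pow, natDegree_X_sub_C, mul_one] at this
    exact this.trans natDegree_map_le
  have e : ((hasseDeriv m h).map (Int.castRingHom ℤ_[p])).eval z =
      (hp' /ₘ (X - C z) ^ m).eval z := by
    rw [map_hasseDeriv, ← taylor_coeff]
    show (taylor z hp').coeff m = _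
    conv_lhs => rw [← hfac]
    rw [taylor_apply, mul_comp, pow_comp, sub_comp, X_comp, C_comp, add_sub_cancel_right,
      mul_comm]
    have hcm := coeff_mul_X_pow ((hp' /ₘ (X - C z) ^ m).comp (X + C z)) m 0
    rw [zero_add] at hcm
    rw [hcm, coeff_zero_eq_eval_zero, eval_comp]
    simp
  refine ⟨z, m, _, (rootMultiplicity_pos hh').2 hroot, hm, hfac.symm, hne2, ?_⟩
  rw [← e]
  exact hD p z hroot m hm (e ▸ hne2)

/-- An element dividing a unit multiple of another element up to a multiple of a higher power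
divides it. -/
theorem dvd_of_dvd_add {p : ℕ} [Fact p.Prime] {x u c : ℤ_[p]} {v : ℕ} {t : ℤ_[p]}
    (ht : IsUnit t) (hu : ¬ (p : ℤ_[p]) ^ v ∣ u) (hx : x ∣ t * u + (p : ℤ_[p]) ^ v * c) :
    x ∣ u := by
  have hu0 : u ≠ 0 := fun h => hu (h ▸ dvd_zero _)
  have hs := PadicInt.unitCoeff_spec hu0
  obtain ⟨a, ha⟩ : ∃ a, a = u.valuation := ⟨_, rfl⟩
  rw [← ha] at hs
  have hav : a < v := by
    by_contra hc
    exact hu (hs ▸ dvd_mul_of_dvd_right (pow_dvd_pow _ (not_lt.1 hc)) _)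
  obtain ⟨b, rfl⟩ : ∃ b, v = a + 1 + b := ⟨v - (a + 1), by omega⟩
  have hw : IsUnit (t * (PadicInt.unitCoeff hu0 : ℤ_[p]) +
      (p : ℤ_[p]) * ((p : ℤ_[p]) ^ b * c)) := by
    have h1 : IsUnit (t * (PadicInt.unitCoeff hu0 : ℤ_[p])) := ht.mul (Units.isUnit _)
    by_contra h2
    have hmem : t * (PadicInt.unitCoeff hu0 : ℤ_[p]) +
        (p : ℤ_[p]) * ((p : ℤ_[p]) ^ b * c) ∈ IsLocalRing.maximalIdeal ℤ_[p] := h2
    rw [PadicInt.maximalIdeal_eq_span_p, Ideal.mem_span_singleton] at hmem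
    exact PadicInt.p_nonunit (isUnit_of_dvd_unit ((dvd_add_left (dvd_mul_right _ _)).1 hmem) h1)
  have e : t * u + (p : ℤ_[p]) ^ (a + 1 + b) * c =
      (p : ℤ_[p]) ^ a * (t * (PadicInt.unitCoeff hu0 : ℤ_[p]) +
        (p : ℤ_[p]) * ((p : ℤ_[p]) ^ b * c)) := by
    conv_lhs => rw [hs]
    ring
  rw [e, hw.dvd_mul_right] at hx
  rw [hs]
  exact dvd_mul_of_dvd_right hx _

/-- Divisibility of a nonzero natural number is decided at its prime powers. -/
theorem dvd_of_primes {e : ℕ} (he : e ≠ 0) {a : ℤ}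
    (h : ∀ p : ℕ, ∀ _ : Fact p.Prime, ((p : ℤ_[p]) ^ e.factorization p) ∣ (a : ℤ_[p])) :
    (e : ℤ) ∣ a := by
  rw [Int.natCast_dvd, Nat.dvd_iff_prime_pow_dvd_dvd]
  intro p k hp hk
  have := Fact.mk hp
  have h1 := (PadicInt.pow_p_dvd_int_iff _ _).1 (h p this)
  have h2 := Int.natCast_dvd.1 (show ((p ^ e.factorization p : ℕ) : ℤ) ∣ a by exact_mod_cast h1)
  exact (pow_dvd_pow p ((hp.pow_dvd_iff_le_factorization he).1 hk)).trans h2

/-- The scaling factor: the product of the prime powers of `d` with multiplied exponents. -/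
def lamOf (m : ℕ → ℕ) (d : ℕ) : ℕ := d.factorization.prod fun p v => p ^ (m p * v)

theorem lamOf_mul (m : ℕ → ℕ) {a b : ℕ} (ha : a ≠ 0) (hb : b ≠ 0) :
    lamOf m (a * b) = lamOf m a * lamOf m b := by
  rw [lamOf, Nat.factorization_mul ha hb,
    Finsupp.prod_add_index' (fun _ => by simp) fun p v w => by rw [mul_add, pow_add]]
  rfl

theorem lamOf_pos (m : ℕ → ℕ) (d : ℕ) : 0 < lamOf m d :=
  Finset.prod_pos fun q hp => pow_pos (Nat.prime_of_mem_primeFactors (n := d) (p := q)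
    (Nat.support_factorization d ▸ hp)).pos _

theorem lamOf_le {m : ℕ → ℕ} {k : ℕ} (hm : ∀ p, m p ≤ k) {d : ℕ} (hd : d ≠ 0) :
    lamOf m d ≤ d ^ k := by
  have : d ^ k = lamOf (fun _ => k) d := by
    conv_lhs => rw [← Nat.prod_factorization_pow_eq_self hd]
    rw [lamOf, Finsupp.prod, Finsupp.prod, ← Finset.prod_pow]
    exact Finset.prod_congr rfl fun p _ => by rw [← pow_mul, mul_comm]
  rw [this]
  exact Finset.prod_le_prod (fun _ _ => Nat.zero_le _) fun p hp =>
    Nat.pow_le_pow_right (Nat.prime_of_mem_primeFactors (n := d) (p := p)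
      (Nat.support_factorization d ▸ hp)).pos (Nat.mul_le_mul_right _ (hm p))

theorem dvd_lamOf {m : ℕ → ℕ} (hm : ∀ p : ℕ, p.Prime → 1 ≤ m p) {d : ℕ} (hd : d ≠ 0) :
    d ∣ lamOf m d := by
  conv_lhs => rw [← Nat.prod_factorization_pow_eq_self hd]
  refine Finset.prod_dvd_prod_of_dvd _ _ fun p hp => pow_dvd_pow _ ?_
  exact Nat.le_mul_of_pos_left _ (hm p (Nat.prime_of_mem_primeFactors (n := d) (p := p)
    (Nat.support_factorization d ▸ hp)))

/-- The residue in `(-d, 0]` near the chosen roots. -/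
theorem exists_residue (z : ∀ p : ℕ, ∀ _ : Fact p.Prime, ℤ_[p]) {d : ℕ} (hd : d ≠ 0) :
    ∃ r : ℤ, -(d : ℤ) < r ∧ r ≤ 0 ∧ ∀ p : ℕ, ∀ hp : Fact p.Prime,
      (p : ℤ_[p]) ^ d.factorization p ∣ (r : ℤ_[p]) - z p hp := by
  classical
  let a : ℕ → ℕ := fun p =>
    if hp : p.Prime then @PadicInt.appr p ⟨hp⟩ (z p ⟨hp⟩) (d.factorization p) else 0
  obtain ⟨c, hc⟩ := Nat.chineseRemainderOfFinset a (fun p => p ^ d.factorization p) d.primeFactors
    (fun p hp => pow_ne_zero _ (Nat.prime_of_mem_primeFactors hp).ne_zero)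
    (fun p hp q hq hpq => Nat.Coprime.pow _ _ ((Nat.coprime_primes
      (Nat.prime_of_mem_primeFactors hp) (Nat.prime_of_mem_primeFactors hq)).2 hpq))
  have hd' : (0 : ℤ) < d := by exact_mod_cast Nat.pos_of_ne_zero hd
  refine ⟨-((-(c : ℤ)) % d), ?_, ?_, fun p hp => ?_⟩
  · have := Int.emod_lt_of_pos (-(c : ℤ)) hd'; omega
  · have := Int.emod_nonneg (-(c : ℤ)) hd'.ne'; omega
  by_cases hpd : p ∈ d.primeFactors
  swap
  · rw [← Nat.support_factorization, Finsupp.notMem_support_iff] at hpd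
    simp [hpd]
  have h1 : (p : ℤ_[p]) ^ d.factorization p ∣
      (((-((-(c : ℤ)) % d) - c : ℤ)) : ℤ_[p]) := by
    rw [PadicInt.pow_p_dvd_int_iff]
    have h0 : ((p ^ d.factorization p : ℕ) : ℤ) ∣ (d : ℤ) :=
      Int.natCast_dvd_natCast.2 (Nat.ordProj_dvd d p)
    push_cast at h0
    exact h0.trans ⟨(-(c : ℤ)) / d, by have := Int.mul_ediv_add_emod (-(c : ℤ)) d; linarith⟩
  have h2 : (p : ℤ_[p]) ^ d.factorization p ∣ (((c : ℤ) - (a p : ℤ) : ℤ) : ℤ_[p]) := by
    rw [PadicInt.pow_p_dvd_int_iff]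
    exact_mod_cast (Nat.modEq_iff_dvd.1 (hc p hpd).symm)
  have h3 : (p : ℤ_[p]) ^ d.factorization p ∣ (a p : ℤ_[p]) - z p hp := by
    have := Ideal.mem_span_singleton.1 (PadicInt.appr_spec (d.factorization p) (z p hp))
    simp only [a, dif_pos hp.1]
    exact (dvd_sub_comm).1 this
  have := (h1.add h2).add h3
  push_cast at this
  convert this using 1
  push_cast
  ring

end Aux

open Aux

/-- Every intersective polynomial has auxiliary polynomials of bounded content. -/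
theorem exists_family (h : ℤ[X]) (hk : 1 ≤ h.natDegree) (hpos : 0 < h.leadingCoeff)
    (hint : ∀ q : ℕ, 1 ≤ q → ∃ t : ℤ, (q : ℤ) ∣ h.eval t) :
    ∃ (D : ℕ) (C : ℝ), D ≠ 0 ∧ Nonempty (Family h h.natDegree D C) := by
  classical
  have hh : h ≠ 0 := fun e => by simp [e] at hpos
  let k := h.natDegree
  let b := h.leadingCoeff
  have hb : 1 ≤ b := hpos
  obtain ⟨D₀, hD₀, hbound⟩ := exists_bound h hh
  have key : ∀ p : ℕ, ∀ hp : Fact p.Prime, ∃ (z : ℤ_[p]) (m : ℕ) (g : ℤ_[p][X]),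
      1 ≤ m ∧ m ≤ h.natDegree ∧ h.map (Int.castRingHom ℤ_[p]) = (X - C z) ^ m * g ∧
        g.eval z ≠ 0 ∧ g.eval z ∣ (D₀ : ℤ_[p]) :=
    fun p hp => exists_root h hh hint D₀ hbound p
  choose z m g hm1 hm2 hfac hg0 hgD using key
  let mm : ℕ → ℕ := fun p => if hp : p.Prime then m p ⟨hp⟩ else 0
  have hmm : ∀ p, ∀ hp : Fact p.Prime, mm p = m p hp := fun p hp => dif_pos hp.1
  have hmk : ∀ p, mm p ≤ k := fun p => by
    by_cases hp : p.Prime
    · rw [hmm p ⟨hp⟩]; exact hm2 p ⟨hp⟩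
    · simp [mm, hp]
  have hm' : ∀ p : ℕ, p.Prime → 1 ≤ mm p := fun p hp => by rw [hmm p ⟨hp⟩]; exact hm1 p ⟨hp⟩
  have hres : ∀ d : ℕ, ∃ r : ℤ, d ≠ 0 → -(d : ℤ) < r ∧ r ≤ 0 ∧ ∀ p : ℕ, ∀ hp : Fact p.Prime,
      (p : ℤ_[p]) ^ d.factorization p ∣ (r : ℤ_[p]) - z p hp := fun d => by
    by_cases hd : d = 0
    · exact ⟨0, fun h' => absurd hd h'⟩
    · obtain ⟨r, hr⟩ := exists_residue z hd
      exact ⟨r, fun _ => hr⟩
  choose r hr using hres
  let H : ℕ → ℤ[X] := fun d => (taylor (r d) h).comp (C (d : ℤ) * X)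
  -- the scaled polynomial near a root
  have hloc : ∀ d : ℕ, d ≠ 0 → ∀ p : ℕ, ∀ hp : Fact p.Prime,
      ∃ (w t : ℤ_[p]), IsUnit t ∧ (d : ℤ_[p]) = (p : ℤ_[p]) ^ d.factorization p * t ∧
        (H d).map (Int.castRingHom ℤ_[p]) =
          C ((p : ℤ_[p]) ^ (m p hp * d.factorization p)) * ((C t * X + C w) ^ m p hp *
            (g p hp).comp (C (z p hp) +
              C ((p : ℤ_[p]) ^ d.factorization p) * (C t * X + C w))) := by
    intro d hd p hp
    obtain ⟨w, hw⟩ := (hr d hd).2.2 p hp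
    refine ⟨w, ((d / p ^ d.factorization p : ℕ) : ℤ_[p]), ?_, ?_, ?_⟩
    · by_contra hnu
      have hmem : ((d / p ^ d.factorization p : ℕ) : ℤ_[p]) ∈ IsLocalRing.maximalIdeal ℤ_[p] := hnu
      rw [PadicInt.maximalIdeal_eq_span_p, Ideal.mem_span_singleton] at hmem
      have h1 : (p : ℤ_[p]) ^ 1 ∣ (((d / p ^ d.factorization p : ℕ) : ℤ) : ℤ_[p]) := by
        rw [pow_one, Int.cast_natCast]
        exact hmem
      rw [PadicInt.pow_p_dvd_int_iff, pow_one, Int.natCast_dvd_natCast] at h1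
      exact Nat.not_dvd_ordCompl hp.1 hd h1
    · rw [← Nat.cast_pow, ← Nat.cast_mul, Nat.ordProj_mul_ordCompl_eq_self]
    set t : ℤ_[p] := ((d / p ^ d.factorization p : ℕ) : ℤ_[p]) with ht
    have hd' : (d : ℤ_[p]) = (p : ℤ_[p]) ^ d.factorization p * t := by
      rw [ht, ← Nat.cast_pow, ← Nat.cast_mul, Nat.ordProj_mul_ordCompl_eq_self]
    have hr' : (r d : ℤ_[p]) = z p hp + (p : ℤ_[p]) ^ d.factorization p * w := by rw [← hw]; ring
    simp only [H, taylor_apply, Polynomial.map_comp, Polynomial.map_add, Polynomial.map_mul,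
      Polynomial.map_X, map_C, Int.coe_castRingHom, hfac p hp, mul_comp, pow_comp, sub_comp, X_comp,
      C_comp, comp_assoc, add_comp]
    have e : C (((d : ℤ) : ℤ_[p])) * X + C ((r d : ℤ) : ℤ_[p]) =
        C (z p hp) + C ((p : ℤ_[p]) ^ d.factorization p) * (C t * X + C w) := by
      rw [Int.cast_natCast, hd', hr', C_mul, C_add, C_mul]; ring
    rw [e, add_sub_cancel_left, mul_pow, ← C_pow, ← pow_mul, mul_comm (d.factorization p)]
    ring
  have hdiv : ∀ d : ℕ, d ≠ 0 → C (lamOf mm d : ℤ) ∣ H d := fun d hd => by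
    rw [C_dvd_iff_dvd_coeff]
    intro i
    refine dvd_of_primes (lamOf_pos mm d).ne' fun p hp => ?_
    have hfac' : (lamOf mm d).factorization p = m p hp * d.factorization p := by
      rw [lamOf, Finsupp.prod, Nat.factorization_prod fun q hq => pow_ne_zero _
        (Nat.prime_of_mem_primeFactors (by simpa [Nat.support_factorization] using hq)).ne_zero,
        Finsupp.finsetSum_apply, Finset.sum_eq_single p]
      · rw [Nat.factorization_pow, Finsupp.smul_apply, hp.1.factorization_self, smul_eq_mul,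
          mul_one, hmm p hp]
      · intro q hq hqp
        have hq' : q ∈ d.primeFactors := Nat.support_factorization d ▸ hq
        rw [Nat.factorization_pow, Finsupp.smul_apply,
          (Nat.prime_of_mem_primeFactors hq').factorization, Finsupp.single_eq_of_ne hqp.symm,
          smul_zero]
      · intro hnot
        simp [Finsupp.notMem_support_iff.1 hnot]
    obtain ⟨w, t, -, -, e⟩ := hloc d hd p hp
    rw [hfac', show ((H d).coeff i : ℤ_[p]) = ((H d).map (Int.castRingHom ℤ_[p])).coeff i from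
      (coeff_map (Int.castRingHom ℤ_[p]) i).symm, e, coeff_C_mul]
    exact dvd_mul_right _ _
  have hpoly : ∀ d : ℕ, ∃ P : ℤ[X], d ≠ 0 → H d = C (lamOf mm d : ℤ) * P := fun d => by
    by_cases hd : d = 0
    · exact ⟨0, fun h' => absurd hd h'⟩
    · obtain ⟨P, hP⟩ := hdiv d hd
      exact ⟨P, fun _ => hP⟩
  choose P hP using hpoly
  have heval : ∀ d, d ≠ 0 → ∀ x : ℤ,
      (lamOf mm d : ℤ) * (P d).eval x = h.eval (d * x + r d) := fun d hd x => by
    rw [← eval_C (a := (lamOf mm d : ℤ)) (x := x), ← eval_mul, ← hP d hd]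
    simp [H, taylor_eval]
  have hcoeff : ∀ d, d ≠ 0 → ∀ i,
      (lamOf mm d : ℤ) * (P d).coeff i = (hasseDeriv i h).eval (r d) * (d : ℤ) ^ i :=
    fun d hd i => by
    rw [← coeff_C_mul, ← hP d hd, comp_C_mul_X_coeff, taylor_coeff]
  have hlam : ∀ d, (lamOf mm d : ℤ) ≠ 0 := fun d => by exact_mod_cast (lamOf_pos mm d).ne'
  have htop : ∀ d, d ≠ 0 → (lamOf mm d : ℤ) * (P d).coeff k = b * (d : ℤ) ^ k := fun d hd => by
    rw [hcoeff d hd, ← taylor_coeff, show k = (taylor (r d) h).natDegree from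
      (natDegree_taylor h (r d)).symm, coeff_natDegree, leadingCoeff_taylor]
  have hdeg : ∀ d, d ≠ 0 → (P d).natDegree = k := fun d hd => by
    refine natDegree_eq_of_le_of_coeff_ne_zero ?_ fun e => ?_
    · rw [natDegree_le_iff_coeff_eq_zero]
      intro i hi
      have := hcoeff d hd i
      rw [hasseDeriv_eq_zero_of_lt_natDegree h i hi, eval_zero, zero_mul] at this
      exact (mul_eq_zero.1 this).resolve_left (hlam d)
    · have := htop d hd
      rw [e, mul_zero] at this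
      exact (mul_ne_zero (zero_lt_one.trans_le hb).ne' (pow_ne_zero k (Int.natCast_ne_zero.2 hd)))
        this.symm
  have hlead : ∀ d, d ≠ 0 → (lamOf mm d : ℤ) * (P d).leadingCoeff = b * (d : ℤ) ^ k :=
    fun d hd => by rw [leadingCoeff, hdeg d hd]; exact htop d hd
  have hleadpos : ∀ d, d ≠ 0 → 0 < (P d).leadingCoeff := fun d hd => by
    have h0 : (0 : ℤ) < lamOf mm d := by exact_mod_cast lamOf_pos mm d
    refine pos_of_mul_pos_right ?_ h0.le
    rw [hlead d hd]
    have : (0 : ℤ) < d := by exact_mod_cast Nat.pos_of_ne_zero hd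
    positivity
  let C₀ : ℤ := ∑ j ∈ range (k + 1), |h.coeff j| * 2 ^ j
  have hC₀ : 0 ≤ C₀ := Finset.sum_nonneg fun j _ => by positivity
  have habs : ∀ d, d ≠ 0 → ∀ i, |(hasseDeriv i h).eval (r d) * (d : ℤ) ^ i| ≤
      C₀ * (d : ℤ) ^ k := fun d hd i => by
    obtain ⟨hr1, hr2, -⟩ := hr d hd
    rw [abs_mul, abs_pow, Nat.abs_cast, Finset.sum_mul]
    rw [hasseDeriv_apply, sum_over_range' h (fun n => by simp) (k + 1) (Nat.lt_succ_self _),
      eval_finsetSum]
    refine (mul_le_mul_of_nonneg_right (Finset.abs_sum_le_sum_abs _ _) (by positivity)).trans ?_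
    rw [Finset.sum_mul]
    refine Finset.sum_le_sum fun j hj => ?_
    rw [eval_monomial, abs_mul, abs_mul, abs_pow, Nat.abs_cast]
    have h1 : |r d| ≤ d := abs_le.2 ⟨by omega, by omega⟩
    by_cases hij : i ≤ j
    · calc ((j.choose i : ℕ) : ℤ) * |h.coeff j| * |r d| ^ (j - i) * (d : ℤ) ^ i
          ≤ 2 ^ j * |h.coeff j| * ((d : ℤ) ^ (j - i) * (d : ℤ) ^ i) := by
            rw [mul_assoc _ (|r d| ^ (j - i))]
            gcongr
            · exact_mod_cast Nat.choose_le_two_pow j i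
        _ ≤ |h.coeff j| * 2 ^ j * (d : ℤ) ^ k := by
            rw [← pow_add, Nat.sub_add_cancel hij, mul_comm (2 ^ j : ℤ)]
            refine mul_le_mul_of_nonneg_left ?_ (by positivity)
            exact pow_le_pow_right₀ (by exact_mod_cast Nat.pos_of_ne_zero hd)
              (Nat.lt_succ_iff.1 (Finset.mem_range.1 hj))
    · rw [Nat.choose_eq_zero_of_lt (not_le.1 hij)]
      simp only [Nat.cast_zero, zero_mul]
      positivity
  refine ⟨b.natAbs * D₀.natAbs ^ k, ((C₀ + b : ℤ) : ℝ),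
    mul_ne_zero (Int.natAbs_ne_zero.2 (zero_lt_one.trans_le hb).ne')
      (pow_ne_zero _ (Int.natAbs_ne_zero.2 hD₀)), ⟨?_⟩⟩
  refine {
    lam := lamOf mm
    poly := P
    lam_pos := fun d _ => lamOf_pos mm d
    lam_le := fun d hd => lamOf_le hmk (Nat.one_le_iff_ne_zero.1 hd)
    dvd_lam := fun d hd => dvd_lamOf hm' (Nat.one_le_iff_ne_zero.1 hd)
    poly_one := ?_
    degree_eq := fun d hd => hdeg d (Nat.one_le_iff_ne_zero.1 hd)
    lead_pos := fun d hd => hleadpos d (Nat.one_le_iff_ne_zero.1 hd)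
    lead_le := fun d hd => ?_
    coeff_le := fun d hd i => ?_
    content := fun d hd e he => ?_
    lift := fun d q hd hq n hn => ?_ }
  · have h0 : r 1 = 0 := by obtain ⟨a, b, -⟩ := hr 1 one_ne_zero; omega
    have := hP 1 one_ne_zero
    simp only [H, h0, taylor_zero, Nat.cast_one, C_1, one_mul, comp_X] at this
    have hl : lamOf mm 1 = 1 := by simp [lamOf]
    rw [hl, Nat.cast_one, C_1, one_mul] at this
    exact this.symm
  · have hd' := Nat.one_le_iff_ne_zero.1 hd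
    have h0 : (1 : ℤ) ≤ lamOf mm d := by exact_mod_cast lamOf_pos mm d
    have h1 : (P d).leadingCoeff ≤ (C₀ + b) * (d : ℤ) ^ k := by
      calc (P d).leadingCoeff ≤ (lamOf mm d : ℤ) * (P d).leadingCoeff :=
            le_mul_of_one_le_left (hleadpos d hd').le h0
        _ = b * (d : ℤ) ^ k := hlead d hd'
        _ ≤ _ := mul_le_mul_of_nonneg_right (le_add_of_nonneg_left hC₀) (by positivity)
    exact_mod_cast h1
  · have hd' := Nat.one_le_iff_ne_zero.1 hd
    have h1 : |(P d).coeff i| ≤ (C₀ + b) * (P d).leadingCoeff := by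
      have h0 : (0 : ℤ) < lamOf mm d := by exact_mod_cast lamOf_pos mm d
      refine le_of_mul_le_mul_left ?_ h0
      calc (lamOf mm d : ℤ) * |(P d).coeff i| = |(lamOf mm d : ℤ) * (P d).coeff i| := by
            rw [abs_mul, abs_of_pos h0]
        _ ≤ C₀ * (d : ℤ) ^ k := by rw [hcoeff d hd']; exact habs d hd' i
        _ ≤ (C₀ + b) * (b * (d : ℤ) ^ k) :=
            mul_le_mul (le_add_of_nonneg_right (zero_le_one.trans hb))
              (le_mul_of_one_le_left (by positivity) hb) (by positivity)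
              (add_nonneg hC₀ (zero_le_one.trans hb))
        _ = _ := by rw [← hlead d hd']; ring
    exact_mod_cast h1
  · have hd' := Nat.one_le_iff_ne_zero.1 hd
    have he0 : e ≠ 0 := by
      rintro rfl
      have := he k hk
      rw [Nat.cast_zero, zero_dvd_iff] at this
      exact (hleadpos d hd').ne' (by rw [leadingCoeff, hdeg d hd', this])
    rw [← Int.natCast_dvd_natCast]
    refine dvd_of_primes he0 fun p hp => ?_
    obtain ⟨w, t, ht, hdt, eH⟩ := hloc d hd' p hp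
    have hdvd : ∀ i, 1 ≤ i → (p : ℤ_[p]) ^ e.factorization p ∣ ((P d).coeff i : ℤ_[p]) :=
      fun i hi => by
      rw [PadicInt.pow_p_dvd_int_iff]
      exact dvd_trans (by exact_mod_cast Nat.ordProj_dvd e p) (he i hi)
    have hfacD : ((g p hp).eval (z p hp)) ∣ (D₀ : ℤ_[p]) := hgD p hp
    set v := d.factorization p with hv
    set u := (g p hp).eval (z p hp) with hu
    have hDD : ((b * D₀ ^ k : ℤ) : ℤ_[p]) ∣ (((b.natAbs * D₀.natAbs ^ k : ℕ) : ℤ) : ℤ_[p]) := by
      refine Int.cast_dvd_cast _ _ ?_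
      rw [← Int.natAbs_pow, ← Int.natAbs_mul]
      exact Int.dvd_natAbs.2 dvd_rfl
    refine dvd_trans ?_ hDD
    obtain ⟨s, hs, hl⟩ : ∃ s : ℤ_[p], IsUnit s ∧
        (lamOf mm d : ℤ_[p]) = (p : ℤ_[p]) ^ (m p hp * v) * s := by
      let P' := ∏ q ∈ d.primeFactors.erase p, q ^ (mm q * d.factorization q)
      have hu' : IsUnit (P' : ℤ_[p]) := by
        rw [Nat.cast_prod]
        refine IsUnit.prod_iff.2 fun q hq => ?_
        rw [Nat.cast_pow]
        refine IsUnit.pow _ ?_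
        by_contra hnu
        have hmem : (q : ℤ_[p]) ∈ IsLocalRing.maximalIdeal ℤ_[p] := hnu
        rw [PadicInt.maximalIdeal_eq_span_p, Ideal.mem_span_singleton] at hmem
        have h1 : (p : ℤ_[p]) ^ 1 ∣ ((q : ℤ) : ℤ_[p]) := by simpa using hmem
        rw [PadicInt.pow_p_dvd_int_iff, pow_one, Int.natCast_dvd_natCast] at h1
        obtain ⟨hqp, hq'⟩ := Finset.mem_erase.1 hq
        exact hqp ((Nat.prime_dvd_prime_iff_eq hp.1 (Nat.prime_of_mem_primeFactors hq')).1 h1).symm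
      refine ⟨P', hu', ?_⟩
      rw [← Nat.cast_pow, ← Nat.cast_mul]
      congr 1
      rw [lamOf, Finsupp.prod, Nat.support_factorization]
      by_cases hpd : p ∈ d.primeFactors
      · rw [← Finset.mul_prod_erase _ _ hpd, hmm p hp]
      · have hv0 : v = 0 := by
          rw [hv, ← Finsupp.notMem_support_iff, Nat.support_factorization]; exact hpd
        simp [P', hv0, Finset.erase_eq_of_notMem hpd]
    have hQ : C s * (P d).map (Int.castRingHom ℤ_[p]) = (C t * X + C w) ^ m p hp *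
        (g p hp).comp (C (z p hp) + C ((p : ℤ_[p]) ^ v) * (C t * X + C w)) := by
      have hne : C ((p : ℤ_[p]) ^ (m p hp * v)) ≠ 0 := by
        rw [Ne, C_eq_zero]
        exact pow_ne_zero _ (Nat.cast_ne_zero.2 hp.1.ne_zero)
      refine mul_left_cancel₀ hne ?_
      rw [← mul_assoc, ← C_mul, ← hl, ← eH, hP d hd', Polynomial.map_mul, map_C, eq_intCast,
        Int.cast_natCast]
    by_cases hvu : (p : ℤ_[p]) ^ v ∣ u
    · -- the leading coefficient
      have hlk := hlead d hd'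
      have h1 := hdvd k hk
      rw [← hdeg d hd', coeff_natDegree] at h1
      have hlk' : (p : ℤ_[p]) ^ (m p hp * v) * (s * ((P d).leadingCoeff : ℤ_[p])) =
          (b : ℤ_[p]) * ((p : ℤ_[p]) ^ v * t) ^ k := by
        rw [← mul_assoc, ← hl, ← hdt]
        exact_mod_cast congrArg (Int.cast : ℤ → ℤ_[p]) hlk
      obtain ⟨j, hj⟩ : ∃ j, k = m p hp + j := ⟨k - m p hp, by have := hm2 p hp; omega⟩
      have h2 : s * ((P d).leadingCoeff : ℤ_[p]) =
          (b : ℤ_[p]) * ((p : ℤ_[p]) ^ v) ^ j * t ^ k := by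
        refine mul_left_cancel₀ (pow_ne_zero (m p hp * v)
          (Nat.cast_ne_zero.2 hp.1.ne_zero : (p : ℤ_[p]) ≠ 0)) ?_
        rw [hlk', hj, mul_comm (m p hp) v, pow_mul]
        ring
      have h3 : (p : ℤ_[p]) ^ e.factorization p ∣ (b : ℤ_[p]) * ((p : ℤ_[p]) ^ v) ^ j :=
        ((ht.pow k).dvd_mul_right).1 (h2 ▸ h1.mul_left s)
      refine h3.trans ?_
      push_cast
      exact mul_dvd_mul_left _ ((pow_dvd_pow_of_dvd (hvu.trans hfacD) j).trans
        (pow_dvd_pow _ (by omega)))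
    · -- the coefficient at the multiplicity
      obtain ⟨R, hR⟩ : ∃ R, (g p hp).comp (C (z p hp) + C ((p : ℤ_[p]) ^ v) * (C t * X + C w)) =
          C u + C ((p : ℤ_[p]) ^ v) * R := by
        have h1 := sub_dvd_eval_sub (C (z p hp) + C ((p : ℤ_[p]) ^ v) * (C t * X + C w))
          (C (z p hp)) ((g p hp).map C)
        rw [add_sub_cancel_left] at h1
        obtain ⟨R, hR⟩ := h1
        refine ⟨(C t * X + C w) * R, ?_⟩
        have e1 : ((g p hp).map C).eval (C (z p hp)) = C u := by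
          rw [eval_map, eval₂_at_apply]
        rw [e1, eval_map] at hR
        rw [comp, ← mul_assoc, ← hR, add_sub_cancel]
      have h1 := (hdvd (m p hp) (hm1 p hp)).mul_left s
      rw [← eq_intCast (Int.castRingHom ℤ_[p]), ← coeff_map, ← coeff_C_mul, hQ, hR, mul_add,
        coeff_add, coeff_mul_C, mul_left_comm, coeff_C_mul] at h1
      have hc : ((C t * X + C w) ^ m p hp).coeff (m p hp) = t ^ m p hp := by
        have hdeg1 : (C t * X + C w).natDegree ≤ 1 := natDegree_linear_le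
        have := coeff_pow_of_natDegree_le (m := m p hp) hdeg1
        simpa using this
      rw [hc] at h1
      have h2 := dvd_of_dvd_add (ht.pow _) hvu h1
      push_cast
      exact (h2.trans hfacD).trans (dvd_mul_of_dvd_right (dvd_pow_self _ (by omega)) _)
  · have hd' := Nat.one_le_iff_ne_zero.1 hd
    have hq' := Nat.one_le_iff_ne_zero.1 hq
    have hdq : d * q ≠ 0 := mul_ne_zero hd' hq'
    obtain ⟨a1, a2, a3⟩ := hr d hd'
    obtain ⟨b1, b2, b3⟩ := hr (d * q) hdq
    obtain ⟨j, hj⟩ : (d : ℤ) ∣ r (d * q) - r d := by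
      refine dvd_of_primes hd' fun p hp => ?_
      have h1 : (p : ℤ_[p]) ^ d.factorization p ∣ (r (d * q) : ℤ_[p]) - z p hp := by
        refine (pow_dvd_pow _ ?_).trans (b3 p hp)
        rw [Nat.factorization_mul hd' hq', Finsupp.add_apply]
        omega
      have := h1.sub (a3 p hp)
      push_cast
      rwa [sub_sub_sub_cancel_right] at this
    have hdpos : (0 : ℤ) < d := by exact_mod_cast Nat.pos_of_ne_zero hd'
    have hjq : -(q : ℤ) < j := by
      refine lt_of_mul_lt_mul_left ?_ hdpos.le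
      push_cast at b1
      linarith
    have hnq : (q : ℤ) ≤ q * n := le_mul_of_one_le_right (by positivity) (by exact_mod_cast hn)
    obtain ⟨n', hn'⟩ := Int.eq_ofNat_of_zero_le (a := j + q * n) (by omega)
    refine ⟨n', by omega, mul_left_cancel₀ (hlam d) ?_⟩
    rw [← hn', heval d hd', ← mul_assoc, ← Nat.cast_mul (lamOf mm d), ← lamOf_mul mm hd' hq',
      heval _ hdq]
    congr 1
    push_cast
    linear_combination -hj

end

end Vale.Agent.P042.Upper
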