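import Mathlib

/-!
Basic notions for the upper bound for sets without intersective polynomial differences.
-/

open Finset Polynomial

namespace Vale.Agent.P042.Upper

noncomputable section

/-- `e (t) = exp (2 π i t)`. -/
def ee (t : ℝ) : ℂ := Complex.exp (2 * Real.pi * t * Complex.I)

theorem ee_add (s t : ℝ) : ee (s + t) = ee s * ee t := by
  simp only [ee, ← Complex.exp_add]
  congr 1
  push_cast
  ring

theorem norm_ee (t : ℝ) : ‖ee t‖ = 1 := by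
  simp [ee, Complex.norm_exp]

theorem ee_int (n : ℤ) : ee n = 1 := by
  rw [ee, Complex.exp_eq_one_iff]
  exact ⟨n, by push_cast; ring⟩

theorem ee_zero : ee 0 = 1 := by simp [ee]

theorem ee_add_int (t : ℝ) (n : ℤ) : ee (t + n) = ee t := by rw [ee_add, ee_int, mul_one]

theorem ee_neg (t : ℝ) : ee (-t) = starRingEnd ℂ (ee t) := by
  rw [ee, ee, ← Complex.exp_conj]
  congr 1
  simp [Complex.conj_ofReal, Complex.conj_ofNat]

theorem norm_ee_sub_one_le (t : ℝ) : ‖ee t - 1‖ ≤ 2 * Real.pi * |t| := by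
  rw [ee, show 2 * (Real.pi : ℂ) * (t : ℂ) * Complex.I
    = Complex.I * ((2 * Real.pi * t : ℝ) : ℂ) by push_cast; ring]
  refine (Real.norm_exp_I_mul_ofReal_sub_one_le).trans_eq ?_
  rw [Real.norm_eq_abs, abs_mul, abs_of_pos Real.two_pi_pos]

/-- The residues prime to `q`. -/
def reduced (q : ℕ) : Finset ℕ := (range q).filter (Nat.Coprime q)

/-- The normalised complete exponential sum. -/
def gauss (g : ℤ[X]) (a : ℤ) (q : ℕ) : ℂ :=
  (∑ x ∈ range q, ee (((a * g.eval (x : ℤ) : ℤ) : ℝ) / q)) / q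

/-- The members of `A` in the class of `x` modulo `r`. -/
def inClass (A : Finset ℤ) (r : ℕ) (x : ℤ) : Finset ℤ := A.filter fun n => (r : ℤ) ∣ n - x

/-- The class of `x` modulo `r` in `A`, rescaled: the `m` with `x + r m ∈ A`. -/
def rescale (A : Finset ℤ) (r : ℕ) (x : ℤ) : Finset ℤ :=
  (inClass A r x).image fun n => (n - x) / (r : ℤ)

/-- The normalised Fourier transform of the indicator of `A`. -/
def fhat (A : Finset ℤ) (M θ : ℝ) : ℂ := (∑ n ∈ A, ee ((n : ℝ) * θ)) / M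

/-- `A` lies in an interval of length `2 M` and has density at most `4 α` on all classes modulo
numbers up to `R`. -/
structure Glob (A : Finset ℤ) (α M : ℝ) (R : ℕ) : Prop where
  supp : ∃ z : ℝ, ∀ n ∈ A, z ≤ (n : ℝ) ∧ (n : ℝ) ≤ z + 2 * M
  card_le : ∀ (r : ℕ) (x : ℤ), 1 ≤ r → r ≤ R → ((inClass A r x).card : ℝ) ≤ 4 * α * M / r

/-- The multiplicative weight with values `ω p j` at prime powers. -/
def wt (ω : ℕ → ℕ → ℝ) (q : ℕ) : ℝ := q.factorization.prod ω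

/-- Weights majorising complete sums: square root cancellation at primes, decay at powers. -/
structure GoodWeight (ω : ℕ → ℕ → ℝ) (C δ : ℝ) : Prop where
  delta_pos : 0 < δ
  nonneg : ∀ p j, 0 ≤ ω p j
  le_one : ∀ p j, ω p j ≤ 1
  sum_le : ∀ p J : ℕ, p.Prime → ∑ j ∈ Icc 1 J, (j : ℝ) * ω p j ≤ C / Real.sqrt p
  decay : ∀ q : ℕ, 1 ≤ q → wt ω q ≤ C * (q : ℝ) ^ (-δ)

theorem wt_one (ω : ℕ → ℕ → ℝ) : wt ω 1 = 1 := by simp [wt]

theorem wt_mul (ω : ℕ → ℕ → ℝ) {a b : ℕ} (h : Nat.Coprime a b) :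
    wt ω (a * b) = wt ω a * wt ω b := by
  rw [wt, Nat.factorization_mul_of_coprime h, Finsupp.prod_add_index_of_disjoint]
  · rfl
  · simpa [Nat.support_factorization] using h.disjoint_primeFactors

theorem GoodWeight.wt_nonneg {ω : ℕ → ℕ → ℝ} {C δ : ℝ} (h : GoodWeight ω C δ) (q : ℕ) :
    0 ≤ wt ω q := by
  rw [wt, Finsupp.prod]
  exact Finset.prod_nonneg fun p _ => h.nonneg p _

theorem GoodWeight.wt_le_one {ω : ℕ → ℕ → ℝ} {C δ : ℝ} (h : GoodWeight ω C δ) (q : ℕ) :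
    wt ω q ≤ 1 := by
  rw [wt, Finsupp.prod]
  exact Finset.prod_le_one (fun p _ => h.nonneg p _) fun p _ => h.le_one p _

/-- The auxiliary polynomials of an intersective polynomial. -/
structure Family (h : ℤ[X]) (k D : ℕ) (C : ℝ) where
  /-- The scaling factor. -/
  lam : ℕ → ℕ
  /-- The auxiliary polynomial. -/
  poly : ℕ → ℤ[X]
  lam_pos : ∀ d, 1 ≤ d → 1 ≤ lam d
  lam_le : ∀ d, 1 ≤ d → lam d ≤ d ^ k
  dvd_lam : ∀ d, 1 ≤ d → d ∣ lam d
  poly_one : poly 1 = h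
  degree_eq : ∀ d, 1 ≤ d → (poly d).natDegree = k
  lead_pos : ∀ d, 1 ≤ d → 0 < (poly d).leadingCoeff
  lead_le : ∀ d, 1 ≤ d → ((poly d).leadingCoeff : ℝ) ≤ C * (d : ℝ) ^ k
  coeff_le : ∀ d, 1 ≤ d → ∀ i, |((poly d).coeff i : ℝ)| ≤ C * ((poly d).leadingCoeff : ℝ)
  content : ∀ d, 1 ≤ d → ∀ e : ℕ, (∀ i, 1 ≤ i → (e : ℤ) ∣ (poly d).coeff i) → e ∣ D
  lift : ∀ d q : ℕ, 1 ≤ d → 1 ≤ q → ∀ n : ℕ, 1 ≤ n →
    ∃ n' : ℕ, 1 ≤ n' ∧ (poly d).eval (n' : ℤ) = (lam q : ℤ) * (poly (d * q)).eval (n : ℤ)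

end

end Vale.Agent.P042.Upper
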