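import Vale.Agent.P042.Upper.Level
import Vale.Agent.P042.Upper.Arcs
import Vale.Agent.P042.Upper.Increment.Arc

/-!
The density increment.
-/

open Finset Polynomial

namespace Vale.Agent.P042.Upper

noncomputable section

/-- The values of a polynomial with dominated coefficients on a dyadic range. -/
theorem eval_bounds {g : ℤ[X]} {k : ℕ} {C : ℝ} (hk : 1 ≤ k) (hdeg : g.natDegree = k)
    (hb : 0 < g.leadingCoeff) (hC : ∀ i, |(g.coeff i : ℝ)| ≤ C * (g.leadingCoeff : ℝ)) {n : ℕ}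
    (hn : 2 * C * k ≤ n) (hn1 : 1 ≤ n) :
    (g.leadingCoeff : ℝ) * (n : ℝ) ^ k / 2 ≤ ((g.eval (n : ℤ) : ℤ) : ℝ) ∧
      ((g.eval (n : ℤ) : ℤ) : ℝ) ≤ 2 * (g.leadingCoeff : ℝ) * (n : ℝ) ^ k := by
  have hbR : (0 : ℝ) < g.leadingCoeff := by exact_mod_cast hb
  have hlead : g.coeff k = g.leadingCoeff := by rw [Polynomial.leadingCoeff, hdeg]
  have hC0 : 0 ≤ C := by
    have h := (abs_nonneg _).trans (hC k)
    exact nonneg_of_mul_nonneg_left h hbR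
  have hev : ((g.eval (n : ℤ) : ℤ) : ℝ) =
      (g.leadingCoeff : ℝ) * (n : ℝ) ^ k + ∑ i ∈ range k, (g.coeff i : ℝ) * (n : ℝ) ^ i := by
    rw [eval_eq_sum_range, hdeg, sum_range_succ, hlead]
    push_cast
    ring
  have herr : |∑ i ∈ range k, (g.coeff i : ℝ) * (n : ℝ) ^ i| ≤
      (g.leadingCoeff : ℝ) * (n : ℝ) ^ k / 2 := by
    have hn1' : (1 : ℝ) ≤ n := by exact_mod_cast hn1
    refine (abs_sum_le_sum_abs _ _).trans ?_
    calc ∑ i ∈ range k, |(g.coeff i : ℝ) * (n : ℝ) ^ i|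
        ≤ ∑ _i ∈ range k, C * (g.leadingCoeff : ℝ) * (n : ℝ) ^ (k - 1) := by
          refine sum_le_sum fun i hi => ?_
          rw [abs_mul, abs_of_nonneg (by positivity : (0 : ℝ) ≤ (n : ℝ) ^ i)]
          refine mul_le_mul (hC i) (pow_le_pow_right₀ hn1' ?_) (by positivity) (by positivity)
          have := mem_range.1 hi
          omega
      _ = (2 * C * k) * ((g.leadingCoeff : ℝ) * (n : ℝ) ^ (k - 1) / 2) := by simp; ring
      _ ≤ (n : ℝ) * ((g.leadingCoeff : ℝ) * (n : ℝ) ^ (k - 1) / 2) :=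
          mul_le_mul_of_nonneg_right hn (by positivity)
      _ = _ := by
          rw [show (n : ℝ) ^ k = (n : ℝ) * (n : ℝ) ^ (k - 1) by
            rw [← pow_succ', Nat.sub_add_cancel hk]]
          ring
  obtain ⟨h1, h2⟩ := abs_le.1 herr
  constructor <;> linarith [pow_nonneg (Nat.cast_nonneg (α := ℝ) n) k]

theorem card_reduced_le (q : ℕ) : (reduced q).card ≤ q := by
  simpa [reduced] using card_le_card (filter_subset (Nat.Coprime q) (range q))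

theorem reduced_one : reduced 1 = {0} := by
  simp [reduced]

theorem not_dvd_of_mem_reduced {q a : ℕ} (hq : 2 ≤ q) (ha : a ∈ reduced q) : ¬q ∣ a := fun h => by
  have := (mem_filter.1 ha).2
  exact absurd (Nat.Coprime.eq_one_of_dvd this h) (by omega)

/-- A correlation written with the transform. -/
theorem sum_balHat_sq (A : Finset ℤ) (α : ℝ) {N v : ℕ} (hvN : v ≤ N) :
    ∑ ξ ∈ range (2 * N), ((‖balHat A α N ξ‖ ^ 2 : ℝ) : ℂ) * ee ((ξ : ℝ) / (2 * N : ℕ) * v) =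
      (((2 * N : ℕ) : ℝ) * ∑ y ∈ Icc 1 ((N : ℤ) - v), bal A α (y + v) * bal A α y : ℝ) := by
  rcases Nat.eq_zero_or_pos N with rfl | hN
  · simp [show v = 0 by omega]
  have hM : 0 < 2 * N := by omega
  simp only [balHat, normSq_sum_ee, sum_mul]
  rw [sum_comm]
  calc ∑ x ∈ Icc 1 (N : ℤ), ∑ ξ ∈ range (2 * N), ∑ y ∈ Icc 1 (N : ℤ),
        ((bal A α x * bal A α y : ℝ) : ℂ) *
          ee (-((x : ℝ) * ξ / (2 * N : ℕ)) - -((y : ℝ) * ξ / (2 * N : ℕ))) *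
          ee ((ξ : ℝ) / (2 * N : ℕ) * v)
      = ∑ x ∈ Icc 1 (N : ℤ), ∑ y ∈ Icc 1 (N : ℤ), ((bal A α x * bal A α y : ℝ) : ℂ) *
          (if ((2 * N : ℕ) : ℤ) ∣ y + v - x then ((2 * N : ℕ) : ℂ) else 0) := by
        refine sum_congr rfl fun x _ => ?_
        rw [sum_comm]
        refine sum_congr rfl fun y _ => ?_
        rw [← sum_range_ee hM, mul_sum]
        refine sum_congr rfl fun ξ _ => ?_
        rw [mul_assoc, ← ee_add]
        congr 2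
        push_cast
        ring
    _ = ∑ y ∈ Icc 1 (N : ℤ), ∑ x ∈ Icc 1 (N : ℤ), ((bal A α x * bal A α y : ℝ) : ℂ) *
          (if x = y + v then ((2 * N : ℕ) : ℂ) else 0) := by
        rw [sum_comm]
        refine sum_congr rfl fun y hy => sum_congr rfl fun x hx => ?_
        simp only [mem_Icc] at hx hy
        congr 1
        refine if_congr ⟨fun h => ?_, fun h => by simp [h]⟩ rfl rfl
        have := Int.eq_zero_of_abs_lt_dvd h (by rw [abs_lt]; push_cast; omega)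
        omega
    _ = ∑ y ∈ Icc 1 ((N : ℤ) - v),
          ((bal A α (y + v) * bal A α y : ℝ) : ℂ) * ((2 * N : ℕ) : ℂ) := by
        simp only [mul_ite, mul_zero, sum_ite_eq', mem_Icc]
        rw [← sum_filter]
        refine sum_congr ?_ fun y _ => rfl
        ext y
        simp only [mem_filter, mem_Icc]
        omega
    _ = _ := by
        rw [mul_sum]
        push_cast
        exact sum_congr rfl fun y _ => by ring

theorem sum_balHat_norm_sq (A : Finset ℤ) {N : ℕ} (hA : A ⊆ Icc 1 (N : ℤ)) {α : ℝ} (hα0 : 0 ≤ α)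
    (hcard : (A.card : ℝ) = α * N) :
    ∑ ξ ∈ range (2 * N), ‖balHat A α N ξ‖ ^ 2 ≤ (2 * N : ℕ) * (α * N) := by
  rcases Nat.eq_zero_or_pos N with rfl | hN
  · simp
  have := parseval_interval (M := 2 * N) (by omega) (s := Icc 1 (N : ℤ))
    (fun u hu v hv => by simp only [mem_Icc] at hu hv; rw [abs_lt]; push_cast; omega)
    (fun n => (bal A α n : ℂ))
  simp only [balHat]
  rw [this]
  gcongr
  calc ∑ u ∈ Icc 1 (N : ℤ), ‖(bal A α u : ℂ)‖ ^ 2 = ∑ u ∈ Icc 1 (N : ℤ), bal A α u ^ 2 := by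
        simp [Complex.norm_real, sq_abs]
    _ ≤ _ := by
        rw [sum_bal_sq A hA, hcard]
        nlinarith [mul_nonneg (sq_nonneg α) (Nat.cast_nonneg (α := ℝ) N)]

/-- The window bound summed over all windows, for all major arcs. -/
theorem sum_window_bound {ω : ℕ → ℕ → ℝ} {C δ : ℝ} (hω : GoodWeight ω C δ) (A : Finset ℤ)
    {N W Q : ℕ} {α η ε : ℝ} (hA : A ⊆ Icc 1 (N : ℤ)) (hW : 0 < W) (hWN : W ≤ N) (hQ : 1 ≤ Q)
    (hη0 : 0 ≤ η) (hη1 : η ≤ 1) (hα0 : 0 ≤ α) (hα1 : α ≤ 1) (hcard : (A.card : ℝ) = α * N)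
    (hd : ∀ v : ℤ, ((A ∩ Ioc v (v + W)).card : ℝ) ≤ (1 + η) * α * W)
    (hlev : ∀ v : ℤ, ∑ q ∈ Icc 2 Q, wt ω q * ∑ a ∈ reduced q,
      ‖fhat (A ∩ Ioc v (v + W)) W ((a : ℝ) / q)‖ ^ 2 ≤
        2 * ((1 + η) * α * (((A ∩ Ioc v (v + W)).card : ℝ) / W) -
          (((A ∩ Ioc v (v + W)).card : ℝ) / W) ^ 2) + ε * α ^ 2)
    (hε : 0 ≤ ε) :
    ∑ q ∈ Icc 1 Q, ∑ a ∈ reduced q, wt ω q *
        (4 / (W : ℝ) ^ 2 * ∑ v ∈ Ico (-(W : ℤ)) N, ‖winSum A α N W ((a : ℝ) / q) v‖ ^ 2) ≤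
      8 * W * (Q : ℝ) ^ 2 + 8 * (Q : ℝ) ^ 4 * N / (W : ℝ) ^ 2 +
        20 * (η * α ^ 2 * N + 2 * α * W) + 8 * ε * α ^ 2 * N := by
  have hWr : (0 : ℝ) < W := by exact_mod_cast hW
  set J := Ico (0 : ℤ) ((N : ℤ) - W) with hJ
  set Z := Ico (-(W : ℤ)) N \ J with hZ
  have hJsub : J ⊆ Ico (-(W : ℤ)) N := fun v hv => by
    simp only [hJ, mem_Ico] at *
    omega
  have hZcard : (Z.card : ℝ) ≤ 2 * W := by
    have : Z.card ≤ 2 * W := by
      rw [hZ, card_sdiff_of_subset hJsub]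
      simp only [hJ, Int.card_Ico]
      omega
    exact_mod_cast this
  set dd : ℤ → ℝ := fun v => ((A ∩ Ioc v (v + W)).card : ℝ) / W with hdd
  set T : ℕ → ℕ → ℤ → ℝ := fun q a v => ‖winSum A α N W ((a : ℝ) / q) v‖ ^ 2 with hT
  have hpairs : ∀ (f : ℕ → ℝ) (c : ℝ), (∀ q, f q ≤ c) → 0 ≤ c →
      ∑ q ∈ Icc 1 Q, ∑ _a ∈ reduced q, f q ≤ (Q : ℝ) ^ 2 * c := by
    intro f c hf hc
    calc ∑ q ∈ Icc 1 Q, ∑ _a ∈ reduced q, f q ≤ ∑ q ∈ Icc 1 Q, (Q : ℝ) * c := by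
          refine sum_le_sum fun q hq => ?_
          rw [sum_const, nsmul_eq_mul]
          refine (mul_le_mul_of_nonneg_left (hf q) (Nat.cast_nonneg _)).trans ?_
          gcongr
          exact_mod_cast (card_reduced_le q).trans (mem_Icc.1 hq).2
      _ = _ := by simp; ring
  have hsplit : ∀ q a : ℕ, ∑ v ∈ Ico (-(W : ℤ)) N, T q a v =
      ∑ v ∈ Z, T q a v + ∑ v ∈ J, T q a v := fun q a => (sum_sdiff hJsub).symm
  -- boundary windows
  have hbd : ∑ q ∈ Icc 1 Q, ∑ a ∈ reduced q, wt ω q * (4 / (W : ℝ) ^ 2 * ∑ v ∈ Z, T q a v) ≤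
      8 * W * (Q : ℝ) ^ 2 := by
    calc _ ≤ ∑ q ∈ Icc 1 Q, ∑ _a ∈ reduced q, (8 * (W : ℝ)) := by
          refine sum_le_sum fun q _ => sum_le_sum fun a _ => ?_
          have h1 : ∑ v ∈ Z, T q a v ≤ 2 * W * (W : ℝ) ^ 2 := by
            calc ∑ v ∈ Z, T q a v ≤ ∑ _v ∈ Z, (W : ℝ) ^ 2 := sum_le_sum fun v _ =>
                  pow_le_pow_left₀ (norm_nonneg _) (norm_winSum_le A hα0 hα1 N W _ v) 2
              _ = Z.card * (W : ℝ) ^ 2 := by simp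
              _ ≤ _ := by gcongr
          calc wt ω q * (4 / (W : ℝ) ^ 2 * ∑ v ∈ Z, T q a v)
              ≤ 1 * (4 / (W : ℝ) ^ 2 * (2 * W * (W : ℝ) ^ 2)) := by
                gcongr
                exact hω.wt_le_one q
            _ = _ := by field_simp; ring
      _ ≤ (Q : ℝ) ^ 2 * (8 * W) := hpairs _ _ (fun _ => le_rfl) (by positivity)
      _ = _ := by ring
  -- inner windows
  have hin : ∀ v ∈ J, ∑ q ∈ Icc 1 Q, ∑ a ∈ reduced q, wt ω q * (4 / (W : ℝ) ^ 2 * T q a v) ≤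
      20 * ((η - 1) * α * dd v + α ^ 2) + 8 * ε * α ^ 2 + 8 * (Q : ℝ) ^ 4 / (W : ℝ) ^ 2 := by
    intro v hv
    have hv0 : 0 ≤ v ∧ v + W ≤ (N : ℤ) := by simp only [hJ, mem_Ico] at hv; omega
    rw [← sum_sdiff (show Icc 2 Q ⊆ Icc 1 Q from Icc_subset_Icc_left (by norm_num))]
    have hone : Icc 1 Q \ Icc 2 Q = {1} := by
      ext q; simp only [mem_sdiff, mem_Icc, mem_singleton]; omega
    rw [hone, sum_singleton, reduced_one, sum_singleton, wt_one]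
    have hzero : 4 / (W : ℝ) ^ 2 * T 1 0 v = 4 * (dd v - α) ^ 2 := by
      simp only [hT, Nat.cast_zero, zero_div, winSum_zero A α hW hv0.1 hv0.2, hdd]
      field_simp
    have hgen : ∑ q ∈ Icc 2 Q, ∑ a ∈ reduced q, wt ω q * (4 / (W : ℝ) ^ 2 * T q a v) ≤
        8 * (∑ q ∈ Icc 2 Q, wt ω q * ∑ a ∈ reduced q,
          ‖fhat (A ∩ Ioc v (v + W)) W ((a : ℝ) / q)‖ ^ 2) +
        8 * (Q : ℝ) ^ 4 / (W : ℝ) ^ 2 := by
      calc _ ≤ ∑ q ∈ Icc 2 Q, ∑ a ∈ reduced q,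
            (8 * (wt ω q * ‖fhat (A ∩ Ioc v (v + W)) W ((a : ℝ) / q)‖ ^ 2) +
              8 * (Q : ℝ) ^ 2 / (W : ℝ) ^ 2) := by
            refine sum_le_sum fun q hq => sum_le_sum fun a ha => ?_
            obtain ⟨hq2, hqQ⟩ := mem_Icc.1 hq
            have h := winSum_sq_le A hα0 hα1 hW (q := q) (by omega)
              (not_dvd_of_mem_reduced hq2 ha) hv0.1 hv0.2
            have hqQ' : (q : ℝ) ^ 2 ≤ (Q : ℝ) ^ 2 := by
              gcongr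
            calc wt ω q * (4 / (W : ℝ) ^ 2 * T q a v)
                ≤ wt ω q * (4 / (W : ℝ) ^ 2 * (2 * (W : ℝ) ^ 2 *
                    ‖fhat (A ∩ Ioc v (v + W)) W ((a : ℝ) / q)‖ ^ 2 + 2 * (q : ℝ) ^ 2)) := by
                  gcongr
                  · exact hω.wt_nonneg q
              _ = 8 * (wt ω q * ‖fhat (A ∩ Ioc v (v + W)) W ((a : ℝ) / q)‖ ^ 2) +
                    wt ω q * (8 * (q : ℝ) ^ 2 / (W : ℝ) ^ 2) := by field_simp; ring
              _ ≤ _ := by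
                  gcongr
                  calc wt ω q * (8 * (q : ℝ) ^ 2 / (W : ℝ) ^ 2)
                      ≤ 1 * (8 * (Q : ℝ) ^ 2 / (W : ℝ) ^ 2) := by
                        gcongr
                        exact hω.wt_le_one q
                    _ = _ := one_mul _
        _ ≤ _ := by
            simp only [sum_add_distrib, ← mul_sum]
            refine add_le_add le_rfl ?_
            calc ∑ q ∈ Icc 2 Q, ∑ _a ∈ reduced q, 8 * (Q : ℝ) ^ 2 / (W : ℝ) ^ 2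
                ≤ ∑ q ∈ Icc 1 Q, ∑ _a ∈ reduced q, 8 * (Q : ℝ) ^ 2 / (W : ℝ) ^ 2 :=
                  sum_le_sum_of_subset_of_nonneg (Icc_subset_Icc_left (by norm_num))
                    fun q _ _ => by positivity
              _ ≤ (Q : ℝ) ^ 2 * (8 * (Q : ℝ) ^ 2 / (W : ℝ) ^ 2) :=
                  hpairs _ _ (fun _ => le_rfl) (by positivity)
              _ = _ := by ring
    have hddle : dd v ≤ (1 + η) * α := by
      simp only [hdd]
      rw [div_le_iff₀ hWr]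
      exact hd v
    have hdd0 : 0 ≤ dd v := by positivity
    have hB : (dd v - α) ^ 2 ≤ (η - 1) * α * dd v + α ^ 2 := by
      nlinarith [mul_le_mul_of_nonneg_right hddle hdd0]
    have hlv := hlev v
    rw [show ((A ∩ Ioc v (v + W)).card : ℝ) / W = dd v from rfl] at hlv
    rw [one_mul, hzero]
    nlinarith [hgen, sq_nonneg (dd v - α)]
  -- total
  have hmass : (N : ℝ) * α - 2 * W ≤ ∑ v ∈ J, dd v := by
    have h := (sum_windows A hA (W := W)).2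
    simp only [hdd, ← sum_div]
    rw [le_div_iff₀ hWr]
    rw [hcard] at h
    calc ((N : ℝ) * α - 2 * W) * W = W * (α * N - 2 * W) := by ring
      _ ≤ _ := h
  have hJcard : (J.card : ℝ) ≤ N := by
    have : J.card ≤ N := by simp only [hJ, Int.card_Ico]; omega
    exact_mod_cast this
  calc ∑ q ∈ Icc 1 Q, ∑ a ∈ reduced q, wt ω q *
        (4 / (W : ℝ) ^ 2 * ∑ v ∈ Ico (-(W : ℤ)) N, T q a v)
      = ∑ q ∈ Icc 1 Q, ∑ a ∈ reduced q, wt ω q * (4 / (W : ℝ) ^ 2 * ∑ v ∈ Z, T q a v) +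
          ∑ v ∈ J, ∑ q ∈ Icc 1 Q, ∑ a ∈ reduced q, wt ω q * (4 / (W : ℝ) ^ 2 * T q a v) := by
        simp only [hsplit, mul_add, sum_add_distrib, mul_sum]
        congr 1
        rw [sum_comm (s := J)]
        exact sum_congr rfl fun q _ => sum_comm
    _ ≤ 8 * W * (Q : ℝ) ^ 2 + ∑ v ∈ J, (20 * ((η - 1) * α * dd v + α ^ 2) + 8 * ε * α ^ 2 +
          8 * (Q : ℝ) ^ 4 / (W : ℝ) ^ 2) := add_le_add hbd (sum_le_sum hin)
    _ = 8 * W * (Q : ℝ) ^ 2 + (20 * ((η - 1) * α * ∑ v ∈ J, dd v) + (J.card : ℝ) *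
          (20 * α ^ 2 + 8 * ε * α ^ 2 + 8 * (Q : ℝ) ^ 4 / (W : ℝ) ^ 2)) := by
        simp only [sum_add_distrib, ← mul_sum, sum_const, nsmul_eq_mul]
        ring
    _ ≤ 8 * W * (Q : ℝ) ^ 2 + (20 * ((η - 1) * α * ((N : ℝ) * α - 2 * W)) + (N : ℝ) *
          (20 * α ^ 2 + 8 * ε * α ^ 2 + 8 * (Q : ℝ) ^ 4 / (W : ℝ) ^ 2)) := by
        have h1 : (η - 1) * α * ∑ v ∈ J, dd v ≤ (η - 1) * α * ((N : ℝ) * α - 2 * W) :=
          mul_le_mul_of_nonpos_left hmass (mul_nonpos_of_nonpos_of_nonneg (by linarith) hα0)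
        gcongr
    _ ≤ _ := by
        have h2 : 0 ≤ η * α * (W : ℝ) := by positivity
        rw [mul_div_right_comm (8 * (Q : ℝ) ^ 4) (N : ℝ)]
        nlinarith

/-- A polynomial range on which the values are small but comparable with `N`. -/
theorem exists_scale {b : ℝ} (hb : 0 < b) {k : ℕ} (hk : 1 ≤ k) {Z R : ℝ} (hR : 1 ≤ R)
    (hZ : b * (2 * R) ^ k ≤ Z) :
    ∃ X : ℕ, R ≤ X ∧ b * (X : ℝ) ^ k ≤ Z ∧ Z ≤ 2 ^ k * (b * (X : ℝ) ^ k) := by
  have hZ0 : 0 ≤ Z / b := by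
    have : (0 : ℝ) ≤ Z := le_trans (by positivity) hZ
    positivity
  set y := (Z / b) ^ ((k : ℝ)⁻¹) with hy
  have hy0 : 0 ≤ y := Real.rpow_nonneg hZ0 _
  have hyk : y ^ k = Z / b := Real.rpow_inv_natCast_pow hZ0 (by omega)
  have h2R : 2 * R ≤ y := by
    refine le_of_pow_le_pow_left₀ (n := k) (by omega) hy0 ?_
    rw [hyk, le_div_iff₀ hb, mul_comm]
    exact hZ
  refine ⟨⌊y⌋₊, ?_, ?_, ?_⟩
  · have := Nat.lt_floor_add_one y
    linarith
  · calc b * (⌊y⌋₊ : ℝ) ^ k ≤ b * y ^ k := by gcongr; exact Nat.floor_le hy0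
      _ = Z := by rw [hyk]; field_simp
  · have h : y ≤ 2 * (⌊y⌋₊ : ℝ) := by
      have := Nat.lt_floor_add_one y
      linarith
    calc Z = b * y ^ k := by rw [hyk]; field_simp
      _ ≤ b * (2 * (⌊y⌋₊ : ℝ)) ^ k := by gcongr
      _ = _ := by ring

open scoped Classical in
/-- The analytic core: classes and intervals of near average density admit every difference. -/
theorem no_uniform {g : ℤ[X]} {k : ℕ} {B₀ : ℝ} {ω : ℕ → ℕ → ℝ} {C δ : ℝ}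
    (hω : GoodWeight ω C δ) (hk : 1 ≤ k) (hdeg : g.natDegree = k) (hb : 0 < g.leadingCoeff)
    (hcoeff : ∀ i, |(g.coeff i : ℝ)| ≤ B₀ * (g.leadingCoeff : ℝ))
    {N W Q X ℓ : ℕ} {α σ Bw : ℝ} {A : Finset ℤ} (hA : A ⊆ Icc 1 (N : ℤ))
    (hW : 0 < W) (hWN : W ≤ N) (hℓN : (ℓ : ℝ) ≤ N / 1000) (hQ : 1 ≤ Q) (hX : 2 * B₀ * k ≤ X)
    (hX0 : 0 < X) (hXℓ : 2 * (g.leadingCoeff : ℝ) * (2 * (X : ℝ)) ^ k ≤ ℓ)
    (hα0 : 0 < α) (hα1 : α ≤ 1) (hcard : (A.card : ℝ) = α * N) (hσ0 : 0 ≤ σ) (hσ : σ ≤ α / 1000)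
    (hav : ∀ a ∈ A, ∀ b ∈ A, ∀ n : ℕ, 1 ≤ n → g.eval (n : ℤ) ≠ 0 → a - b ≠ g.eval (n : ℤ))
    (hWB : (W : ℝ) * Bw ≤ 1 / 20)
    (harc : ∀ θ : ℝ, ‖(∑ n ∈ Ioc X (2 * X), ee (θ * (g.eval (n : ℤ) : ℤ))) / X‖ ≤
      σ + ∑ q ∈ Icc 1 Q, ∑ a ∈ reduced q,
        if ∃ z : ℤ, |θ - (a : ℝ) / q - z| ≤ Bw then wt ω q else 0)
    (hint : ∀ v : ℤ, ((A ∩ Ioc v (v + ℓ)).card : ℝ) ≤ (1 + 3 / 1000) * α * ℓ)
    (hwin : ∀ v : ℤ, ((A ∩ Ioc v (v + W)).card : ℝ) ≤ (1 + 3 / 1000) * α * W)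
    (hlev : ∀ v : ℤ, ∑ q ∈ Icc 2 Q, wt ω q * ∑ a ∈ reduced q,
      ‖fhat (A ∩ Ioc v (v + W)) W ((a : ℝ) / q)‖ ^ 2 ≤
        2 * ((1 + 3 / 1000) * α * (((A ∩ Ioc v (v + W)).card : ℝ) / W) -
          (((A ∩ Ioc v (v + W)).card : ℝ) / W) ^ 2) + 1 / 1000 * α ^ 2)
    (hs1 : 8 * (W : ℝ) * (Q : ℝ) ^ 2 ≤ α ^ 2 * N / 1000)
    (hs2 : 8 * (Q : ℝ) ^ 4 * N / (W : ℝ) ^ 2 ≤ α ^ 2 * N / 1000)
    (hs3 : 40 * α * W ≤ α ^ 2 * N / 1000) : False := by
  have hN0 : 0 < N := lt_of_lt_of_le hW hWN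
  have hNr : (0 : ℝ) < N := by exact_mod_cast hN0
  have hXr : (0 : ℝ) < X := by exact_mod_cast hX0
  have hbR : (0 : ℝ) < g.leadingCoeff := by exact_mod_cast hb
  have hval : ∀ n ∈ Ioc X (2 * X), ∃ v : ℕ, g.eval (n : ℤ) = v ∧ 0 < v ∧ v ≤ ℓ := by
    intro n hn
    obtain ⟨hn1, hn2⟩ := mem_Ioc.1 hn
    have hn' : (X : ℝ) ≤ n := by exact_mod_cast hn1.le
    obtain ⟨h1, h2⟩ := eval_bounds hk hdeg hb hcoeff (n := n) (hX.trans hn') (by omega)
    have hpos : (0 : ℝ) < (g.eval (n : ℤ) : ℤ) := by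
      refine lt_of_lt_of_le ?_ h1
      have : (0 : ℝ) < n := lt_of_lt_of_le hXr hn'
      positivity
    have hle : ((g.eval (n : ℤ) : ℤ) : ℝ) ≤ ℓ := by
      refine h2.trans (le_trans ?_ hXℓ)
      gcongr
      exact_mod_cast hn2
    obtain ⟨v, hv⟩ := Int.eq_ofNat_of_zero_le (a := g.eval (n : ℤ)) (by exact_mod_cast hpos.le)
    rw [hv] at hpos hle
    exact ⟨v, hv, by exact_mod_cast hpos, by exact_mod_cast hle⟩
  have hℓN' : ℓ ≤ N := by
    have : (ℓ : ℝ) ≤ N := by linarith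
    exact_mod_cast this
  set M := 2 * N with hM
  -- the correlation at each value
  have hcorr : ∀ n ∈ Ioc X (2 * X),
      ∑ ξ ∈ range M, ((‖balHat A α N ξ‖ ^ 2 : ℝ) : ℂ) *
          ee ((ξ : ℝ) / M * (g.eval (n : ℤ) : ℤ)) =
        ((M : ℝ) * (∑ y ∈ Icc 1 ((N : ℤ) - g.eval (n : ℤ)),
          bal A α (y + g.eval (n : ℤ)) * bal A α y) : ℝ) ∧
      (∑ y ∈ Icc 1 ((N : ℤ) - g.eval (n : ℤ)), bal A α (y + g.eval (n : ℤ)) * bal A α y) ≤
        -(99 / 100) * α ^ 2 * N := by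
    intro n hn
    obtain ⟨v, hv, hv0, hvℓ⟩ := hval n hn
    rw [hv]
    refine ⟨by simpa [hM] using sum_balHat_sq A α (hvℓ.trans hℓN'), ?_⟩
    have he1 : ((A ∩ Icc 1 (v : ℤ)).card : ℝ) ≤ (1 + 3 / 1000) * α * ℓ := by
      refine le_trans (Nat.cast_le.2 (card_le_card (inter_subset_inter_left ?_))) (hint 0)
      intro y hy; simp only [mem_Icc, mem_Ioc] at *; omega
    have he2 : ((A ∩ Icc ((N : ℤ) - v + 1) N).card : ℝ) ≤ (1 + 3 / 1000) * α * ℓ := by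
      refine le_trans (Nat.cast_le.2 (card_le_card (inter_subset_inter_left ?_)))
        (hint ((N : ℤ) - ℓ))
      intro y hy; simp only [mem_Icc, mem_Ioc] at *; omega
    have hnotin : ∀ a ∈ A, a + (v : ℤ) ∉ A := fun a ha h => by
      refine hav _ h a ha n (by have := (mem_Ioc.1 hn).1; omega) (by rw [hv]; omega) ?_
      rw [hv]; ring
    refine (corr_le A hA hα0.le hcard (hvℓ.trans hℓN') hnotin he1 he2).trans ?_
    nlinarith [mul_le_mul_of_nonneg_left hℓN (sq_nonneg α), mul_nonneg (sq_nonneg α) hNr.le]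
  -- average over the values
  set S : ℝ → ℂ := fun θ => (∑ n ∈ Ioc X (2 * X), ee (θ * (g.eval (n : ℤ) : ℤ))) / X
  have hlow : 99 / 100 * α ^ 2 * N * M ≤
      ∑ ξ ∈ range M, ‖balHat A α N ξ‖ ^ 2 * ‖S ((ξ : ℝ) / M)‖ := by
    set R : ℝ := ∑ n ∈ Ioc X (2 * X), (M : ℝ) * (∑ y ∈ Icc 1 ((N : ℤ) - g.eval (n : ℤ)),
          bal A α (y + g.eval (n : ℤ)) * bal A α y) with hR
    have hRC : ∑ ξ ∈ range M, ((‖balHat A α N ξ‖ ^ 2 : ℝ) : ℂ) * S ((ξ : ℝ) / M) =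
        ((R / X : ℝ) : ℂ) := by
      simp only [S, mul_div_assoc', mul_sum, ← sum_div]
      rw [sum_comm, Complex.ofReal_div, Complex.ofReal_natCast, hR, Complex.ofReal_sum]
      congr 1
      exact sum_congr rfl fun n hn => (hcorr n hn).1
    have hRle : R ≤ (X : ℝ) * ((M : ℝ) * (-(99 / 100) * α ^ 2 * N)) := by
      calc R ≤ ∑ _n ∈ Ioc X (2 * X), (M : ℝ) * (-(99 / 100) * α ^ 2 * N) :=
            sum_le_sum fun n hn => mul_le_mul_of_nonneg_left (hcorr n hn).2 (Nat.cast_nonneg _)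
        _ = _ := by simp [two_mul]
    calc 99 / 100 * α ^ 2 * N * M ≤ -(R / X) := by
          rw [← neg_div, le_div_iff₀ hXr]
          linarith
      _ ≤ |R / X| := neg_le_abs _
      _ = ‖((R / X : ℝ) : ℂ)‖ := (RCLike.norm_ofReal (K := ℂ) _).symm
      _ ≤ _ := by
          rw [← hRC]
          refine (norm_sum_le _ _).trans_eq (sum_congr rfl fun ξ _ => ?_)
          rw [norm_mul, Complex.norm_real, Real.norm_eq_abs, abs_of_nonneg (by positivity)]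
  -- the arcs
  have hup : ∑ ξ ∈ range M, ‖balHat A α N ξ‖ ^ 2 * ‖S ((ξ : ℝ) / M)‖ ≤
      σ * ((M : ℝ) * (α * N)) + (M : ℝ) * ∑ q ∈ Icc 1 Q, ∑ a ∈ reduced q, wt ω q *
        (4 / (W : ℝ) ^ 2 * ∑ v ∈ Ico (-(W : ℤ)) N, ‖winSum A α N W ((a : ℝ) / q) v‖ ^ 2) := by
    calc _ ≤ ∑ ξ ∈ range M, ‖balHat A α N ξ‖ ^ 2 * (σ + ∑ q ∈ Icc 1 Q, ∑ a ∈ reduced q,
          if ∃ z : ℤ, |(ξ : ℝ) / M - (a : ℝ) / q - z| ≤ Bw then wt ω q else 0) :=
          sum_le_sum fun ξ _ => mul_le_mul_of_nonneg_left (harc _) (by positivity)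
      _ = σ * ∑ ξ ∈ range M, ‖balHat A α N ξ‖ ^ 2 + ∑ q ∈ Icc 1 Q, ∑ a ∈ reduced q, wt ω q *
          ∑ ξ ∈ range M, (if ∃ z : ℤ, |(ξ : ℝ) / M - (a : ℝ) / q - z| ≤ Bw
            then ‖balHat A α N ξ‖ ^ 2 else 0) := by
          simp only [mul_add, sum_add_distrib, mul_sum]
          congr 1
          · exact sum_congr rfl fun ξ _ => mul_comm _ _
          rw [sum_comm]
          refine sum_congr rfl fun q _ => ?_
          rw [sum_comm]
          refine sum_congr rfl fun a _ => sum_congr rfl fun ξ _ => ?_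
          split_ifs <;> ring
      _ ≤ _ := by
          refine add_le_add ?_ ?_
          · exact mul_le_mul_of_nonneg_left (sum_balHat_norm_sq A hA hα0.le hcard) hσ0
          · rw [mul_sum]
            refine sum_le_sum fun q _ => ?_
            rw [mul_sum]
            refine sum_le_sum fun a _ => ?_
            calc wt ω q * _ ≤ wt ω q * (4 / (W : ℝ) ^ 2 * ((M : ℕ) *
                  ∑ v ∈ Ico (-(W : ℤ)) N, ‖winSum A α N W ((a : ℝ) / q) v‖ ^ 2)) :=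
                  mul_le_mul_of_nonneg_left (arc_mass A α hW hWN _ hWB) (hω.wt_nonneg q)
              _ = _ := by ring
  have hwinb := sum_window_bound hω A hA hW hWN hQ (by norm_num : (0 : ℝ) ≤ 3 / 1000)
    (by norm_num) hα0.le hα1 hcard hwin hlev (by norm_num)
  have hMr : (0 : ℝ) < M := by exact_mod_cast (show 0 < M by omega)
  have hfin : 99 / 100 * α ^ 2 * N ≤ σ * (α * N) + (α ^ 2 * N / 1000 + α ^ 2 * N / 1000 +
      20 * (3 / 1000 * α ^ 2 * N) + α ^ 2 * N / 1000 + 8 * (1 / 1000) * α ^ 2 * N) := by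
    refine le_of_mul_le_mul_right ?_ hMr
    refine hlow.trans (hup.trans ?_)
    have := mul_le_mul_of_nonneg_left hwinb hMr.le
    nlinarith
  have h0 : 0 < α ^ 2 * N := by positivity
  nlinarith [mul_le_mul_of_nonneg_right hσ (by positivity : (0 : ℝ) ≤ α * N)]

theorem ceil_exp_le {c : ℝ} (hc : 0 ≤ c) {m : ℕ} (hm : 2 ≤ Real.exp m) :
    (⌈Real.exp (c * m)⌉₊ : ℝ) ≤ Real.exp ((c + 1) * m) := by
  have h1 := Nat.ceil_lt_add_one (Real.exp_pos (c * m)).le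
  have h3 : (1 : ℝ) ≤ Real.exp (c * m) := Real.one_le_exp (by positivity)
  rw [add_mul, one_mul, Real.exp_add]
  nlinarith

theorem mul_exp_le {K c : ℝ} {m : ℕ} (hK : K ≤ Real.exp m) :
    K * Real.exp (-((c + 1) * m)) ≤ Real.exp (-(c * m)) := by
  calc K * Real.exp (-((c + 1) * m)) ≤ Real.exp m * Real.exp (-((c + 1) * m)) := by gcongr
    _ = _ := by rw [← Real.exp_add]; ring_nf

/-- The window `W = N exp (-c m)`, rounded down. -/
theorem window_facts {c : ℝ} (hc : 1 ≤ c) {m N : ℕ} (hm : 2000 ≤ Real.exp m)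
    (hN : Real.exp (c * m + m) ≤ N) :
    (⌊(N : ℝ) * Real.exp (-(c * m))⌋₊ : ℝ) ≤ N * Real.exp (-(c * m)) ∧
      (N : ℝ) * Real.exp (-((c + 1) * m)) ≤ (⌊(N : ℝ) * Real.exp (-(c * m))⌋₊ : ℝ) ∧
      0 < ⌊(N : ℝ) * Real.exp (-(c * m))⌋₊ ∧
      (⌊(N : ℝ) * Real.exp (-(c * m))⌋₊ : ℝ) ≤ (N : ℝ) / 2000 := by
  set y := (N : ℝ) * Real.exp (-(c * m)) with hy
  have hy0 : 0 ≤ y := by positivity
  have h1 := Nat.floor_le hy0
  have h2 := Nat.lt_floor_add_one y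
  have h3 : Real.exp m ≤ y := by
    rw [hy]
    calc Real.exp m = Real.exp (c * m + m) * Real.exp (-(c * m)) := by
          rw [← Real.exp_add]; ring_nf
      _ ≤ _ := by gcongr
  refine ⟨h1, ?_, ?_, ?_⟩
  · have h4 := mul_le_mul_of_nonneg_left (mul_exp_le (c := c) (show (2 : ℝ) ≤ Real.exp m by linarith))
      (Nat.cast_nonneg (α := ℝ) N)
    rw [← hy, mul_left_comm] at h4
    linarith
  · have : (0 : ℝ) < (⌊y⌋₊ : ℝ) := by linarith
    exact_mod_cast this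
  · have h5 : Real.exp (-(c * m)) ≤ 1 / 2000 := by
      rw [Real.exp_neg, one_div]
      refine inv_anti₀ (by norm_num) (hm.trans (Real.exp_le_exp.2 ?_))
      exact le_mul_of_one_le_left (Nat.cast_nonneg m) hc
    calc (⌊y⌋₊ : ℝ) ≤ y := h1
      _ ≤ (N : ℝ) * (1 / 2000) := by rw [hy]; gcongr
      _ = _ := by ring

/-- The lengths of the polynomial range. -/
theorem scale_facts {b : ℝ} (hb : 0 < b) {k : ℕ} (hk : 1 ≤ k) {c : ℝ} {B : ℝ}
    {m N : ℕ} (hB : 1 ≤ B) (hN : b * (2 * (b * Real.exp (c * m) + B)) ^ k *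
      (1000 * 2 ^ (k + 2)) ≤ N) (hN' : (2000 : ℝ) ≤ N) :
    ∃ X : ℕ, 0 < X ∧ b * Real.exp (c * m) ≤ X ∧ B ≤ X ∧
      2 * b * (2 * (X : ℝ)) ^ k ≤ (⌊(N : ℝ) / 1000⌋₊ : ℝ) ∧
      (N : ℝ) ≤ 1000 * 2 ^ (2 * k + 2) * (b * (X : ℝ) ^ k) := by
  have hR : 1 ≤ b * Real.exp (c * m) + B := by
    have : 0 ≤ b * Real.exp (c * m) := by positivity
    linarith
  set Z : ℝ := (N : ℝ) / 1000 / 2 ^ (k + 2) with hZ
  obtain ⟨X, hXR, hXZ, hZX⟩ := exists_scale hb hk hR (Z := Z)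
    (by rw [hZ, div_div, le_div_iff₀ (by positivity)]; exact hN)
  have hb0 : 0 ≤ b * Real.exp (c * m) := by positivity
  refine ⟨X, ?_, by linarith, by linarith, ?_, ?_⟩
  · have : (0 : ℝ) < X := by linarith
    exact_mod_cast this
  · have := Nat.lt_floor_add_one ((N : ℝ) / 1000)
    calc 2 * b * (2 * (X : ℝ)) ^ k = 2 ^ (k + 1) * (b * (X : ℝ) ^ k) := by ring
      _ ≤ 2 ^ (k + 1) * Z := by gcongr
      _ = (N : ℝ) / 2000 := by rw [hZ, pow_succ' 2 (k + 1)]; field_simp; ring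
      _ ≤ _ := by linarith
  · calc (N : ℝ) = 1000 * 2 ^ (k + 2) * Z := by rw [hZ]; field_simp
      _ ≤ 1000 * 2 ^ (k + 2) * (2 ^ k * (b * (X : ℝ) ^ k)) := by gcongr
      _ = _ := by ring

/-- The classes in intervals have near average density if the progressions do. -/
theorem class_density {h : ℤ[X]} {k D : ℕ} {C : ℝ} (F : Family h k D C) (A : Finset ℤ)
    {α R Nmin : ℝ} (hα : 0 ≤ α) {W : ℕ}
    (H : ∀ (r N' : ℕ) (x : ℤ), 1 ≤ r → (r : ℝ) ≤ R → Nmin ≤ N' →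
      (((Icc 1 (N' : ℤ)).filter fun y => x + (F.lam r : ℤ) * y ∈ A).card : ℝ) ≤
        (1 + 1 / 1000) * α * N')
    (hsmall : 1000 * R ^ k ≤ W) (hmin : Nmin * R ^ k ≤ W) {ℓ : ℕ} (hℓ : (W : ℝ) ≤ ℓ)
    (r : ℕ) (x v : ℤ) (hr : 1 ≤ r) (hrle : (r : ℝ) ≤ R) :
    ((inClass (A ∩ Ioc v (v + ℓ)) r x).card : ℝ) ≤ (1 + 3 / 1000) * α * ℓ / r := by
  obtain ⟨s, hs⟩ := F.dvd_lam r hr
  have hs0 : 0 < s := by
    rcases Nat.eq_zero_or_pos s with rfl | h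
    · have := F.lam_pos r hr
      simp [hs] at this
    · exact h
  have hlam : (F.lam r : ℝ) ≤ R ^ k :=
    le_trans (by exact_mod_cast F.lam_le r hr) (pow_le_pow_left₀ (Nat.cast_nonneg r) hrle k)
  set n' := ℓ / (r * s) + 1 with hn'
  have hn'big : Nmin ≤ (n' : ℝ) := by
    have h1 : (ℓ : ℝ) ≤ (n' : ℝ) * F.lam r := by
      have : ℓ ≤ n' * F.lam r := by
        rw [hs, hn', add_mul, one_mul]
        have := Nat.div_add_mod ℓ (r * s)
        have := Nat.mod_lt ℓ (Nat.mul_pos hr hs0)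
        nlinarith
      exact_mod_cast this
    refine le_of_mul_le_mul_right ?_
      (lt_of_lt_of_le (by exact_mod_cast F.lam_pos r hr) hlam : (0 : ℝ) < R ^ k)
    exact hmin.trans (hℓ.trans (h1.trans (by gcongr)))
  refine (class_le_of_progressions A (ℓ := ℓ) hr hs0 (a := (1 + 1 / 1000) * α) (by positivity)
    (fun y => by
      have := H r n' y hr hrle hn'big
      rw [hn', ← hs] at this
      rw [← hs]
      exact this) x v).trans ?_
  have hlamℓ : (s : ℝ) * r ≤ ℓ / 1000 := by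
    rw [show (s : ℝ) * r = (F.lam r : ℝ) by rw [hs]; push_cast; ring]
    linarith
  have hrr : (0 : ℝ) < r := by exact_mod_cast hr
  rw [le_div_iff₀ hrr, mul_assoc, add_mul ((ℓ : ℝ) / r), div_mul_cancel₀ _ hrr.ne']
  calc (1 + 1 / 1000) * α * ((ℓ : ℝ) + s * r) ≤ (1 + 1 / 1000) * α * (ℓ + ℓ / 1000) := by gcongr
    _ ≤ _ := by nlinarith [mul_nonneg hα (Nat.cast_nonneg (α := ℝ) ℓ)]

theorem arc_width {c : ℝ} {k m N W : ℕ} {D : ℝ}
    (hW : (W : ℝ) ≤ N * Real.exp (-((2 * (c + 1) + 3) * m)))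
    (hN : (N : ℝ) ≤ 1000 * 2 ^ (2 * k + 2) * D) (hD : 0 < D) (hc : 0 ≤ c)
    (hm : 20000 * 2 ^ (2 * k + 2) ≤ Real.exp m) :
    (W : ℝ) * (Real.exp (c * m) / D) ≤ 1 / 20 := by
  rw [← mul_div_assoc, div_le_iff₀ hD]
  calc (W : ℝ) * Real.exp (c * m)
      ≤ N * Real.exp (-((2 * (c + 1) + 3) * m)) * Real.exp (c * m) := by gcongr
    _ ≤ N * Real.exp (-(m : ℝ)) := by
        rw [mul_assoc, ← Real.exp_add]
        refine mul_le_mul_of_nonneg_left (Real.exp_le_exp.2 ?_) (Nat.cast_nonneg N)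
        nlinarith [mul_nonneg hc (Nat.cast_nonneg (α := ℝ) m), Nat.cast_nonneg (α := ℝ) m]
    _ ≤ 1000 * 2 ^ (2 * k + 2) * D * Real.exp (-(m : ℝ)) := by gcongr
    _ = (20000 * 2 ^ (2 * k + 2)) * Real.exp (-(m : ℝ)) * (1 / 20 * D) := by ring
    _ ≤ _ := by
        refine mul_le_of_le_one_left (by positivity) ?_
        rw [Real.exp_neg, mul_inv_le_iff₀ (Real.exp_pos _), one_mul]
        exact hm

theorem small_terms {c α : ℝ} {m N W Q : ℕ}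
    (hW : (W : ℝ) ≤ N * Real.exp (-((2 * (c + 1) + 3) * m)))
    (hW' : (N : ℝ) * Real.exp (-((2 * (c + 1) + 4) * m)) ≤ W)
    (hN : Real.exp ((6 * c + 20) * m) ≤ N)
    (hQ : (Q : ℝ) ≤ Real.exp ((c + 1) * m)) (hQ1 : 1 ≤ Q) (hc : 0 ≤ c)
    (hα : Real.exp (-(m : ℝ)) ≤ α) (hα1 : α ≤ 1) (hm : 40000 ≤ Real.exp m) :
    8 * (W : ℝ) * (Q : ℝ) ^ 2 ≤ α ^ 2 * N / 1000 ∧
      8 * (Q : ℝ) ^ 4 * N / (W : ℝ) ^ 2 ≤ α ^ 2 * N / 1000 ∧
      40 * α * W ≤ α ^ 2 * N / 1000 := by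
  set G := Real.exp (m : ℝ) with hG
  set P := Real.exp ((c + 1) * m) with hP
  have hG0 : 0 < G := Real.exp_pos _
  have hα0 : 0 < α := (Real.exp_pos _).trans_le hα
  have hW1 : 40000 * (W : ℝ) * P ^ 2 ≤ α ^ 2 * N := by
    have e : Real.exp (-((2 * (c + 1) + 3) * m)) * P ^ 2 * G = Real.exp (-(m : ℝ)) ^ 2 := by
      rw [hP, hG, ← Real.exp_nat_mul, ← Real.exp_nat_mul, ← Real.exp_add, ← Real.exp_add]
      congr 1; push_cast; ring
    calc 40000 * (W : ℝ) * P ^ 2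
        ≤ G * ((N : ℝ) * Real.exp (-((2 * (c + 1) + 3) * m))) * P ^ 2 := by gcongr
      _ = Real.exp (-(m : ℝ)) ^ 2 * N := by rw [← e]; ring
      _ ≤ _ := by gcongr
  have hQP : (Q : ℝ) ^ 2 ≤ P ^ 2 := by gcongr
  have hW0 : (0 : ℝ) ≤ W := Nat.cast_nonneg _
  have hP1 : 1 ≤ P ^ 2 := one_le_pow₀ (Real.one_le_exp (by positivity))
  refine ⟨by nlinarith [mul_le_mul_of_nonneg_left hQP hW0], ?_, ?_⟩
  · have hN0 : (0 : ℝ) < N := (Real.exp_pos _).trans_le hN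
    have hWpos : (0 : ℝ) < W := lt_of_lt_of_le (by positivity) hW'
    have key : 8000 * P ^ 4 ≤ Real.exp (-(m : ℝ)) ^ 2 * (W : ℝ) ^ 2 := by
      have h1 : Real.exp ((4 * c + 14) * m) ≤ (W : ℝ) := by
        refine le_trans ?_ hW'
        calc Real.exp ((4 * c + 14) * m)
            = Real.exp ((6 * c + 20) * m) * Real.exp (-((2 * (c + 1) + 4) * m)) := by
              rw [← Real.exp_add]; congr 1; ring
          _ ≤ _ := by gcongr
      calc 8000 * P ^ 4 ≤ G * P ^ 4 := by gcongr; linarith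
        _ ≤ Real.exp (-(m : ℝ)) ^ 2 * Real.exp ((4 * c + 14) * m) ^ 2 := by
            rw [hP, hG, ← Real.exp_nat_mul, ← Real.exp_nat_mul, ← Real.exp_nat_mul, ← Real.exp_add,
              ← Real.exp_add]
            refine Real.exp_le_exp.2 ?_
            push_cast
            nlinarith [mul_nonneg hc (Nat.cast_nonneg (α := ℝ) m), Nat.cast_nonneg (α := ℝ) m]
        _ ≤ _ := by gcongr
    rw [div_le_div_iff₀ (by positivity) (by norm_num : (0 : ℝ) < 1000)]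
    calc 8 * (Q : ℝ) ^ 4 * N * 1000 = N * (8000 * (Q : ℝ) ^ 4) := by ring
      _ ≤ N * (8000 * P ^ 4) := by gcongr
      _ ≤ N * (α ^ 2 * (W : ℝ) ^ 2) :=
          mul_le_mul_of_nonneg_left (key.trans (mul_le_mul_of_nonneg_right
            (pow_le_pow_left₀ (Real.exp_pos _).le hα 2) (sq_nonneg _))) hN0.le
      _ = _ := by ring
  · have h2 : α * W ≤ W * P ^ 2 := by nlinarith
    linarith

/-- The range condition, from exponential bounds. -/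
theorem scale_exp {b C B E E' c Cb : ℝ} {k m d N : ℕ} (hb : 0 < b) (hbd : b ≤ C * (d : ℝ) ^ k)
    (hd : (d : ℝ) ≤ Real.exp (E * (m : ℝ) ^ 2)) (hEE : E ≤ E') (hE' : 0 ≤ E') (hc : 0 ≤ c)
    (hB : 0 ≤ B) (hm1 : (1 : ℝ) ≤ m) (hC : C ≤ Real.exp m) (hBG : B ≤ Real.exp m)
    (h4 : 4 ≤ Real.exp m) (h2k : (1000 : ℝ) * 2 ^ (k + 2) ≤ Real.exp m) (_hN : 0 ≤ (N : ℝ))
    (hCb : 30 + 2 * (k : ℝ) * (k + 1) * (E' + 1) + 2 * k * (c + 3) ≤ Cb)
    (hNb : ∀ x : ℝ, x ≤ Cb * (m : ℝ) ^ 2 → Real.exp x ≤ N) :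
    b * (2 * (b * Real.exp (c * m) + B)) ^ k * (1000 * 2 ^ (k + 2)) ≤ N := by
  set β : ℝ := ((k : ℝ) * E' + 1) * (m : ℝ) ^ 2
  have hβ0 : 0 ≤ β := by positivity
  have hble : b ≤ Real.exp β := by
    refine hbd.trans ?_
    calc C * (d : ℝ) ^ k ≤ Real.exp m * Real.exp (E' * (m : ℝ) ^ 2) ^ k := by
          gcongr
          exact hd.trans (Real.exp_le_exp.2 (mul_le_mul_of_nonneg_right hEE (sq_nonneg _)))
      _ ≤ _ := by
          rw [← Real.exp_nat_mul, ← Real.exp_add]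
          exact Real.exp_le_exp.2 (by simp only [β]; nlinarith)
  have hR : 2 * (b * Real.exp (c * m) + B) ≤ Real.exp (β + c * m + 2 * m) := by
    have h1 : b * Real.exp (c * m) ≤ Real.exp (β + c * m) := by rw [Real.exp_add]; gcongr
    have h2 : Real.exp (β + c * m + 2 * m) = Real.exp (β + c * m) * Real.exp m * Real.exp m := by
      rw [← Real.exp_add, ← Real.exp_add]; congr 1; ring
    have h3 : (1 : ℝ) ≤ Real.exp (β + c * m) := Real.one_le_exp (by positivity)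
    rw [h2]
    nlinarith [mul_le_mul_of_nonneg_left h4 (show (0:ℝ) ≤ Real.exp m by positivity)]
  calc _ ≤ Real.exp β * Real.exp (β + c * m + 2 * m) ^ k * Real.exp m := by gcongr
    _ ≤ N := by
      rw [← Real.exp_nat_mul, ← Real.exp_add, ← Real.exp_add]
      refine hNb _ (le_trans ?_ (mul_le_mul_of_nonneg_right hCb (sq_nonneg _)))
      have hmm : (m : ℝ) ≤ (m : ℝ) ^ 2 := by nlinarith
      have h5 : c * m + 2 * m ≤ (c + 2) * (m : ℝ) ^ 2 := by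
        rw [← add_mul]; exact mul_le_mul_of_nonneg_left hmm (by linarith)
      have h6 := mul_le_mul_of_nonneg_left h5 (Nat.cast_nonneg (α := ℝ) k)
      have h7 : 0 ≤ ((k : ℝ) * (k + 1) * (E' + 1)) * (m : ℝ) ^ 2 := by positivity
      have h8 : 0 ≤ ((k : ℝ) * (c + 4) + 29) * (m : ℝ) ^ 2 := by positivity
      have h9 : ((k : ℝ) + 1) * (k * E' + 1) * (m : ℝ) ^ 2 ≤
          ((k : ℝ) * (k + 1) * (E' + 1) + (k + 1)) * (m : ℝ) ^ 2 := by
        refine mul_le_mul_of_nonneg_right ?_ (sq_nonneg _)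
        nlinarith
      simp only [β]
      nlinarith [mul_nonneg (mul_nonneg (Nat.cast_nonneg (α := ℝ) k) hc) (sq_nonneg (m : ℝ))]

/-- All parameters, and the inequalities between them. -/
theorem params (k : ℕ) (hk : 1 ≤ k) (C a C₂ : ℝ) (ha : 0 < a) (hC₂ : 0 < C₂) (E : ℝ) :
    ∃ C₃ : ℝ, 0 < C₃ ∧ a ≤ C₃ ∧ C₂ ≤ C₃ ∧ ∀ m N : ℕ, C₃ ≤ m →
      Real.exp (C₃ * (m : ℝ) ^ 2) ≤ N → ∃ W : ℕ, 0 < W ∧ W ≤ N ∧
        20000 * 2 ^ (2 * k + 2) ≤ Real.exp m ∧ 40000 ≤ Real.exp m ∧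
        (W : ℝ) ≤ N * Real.exp (-((2 * (a + 1) + 3) * m)) ∧
        (N : ℝ) * Real.exp (-((2 * (a + 1) + 4) * m)) ≤ W ∧
        Real.exp ((6 * a + 20) * m) ≤ N ∧
        (W : ℝ) ≤ (⌊(N : ℝ) / 1000⌋₊ : ℝ) ∧
        Real.exp (C₂ * (m : ℝ) ^ 2) ≤ W ∧
        1000 * Real.exp (C₂ * m) ^ k ≤ W ∧
        ∀ b : ℝ, 0 < b → ∀ d : ℕ, b ≤ C * (d : ℝ) ^ k → (d : ℝ) ≤ Real.exp (E * (m : ℝ) ^ 2) →
          ∃ X : ℕ, 0 < X ∧ b * Real.exp (a * m) ≤ X ∧ 2 * C * k ≤ X ∧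
            2 * b * (2 * (X : ℝ)) ^ k ≤ (⌊(N : ℝ) / 1000⌋₊ : ℝ) ∧
            (N : ℝ) ≤ 1000 * 2 ^ (2 * k + 2) * (b * (X : ℝ) ^ k) := by
  set B : ℝ := max 1 (2 * C * k)
  set K₀ : ℝ := max (max (B + 2) C) (20000 * 2 ^ (2 * k + 2)) with hK₀
  have hB1 : (1 : ℝ) ≤ B := le_max_left _ _
  have hBK : B + 2 ≤ K₀ := le_trans (le_max_left _ _) (le_max_left _ _)
  have hCK : C ≤ K₀ := le_trans (le_max_right _ _) (le_max_left _ _)
  have h2K : 20000 * (2 : ℝ) ^ (2 * k + 2) ≤ K₀ := le_max_right _ _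
  have hK40 : (40000 : ℝ) ≤ K₀ := by
    refine le_trans ?_ h2K
    have : (2 : ℝ) ≤ 2 ^ (2 * k + 2) := le_self_pow₀ (by norm_num) (by omega)
    linarith
  have h2k : (1000 : ℝ) * 2 ^ (k + 2) ≤ K₀ := by
    refine le_trans ?_ h2K
    gcongr <;> [norm_num; norm_num; omega]
  set E' : ℝ := max E 0
  have hE' : 0 ≤ E' := le_max_right _ _
  set Cb : ℝ := 8 * a + 30 + (k + 2) * C₂ + 2 * k * (k + 1) * (E' + 1) + 2 * k * (a + 3) with hCb
  have hlK : 0 ≤ Real.log K₀ := Real.log_nonneg (by linarith)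
  have h1 : 0 ≤ 2 * (k : ℝ) * (k + 1) * (E' + 1) := by positivity
  have h2 : 0 ≤ 2 * (k : ℝ) * (a + 3) := by positivity
  have h3 : 0 ≤ (k : ℝ) * C₂ := by positivity
  have hCb1 : 8 * a + 30 + (k + 2) * C₂ ≤ Cb := by rw [hCb]; linarith
  refine ⟨Cb + a + C₂ + Real.log K₀, by linarith, by linarith, by linarith, fun m N hm hN => ?_⟩
  have hm1 : (1 : ℝ) ≤ m := by linarith
  have hm2 : (m : ℝ) ≤ (m : ℝ) ^ 2 := by nlinarith
  have hKG : K₀ ≤ Real.exp m := by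
    rw [← Real.exp_log (show (0 : ℝ) < K₀ by linarith)]
    exact Real.exp_le_exp.2 (by linarith)
  have hNb : ∀ x : ℝ, x ≤ Cb * (m : ℝ) ^ 2 → Real.exp x ≤ N := fun x hx =>
    (Real.exp_le_exp.2 (hx.trans (mul_le_mul_of_nonneg_right (by linarith) (sq_nonneg _)))).trans hN
  have hlin : ∀ c : ℝ, 0 ≤ c → c ≤ Cb → c * m ≤ Cb * (m : ℝ) ^ 2 := fun c hc0 hc =>
    (mul_le_mul_of_nonneg_left hm2 hc0).trans (mul_le_mul_of_nonneg_right hc (sq_nonneg _))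
  obtain ⟨hWle, hWge, hW0, hW2⟩ := window_facts (c := 2 * (a + 1) + 3) (N := N) (by linarith)
    (show 2000 ≤ Real.exp m by linarith) (by
      rw [← add_one_mul]
      exact hNb _ (hlin _ (by linarith) (by linarith)))
  set W : ℕ := ⌊(N : ℝ) * Real.exp (-((2 * (a + 1) + 3) * m))⌋₊
  have hW1 : (1 : ℝ) ≤ W := by exact_mod_cast hW0
  have hN2000 : (2000 : ℝ) ≤ N := by linarith
  rw [show (2 * (a + 1) + 3 + 1) = 2 * (a + 1) + 4 by ring] at hWge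
  have hWbig : ∀ x : ℝ, x + (2 * (a + 1) + 4) * m ≤ Cb * (m : ℝ) ^ 2 → Real.exp x ≤ W := by
    intro x hx
    refine le_trans ?_ hWge
    calc Real.exp x = Real.exp (x + (2 * (a + 1) + 4) * m) *
          Real.exp (-((2 * (a + 1) + 4) * m)) := by rw [← Real.exp_add]; ring_nf
      _ ≤ _ := by gcongr; exact hNb _ hx
  refine ⟨W, hW0, ?_, by linarith, by linarith, hWle, hWge,
    hNb _ (hlin _ (by linarith) (by linarith)), ?_, hWbig _ ?_, ?_, fun b hb d hbd hd => ?_⟩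
  · have h5 : (W : ℝ) ≤ N := by linarith
    exact_mod_cast h5
  · have := Nat.lt_floor_add_one ((N : ℝ) / 1000)
    linarith
  · have h4 : (2 * (a + 1) + 4) * m ≤ (2 * (a + 1) + 4) * (m : ℝ) ^ 2 :=
      mul_le_mul_of_nonneg_left hm2 (by linarith)
    have h5 : (C₂ + (2 * (a + 1) + 4)) * (m : ℝ) ^ 2 ≤ Cb * (m : ℝ) ^ 2 :=
      mul_le_mul_of_nonneg_right (by linarith) (sq_nonneg _)
    linarith
  · calc 1000 * Real.exp (C₂ * m) ^ k ≤ Real.exp m * Real.exp (C₂ * m) ^ k := by gcongr; linarith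
      _ ≤ W := by
        rw [← Real.exp_nat_mul, ← Real.exp_add]
        refine hWbig _ ?_
        rw [show (m : ℝ) + (k : ℝ) * (C₂ * m) + (2 * (a + 1) + 4) * m =
          (k * C₂ + (2 * (a + 1) + 4) + 1) * m by ring]
        exact hlin _ (by linarith) (by linarith)
  · have hscale := scale_exp (k := k) (m := m) (N := N) (Cb := Cb) (B := B) hb hbd hd
      (le_max_left E 0) hE' ha.le (by linarith) hm1 (by linarith) (by linarith) (by linarith)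
      (h2k.trans hKG) (Nat.cast_nonneg N) (by rw [hCb]; linarith) hNb
    obtain ⟨X, hX0, hXarc, hXB, hXℓ, hNX⟩ := scale_facts hb hk hB1 hscale hN2000
    exact ⟨X, hX0, hXarc, (le_max_right _ _).trans hXB, hXℓ, hNX⟩

/-- A set without differences in the values of an auxiliary polynomial gains a constant factor of
density on a progression whose step is exponential in `m`. -/
theorem increment (h : ℤ[X]) (k D : ℕ) (C : ℝ) (hk : 1 ≤ k) (F : Family h k D C)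
    (ω : ℕ → ℕ → ℝ) (C' δ : ℝ) (hω : GoodWeight ω C' δ)
    (hg : ∀ d, 1 ≤ d → ∀ q : ℕ, 1 ≤ q → ∀ a : ℤ, Int.gcd a q = 1 →
      ‖gauss (F.poly d) a q‖ ≤ wt ω q) :
    ∃ η C₁ : ℝ, 0 < η ∧ 0 < C₁ ∧ ∀ E : ℝ, ∃ C₃ : ℝ, 0 < C₃ ∧ ∀ m N d : ℕ, C₃ ≤ m → 1 ≤ d →
      (d : ℝ) ≤ Real.exp (E * (m : ℝ) ^ 2) → Real.exp (C₃ * (m : ℝ) ^ 2) ≤ N →
      ∀ A : Finset ℤ, A ⊆ Icc 1 (N : ℤ) → Real.exp (-(m : ℝ)) * N ≤ A.card →
        (∀ a ∈ A, ∀ b ∈ A, ∀ n : ℕ, 1 ≤ n → (F.poly d).eval (n : ℤ) ≠ 0 →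
          a - b ≠ (F.poly d).eval (n : ℤ)) →
        ∃ (r N' : ℕ) (x : ℤ), 1 ≤ r ∧ (r : ℝ) ≤ Real.exp (C₁ * m) ∧
          Real.exp (-C₁ * m) * N ≤ N' ∧
          (1 + η) * ((A.card : ℝ) / N) * N' ≤
            ((Icc 1 (N' : ℤ)).filter fun y => x + (F.lam r : ℤ) * y ∈ A).card := by
  obtain ⟨C₁a, hC₁a, harc⟩ := arc_bound k hk C ω C' δ hω (1 / 1000) (by norm_num)
  obtain ⟨C₂, hC₂, hlev⟩ := level_bound ω C' δ hω (1 / 1000) (by norm_num) (C₁a + 1)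
  refine ⟨1 / 1000, 2 * (C₁a + 1) + 4 + (k + 1) * C₂, by norm_num, by positivity, fun E => ?_⟩
  obtain ⟨C₃, hC₃, haC, hC₂C, hpar⟩ := params k hk C C₁a C₂ hC₁a hC₂ E
  refine ⟨C₃, hC₃, fun m N d hm hd hdE hN A hA hα hav => ?_⟩
  obtain ⟨W, hW0, hWN, hG2, hG4, hWle, hWge, hN6, hWℓ, hWlev, hsmall, hX⟩ := hpar m N hm hN
  have hb : 0 < (F.poly d).leadingCoeff := F.lead_pos d hd
  have hbpos : (0 : ℝ) < (F.poly d).leadingCoeff := by exact_mod_cast hb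
  obtain ⟨X, hX0, hXarc, hXC, hXℓ, hNX⟩ := hX _ hbpos d (F.lead_le d hd) hdE
  by_contra hcon
  simp only [not_exists, not_and, not_le] at hcon
  have hNpos : (0 : ℝ) < N := (Real.exp_pos _).trans_le hN
  set α : ℝ := (A.card : ℝ) / N with hαdef
  have hcard : (A.card : ℝ) = α * N := by rw [hαdef]; field_simp
  have hαlow : Real.exp (-(m : ℝ)) ≤ α := by rw [hαdef, le_div_iff₀ hNpos]; exact hα
  have hα1 : α ≤ 1 := by
    rw [hαdef, div_le_one hNpos]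
    exact_mod_cast (show A.card ≤ N by simpa using card_le_card hA)
  have hα0 : 0 < α := (Real.exp_pos _).trans_le hαlow
  have hQle := ceil_exp_le (c := C₁a) (m := m) hC₁a.le (by linarith)
  obtain ⟨hs1, hs2, hs3⟩ := small_terms (c := C₁a) hWle hWge hN6 hQle
    (Nat.one_le_iff_ne_zero.2 (by positivity)) hC₁a.le hαlow hα1 hG4
  have hkC₂ : 0 ≤ (k : ℝ) * C₂ := by positivity
  have hmin : Real.exp (-((2 * (C₁a + 1) + 4) + k * C₂) * m) * N * Real.exp (C₂ * m) ^ k ≤ W := by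
    refine le_trans (le_of_eq ?_) hWge
    rw [← Real.exp_nat_mul, mul_right_comm, ← Real.exp_add, mul_comm]
    congr 2; ring
  have hdens : ∀ (ℓ : ℕ), (W : ℝ) ≤ ℓ → ∀ (r : ℕ) (x v : ℤ), 1 ≤ r →
      (r : ℝ) ≤ Real.exp (C₂ * m) →
      ((inClass (A ∩ Ioc v (v + ℓ)) r x).card : ℝ) ≤ (1 + 3 / 1000) * α * ℓ / r := by
    intro ℓ hℓ r x v hr hrle
    refine class_density F A hα0.le (fun r N' y hr hrle hN' => ?_) hsmall hmin hℓ r x v hr hrle
    refine (hcon r N' y hr (hrle.trans ?_) (le_trans ?_ hN')).le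
    · exact Real.exp_le_exp.2 (mul_le_mul_of_nonneg_right (by linarith) (by positivity))
    · exact mul_le_mul_of_nonneg_right (Real.exp_le_exp.2
        (mul_le_mul_of_nonneg_right (by linarith) (by positivity))) hNpos.le
  have hint : ∀ (ℓ : ℕ), (W : ℝ) ≤ ℓ → ∀ v : ℤ,
      ((A ∩ Ioc v (v + ℓ)).card : ℝ) ≤ (1 + 3 / 1000) * α * ℓ := by
    intro ℓ hℓ v
    have := hdens ℓ hℓ 1 0 v le_rfl (by
      rw [Nat.cast_one]; exact Real.one_le_exp (by positivity))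
    simpa [inClass] using this
  have hσle : 1 / 1000 * Real.exp (-(m : ℝ)) ≤ α / 1000 := by linarith
  refine no_uniform hω hk (F.degree_eq d hd) hb (F.coeff_le d hd) hA hW0 hWN
    (Nat.floor_le (by positivity)) (Nat.one_le_iff_ne_zero.2 (by positivity)) hXC hX0 hXℓ
    hα0 hα1 hcard (by positivity) hσle hav
    (arc_width hWle hNX (by positivity) hC₁a.le hG2)
    (harc m (haC.trans hm) (F.poly d) (F.degree_eq d hd) hb (F.coeff_le d hd) (hg d hd) X hXarc)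
    (hint _ hWℓ) (hint W le_rfl) ?_ hs1 hs2 hs3
  intro v
  exact hlev m (hC₂C.trans hm) α (3 / 1000) hαlow hα1 (by norm_num) (by norm_num) W v
    (A ∩ Ioc v (v + W)) hWlev inter_subset_right
    (fun r x hr hrle => hdens W le_rfl r x v hr hrle) _ hQle

end

end Vale.Agent.P042.Upper
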