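import Vale.Agent.P042.Upper.Rough

/-!
The level inequality for all moduli: the small primes are absorbed by a random modulus.
-/

open Finset

namespace Vale.Agent.P042.Upper

noncomputable section

theorem norm_sum_sq_eq {ι : Type*} (s : Finset ι) (f : ι → ℂ) :
    ((‖∑ i ∈ s, f i‖ ^ 2 : ℝ) : ℂ) = ∑ i ∈ s, ∑ j ∈ s, f i * starRingEnd ℂ (f j) := by
  rw [← Complex.normSq_eq_norm_sq, ← Complex.mul_conj, map_sum, Finset.sum_mul_sum]

theorem sum_ee_range (T : ℕ) (hT : 1 ≤ T) (k : ℤ) :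
    ∑ j ∈ range T, ee ((k : ℝ) * ((j : ℝ) / T)) = if (T : ℤ) ∣ k then (T : ℂ) else 0 := by
  have hT0 : (T : ℝ) ≠ 0 := by exact_mod_cast (show T ≠ 0 by omega)
  have hpow : ∀ j : ℕ, ee ((k : ℝ) * ((j : ℝ) / T)) = ee ((k : ℝ) / T) ^ j := by
    intro j
    induction j with
    | zero => simp [ee_zero]
    | succ j ih =>
      rw [pow_succ, ← ih, ← ee_add]
      congr 1
      push_cast
      ring
  simp only [hpow]
  split_ifs with h
  · obtain ⟨l, hl⟩ := h
    have : (k : ℝ) / T = ((l : ℤ) : ℝ) := by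
      rw [hl]
      push_cast
      field_simp
    rw [this, ee_int]
    simp
  · have hne : ee ((k : ℝ) / T) ≠ 1 := by
      intro he
      rw [ee, Complex.exp_eq_one_iff] at he
      obtain ⟨l, hl⟩ := he
      apply h
      refine ⟨l, ?_⟩
      have h2 : ((k : ℝ) / T : ℝ) = (l : ℝ) := by
        have := mul_right_cancel₀ Complex.I_ne_zero (show
          (2 * (Real.pi : ℂ)) * (((k : ℝ) / T : ℝ) : ℂ) * Complex.I =
            (2 * (Real.pi : ℂ) * (l : ℂ)) * Complex.I by rw [hl]; ring)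
        have h3 := mul_left_cancel₀ (by simp [Real.pi_ne_zero] : (2 * (Real.pi : ℂ)) ≠ 0) this
        exact_mod_cast h3
      rw [div_eq_iff hT0] at h2
      exact_mod_cast h2.trans (mul_comm _ _)
    rw [geom_sum_eq hne]
    have h1 : ee ((k : ℝ) / T) ^ T = 1 := by
      rw [← hpow, show (k : ℝ) * ((T : ℝ) / T) = ((k : ℤ) : ℝ) by rw [div_self hT0, mul_one]]
      exact ee_int k
    simp [h1]

/-- Parseval on the residues modulo `T`. -/
theorem sum_norm_sq_range (A : Finset ℤ) (T : ℕ) (hT : 1 ≤ T) (θ : ℝ) :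
    ∑ j ∈ range T, ‖∑ n ∈ A, ee ((n : ℝ) * ((j : ℝ) / T + θ))‖ ^ 2 =
      T * ∑ x ∈ range T, ‖∑ n ∈ inClass A T x, ee ((n : ℝ) * θ)‖ ^ 2 := by
  apply Complex.ofReal_injective
  push_cast
  have hcls : ∀ n : ℤ, ∃! x : ℕ, x ∈ range T ∧ (T : ℤ) ∣ n - x := by
    intro n
    have hT' : (0 : ℤ) < T := by omega
    refine ⟨(n % T).toNat, ⟨?_, ?_⟩, ?_⟩
    · rw [mem_range]
      have := Int.emod_lt_of_pos n hT'
      have := Int.emod_nonneg n (ne_of_gt hT')
      omega
    · rw [Int.toNat_of_nonneg (Int.emod_nonneg n (ne_of_gt hT'))]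
      exact Int.dvd_self_sub_emod
    · rintro x ⟨hx, hxd⟩
      rw [mem_range] at hx
      have h1 : (x : ℤ) % T = n % T := Int.modEq_iff_dvd.2 hxd
      rw [Int.emod_eq_of_lt (by omega) (by omega)] at h1
      omega
  calc ∑ j ∈ range T, ((‖∑ n ∈ A, ee ((n : ℝ) * ((j : ℝ) / T + θ))‖ : ℝ) : ℂ) ^ 2
      = ∑ n ∈ A, ∑ l ∈ A, ee ((n : ℝ) * θ) * starRingEnd ℂ (ee ((l : ℝ) * θ)) *
          ∑ j ∈ range T, ee (((n - l : ℤ) : ℝ) * ((j : ℝ) / T)) := by
        simp only [← Complex.ofReal_pow, norm_sum_sq_eq]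
        rw [Finset.sum_comm]
        refine Finset.sum_congr rfl fun n _ => ?_
        rw [Finset.sum_comm]
        refine Finset.sum_congr rfl fun l _ => ?_
        rw [Finset.mul_sum]
        refine Finset.sum_congr rfl fun j _ => ?_
        rw [← ee_neg, ← ee_neg, ← ee_add, ← ee_add, ← ee_add]
        congr 1
        push_cast
        ring
    _ = ∑ n ∈ A, ∑ l ∈ A, ee ((n : ℝ) * θ) * starRingEnd ℂ (ee ((l : ℝ) * θ)) *
          ∑ x ∈ range T, (if (T : ℤ) ∣ n - x ∧ (T : ℤ) ∣ l - x then (T : ℂ) else 0) := by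
        refine Finset.sum_congr rfl fun n _ => Finset.sum_congr rfl fun l _ => ?_
        congr 1
        rw [sum_ee_range T hT]
        obtain ⟨x, ⟨hx, hxn⟩, huniq⟩ := hcls n
        rw [Finset.sum_eq_single x]
        · by_cases hd : (T : ℤ) ∣ n - l
          · have hl : (T : ℤ) ∣ l - x := by
              have := dvd_sub hxn hd
              simpa using this
            rw [if_pos hd, if_pos ⟨hxn, hl⟩]
          · rw [if_neg hd, if_neg]
            rintro ⟨-, hl⟩
            exact hd (by simpa using dvd_sub hxn hl)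
        · intro y hy hne
          rw [if_neg]
          rintro ⟨hyn, -⟩
          exact hne (huniq y ⟨hy, hyn⟩)
        · exact fun h => absurd hx h
    _ = (T : ℂ) * ∑ x ∈ range T, ((‖∑ n ∈ inClass A T x, ee ((n : ℝ) * θ)‖ : ℝ) : ℂ) ^ 2 := by
        simp only [← Complex.ofReal_pow, norm_sum_sq_eq, Finset.mul_sum]
        rw [Finset.sum_congr rfl fun n (_ : n ∈ A) => Finset.sum_comm, Finset.sum_comm]
        refine Finset.sum_congr rfl fun x _ => ?_
        simp only [inClass, Finset.sum_filter, Finset.mul_sum]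
        refine Finset.sum_congr rfl fun n _ => ?_
        split_ifs with hn
        · refine Finset.sum_congr rfl fun l _ => ?_
          split_ifs with hl h2 h2 <;> simp_all <;> ring
        · simp [hn]

/-- The fractions with denominators dividing `T`. -/
theorem sum_divisors_reduced (T : ℕ) (hT : 1 ≤ T) (F : ℝ → ℝ) :
    ∑ r ∈ T.divisors, ∑ b ∈ reduced r, F ((b : ℝ) / r) = ∑ j ∈ range T, F ((j : ℝ) / T) := by
  rw [Finset.sum_sigma']
  refine Finset.sum_bij' (fun p _ => p.2 * (T / p.1))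
    (fun j _ => ⟨T / T.gcd j, j / T.gcd j⟩) ?_ ?_ ?_ ?_ ?_
  · rintro ⟨r, b⟩ hp
    simp only [mem_sigma, Nat.mem_divisors, reduced, mem_filter, mem_range] at hp ⊢
    obtain ⟨⟨⟨c, rfl⟩, -⟩, hb, -⟩ := hp
    have hr : 0 < r := by omega
    have hc : 0 < c := by
      rcases Nat.eq_zero_or_pos c with rfl | h
      · omega
      · exact h
    rw [Nat.mul_div_cancel_left _ hr]
    exact Nat.mul_lt_mul_of_pos_right hb hc
  · intro j hj
    rw [mem_range] at hj
    have hg : 0 < T.gcd j := Nat.gcd_pos_of_pos_left _ (by omega)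
    simp only [mem_sigma, Nat.mem_divisors, reduced, mem_filter, mem_range]
    exact ⟨⟨Nat.div_dvd_of_dvd (Nat.gcd_dvd_left T j), by omega⟩,
      Nat.div_lt_div_of_lt_of_dvd (Nat.gcd_dvd_left T j) hj,
      Nat.coprime_div_gcd_div_gcd hg⟩
  · rintro ⟨r, b⟩ hp
    simp only [mem_sigma, Nat.mem_divisors, reduced, mem_filter, mem_range] at hp
    obtain ⟨⟨⟨c, rfl⟩, h0⟩, hb, hco⟩ := hp
    have hr : 0 < r := by omega
    have hc : 0 < c := by
      rcases Nat.eq_zero_or_pos c with rfl | h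
      · omega
      · exact h
    have hg : (r * c).gcd (b * c) = c := by
      rw [Nat.gcd_mul_right, hco.gcd_eq_one, one_mul]
    simp only [Nat.mul_div_cancel_left _ hr, hg, Nat.mul_div_cancel _ hc]
  · intro j hj
    rw [mem_range] at hj
    have hg : 0 < T.gcd j := Nat.gcd_pos_of_pos_left _ (by omega)
    show j / T.gcd j * (T / (T / T.gcd j)) = j
    rw [Nat.div_div_self (Nat.gcd_dvd_left T j) (by omega),
      Nat.div_mul_cancel (Nat.gcd_dvd_right T j)]
  · rintro ⟨r, b⟩ hp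
    simp only [mem_sigma, Nat.mem_divisors, reduced, mem_filter, mem_range] at hp
    obtain ⟨⟨⟨c, rfl⟩, h0⟩, hb, -⟩ := hp
    have hr : 0 < r := by omega
    rw [Nat.mul_div_cancel_left _ hr]
    congr 1
    push_cast
    have hc : (c : ℝ) ≠ 0 := by
      rintro h
      have : c = 0 := by exact_mod_cast h
      simp [this] at h0
    field_simp

/-- The fractions with a product of coprime denominators. -/
theorem sum_reduced_mul (r s : ℕ) (hr : 1 ≤ r) (hs : 1 ≤ s) (hco : Nat.Coprime r s) (F : ℝ → ℝ)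
    (hF : ∀ (t : ℝ) (k : ℤ), F (t + k) = F t) :
    ∑ a ∈ reduced (r * s), F ((a : ℝ) / (r * s : ℕ)) =
      ∑ b ∈ reduced r, ∑ c ∈ reduced s, F ((b : ℝ) / r + (c : ℝ) / s) := by
  rw [← Finset.sum_product']
  symm
  have hpos : 0 < r * s := Nat.mul_pos (by omega) (by omega)
  set f : ℕ × ℕ → ℕ := fun p => (p.1 * s + p.2 * r) % (r * s) with hf
  have hmaps : Set.MapsTo f (reduced r ×ˢ reduced s : Finset _) (reduced (r * s) : Set ℕ) := by
    intro p hp
    simp only [Finset.coe_product, Set.mem_prod, Finset.mem_coe, reduced, mem_filter,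
      mem_range] at hp ⊢
    refine ⟨Nat.mod_lt _ hpos, ?_⟩
    rw [hf, Nat.Coprime, Nat.gcd_comm, ← Nat.gcd_rec, ← Nat.coprime_iff_gcd_eq_one,
      Nat.coprime_mul_iff_left]
    constructor
    · rw [Nat.coprime_add_mul_right_right]
      exact Nat.Coprime.mul_right hp.1.2 hco
    · rw [Nat.coprime_mul_right_add_right]
      exact Nat.Coprime.mul_right hp.2.2 hco.symm
  have hinj : Set.InjOn f (reduced r ×ˢ reduced s : Finset _) := by
    intro p hp p' hp' he
    simp only [Finset.coe_product, Set.mem_prod, Finset.mem_coe, reduced, mem_filter,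
      mem_range] at hp hp'
    have he' : p.1 * s + p.2 * r ≡ p'.1 * s + p'.2 * r [MOD r * s] := he
    have h1 : p.1 ≡ p'.1 [MOD r] := by
      refine Nat.ModEq.cancel_right_of_coprime hco (?_ : p.1 * s ≡ p'.1 * s [MOD r])
      have := he'.of_mul_right s
      simpa [Nat.ModEq, Nat.add_mul_mod_self_right] using this
    have h2 : p.2 ≡ p'.2 [MOD s] := by
      refine Nat.ModEq.cancel_right_of_coprime hco.symm (?_ : p.2 * r ≡ p'.2 * r [MOD s])
      have := he'.of_mul_left r
      simpa [Nat.ModEq, Nat.mul_add_mod_self_right] using this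
    exact Prod.ext (h1.eq_of_lt_of_lt hp.1.1 hp'.1.1) (h2.eq_of_lt_of_lt hp.2.1 hp'.2.1)
  have himg : (reduced r ×ˢ reduced s).image f = reduced (r * s) := by
    refine Finset.eq_of_subset_of_card_le (Finset.image_subset_iff.2 fun p hp => hmaps hp) ?_
    rw [Finset.card_image_of_injOn hinj, Finset.card_product]
    have hcard : ∀ q, (reduced q).card = q.totient := fun q => rfl
    rw [hcard, hcard, hcard, Nat.totient_mul hco]
  rw [← himg, Finset.sum_image hinj]
  refine Finset.sum_congr rfl fun p _ => ?_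
  have hr0 : (r : ℝ) ≠ 0 := by exact_mod_cast (show r ≠ 0 by omega)
  have hs0 : (s : ℝ) ≠ 0 := by exact_mod_cast (show s ≠ 0 by omega)
  have hdiv : ((f p : ℕ) : ℝ) + (r : ℝ) * s * (((p.1 * s + p.2 * r) / (r * s) : ℕ) : ℝ) =
      p.1 * s + p.2 * r := by
    exact_mod_cast Nat.mod_add_div (p.1 * s + p.2 * r) (r * s)
  rw [show (p.1 : ℝ) / r + (p.2 : ℝ) / s = ((f p : ℕ) : ℝ) / ((r * s : ℕ) : ℝ) +
    ((((p.1 * s + p.2 * r) / (r * s) : ℕ) : ℤ) : ℝ) by
      generalize (p.1 * s + p.2 * r) / (r * s) = w at hdiv ⊢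
      push_cast
      field_simp
      linarith, hF]

theorem sum_log_div_sqrt_le (n : ℕ) :
    ∑ p ∈ (Icc 1 n).filter Nat.Prime, Real.log p / Real.sqrt p ≤ 8 * Real.sqrt n := by
  induction n using Nat.strong_induction_on with
  | _ n ih =>
    rcases Nat.eq_zero_or_pos n with rfl | hn
    · simp
    have hlt : n / 4 < n := Nat.div_lt_self hn (by norm_num)
    have hsn : 0 < Real.sqrt n := Real.sqrt_pos.2 (by exact_mod_cast hn)
    have hquart : Real.sqrt ((n : ℝ) / 4) = Real.sqrt n / 2 := by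
      rw [Real.sqrt_div (Nat.cast_nonneg n), show (4 : ℝ) = 2 ^ 2 by norm_num,
        Real.sqrt_sq (by norm_num : (0 : ℝ) ≤ 2)]
    rw [← Finset.sum_filter_add_sum_filter_not _ (fun p => p ≤ n / 4)]
    have h1 : ∑ p ∈ ((Icc 1 n).filter Nat.Prime).filter (fun p => p ≤ n / 4),
        Real.log p / Real.sqrt p ≤ 4 * Real.sqrt n := by
      have he : ((Icc 1 n).filter Nat.Prime).filter (fun p => p ≤ n / 4) =
          (Icc 1 (n / 4)).filter Nat.Prime := by
        ext p
        simp only [mem_filter, mem_Icc]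
        constructor
        · tauto
        · rintro ⟨⟨h1, h2⟩, h3⟩
          exact ⟨⟨⟨h1, by omega⟩, h3⟩, h2⟩
      rw [he]
      refine (ih _ hlt).trans ?_
      have : Real.sqrt ((n / 4 : ℕ) : ℝ) ≤ Real.sqrt ((n : ℝ) / 4) :=
        Real.sqrt_le_sqrt (Nat.cast_div_le.trans (by norm_num))
      rw [hquart] at this
      linarith
    have h2 : ∑ p ∈ ((Icc 1 n).filter Nat.Prime).filter (fun p => ¬ p ≤ n / 4),
        Real.log p / Real.sqrt p ≤ 4 * Real.sqrt n := by
      have htheta : ∑ p ∈ (Icc 1 n).filter Nat.Prime, Real.log p ≤ n * Real.log 4 := by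
        rw [← Real.log_prod (fun p hp => by
            have := (mem_filter.1 hp).2.pos
            positivity), ← Real.log_pow]
        refine Real.log_le_log (prod_pos fun p hp => by
            have := (mem_filter.1 hp).2.pos
            positivity) ?_
        have he : (∏ p ∈ (Icc 1 n).filter Nat.Prime, p) ≤ 4 ^ n := by
          refine le_trans (le_of_eq ?_) (primorial_le_four_pow n)
          refine Finset.prod_congr ?_ fun _ _ => rfl
          ext p
          simp only [mem_filter, mem_Icc, mem_range]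
          constructor
          · rintro ⟨⟨-, h⟩, hp⟩; exact ⟨by omega, hp⟩
          · rintro ⟨h, hp⟩; exact ⟨⟨hp.one_le, by omega⟩, hp⟩
        rw [← Nat.cast_prod]
        exact_mod_cast he
      have hterm : ∀ p ∈ ((Icc 1 n).filter Nat.Prime).filter (fun p => ¬ p ≤ n / 4),
          Real.log p / Real.sqrt p ≤ Real.log p * (2 / Real.sqrt n) := by
        intro p hp
        simp only [mem_filter, mem_Icc] at hp
        have hp4 : (n : ℝ) / 4 ≤ p := by
          rw [div_le_iff₀ (by norm_num)]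
          exact_mod_cast (show n ≤ p * 4 by omega)
        have hs : Real.sqrt n / 2 ≤ Real.sqrt p := hquart ▸ Real.sqrt_le_sqrt hp4
        rw [div_eq_mul_inv, show 2 / Real.sqrt n = (Real.sqrt n / 2)⁻¹ by rw [inv_div]]
        exact mul_le_mul_of_nonneg_left (inv_anti₀ (by positivity) hs) (Real.log_natCast_nonneg p)
      refine (Finset.sum_le_sum hterm).trans ?_
      rw [← Finset.sum_mul]
      calc _ ≤ ((n : ℝ) * Real.log 4) * (2 / Real.sqrt n) := by
            refine mul_le_mul_of_nonneg_right ((Finset.sum_le_sum_of_subset_of_nonneg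
              (Finset.filter_subset _ _) fun p _ _ => Real.log_natCast_nonneg p).trans htheta)
              (by positivity)
        _ = 2 * Real.log 4 * ((n : ℝ) / Real.sqrt n) := by ring
        _ = 2 * Real.log 4 * Real.sqrt n := by rw [Real.div_sqrt]
        _ ≤ _ := by
          gcongr
          have : Real.log 4 = 2 * Real.log 2 := by
            rw [show (4 : ℝ) = 2 ^ 2 by norm_num, Real.log_pow]
            norm_num
          rw [this]
          have := Real.log_two_lt_d9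
          linarith
    linarith

/-- Random pairs: a configuration of low total cost contains the pairs `P` with at least half of
the full probability. -/
theorem random_modulus {ι : Type*} [DecidableEq ι] (U P : Finset ι) (hP : P ⊆ U) (w x : ι → ℝ)
    (hw0 : ∀ i, 0 ≤ w i) (hw1 : ∀ i, w i ≤ 1) (hx : ∀ i, 0 ≤ x i) (B L : ℝ) (hB : 0 < B)
    (hE : ∑ i ∈ U, w i * x i ≤ B) (hL : ∑ i ∈ P, x i + 2 * B ≤ L) :
    ∏ i ∈ P, w i ≤ 2 * ∑ V ∈ U.powerset, if P ⊆ V ∧ ∑ i ∈ V, x i ≤ L then
      (∏ i ∈ V, w i) * ∏ i ∈ U \ V, (1 - w i) else 0 := by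
  set μ : Finset ι → ℝ := fun V => (∏ i ∈ V, w i) * ∏ i ∈ U \ V, (1 - w i) with hμ
  have hμ0 : ∀ V, 0 ≤ μ V := fun V => mul_nonneg (prod_nonneg fun i _ => hw0 i)
    (prod_nonneg fun i _ => by linarith [hw1 i])
  have key : ∀ R ⊆ U, ∑ V ∈ U.powerset, (if R ⊆ V then μ V else 0) = ∏ i ∈ R, w i := by
    intro R hR
    have h := Finset.prod_add w (fun i => if i ∈ R then 0 else 1 - w i) U
    have hl : ∏ i ∈ U, (w i + if i ∈ R then 0 else 1 - w i) = ∏ i ∈ R, w i := by
      rw [Finset.prod_congr rfl (g := fun i => if i ∈ R then w i else 1) fun i _ => by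
        by_cases hi : i ∈ R <;> simp [hi], Finset.prod_ite_mem, Finset.inter_eq_right.2 hR]
    rw [← hl, h]
    refine Finset.sum_congr rfl fun V _ => ?_
    split_ifs with hRV
    · simp only [hμ]
      refine congrArg _ (Finset.prod_congr rfl fun i hi => ?_)
      rw [if_neg fun hiR => (mem_sdiff.1 hi).2 (hRV hiR)]
    · obtain ⟨i, hiR, hiV⟩ := Finset.not_subset.1 hRV
      rw [Finset.prod_eq_zero (mem_sdiff.2 ⟨hR hiR, hiV⟩) (by simp [hiR]), mul_zero]
  have hbad : ∑ V ∈ U.powerset, (if P ⊆ V ∧ L < ∑ i ∈ V, x i then μ V else 0) * (2 * B) ≤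
      B * ∏ i ∈ P, w i := by
    calc _ ≤ ∑ V ∈ U.powerset, ∑ i ∈ U \ P, x i * (if insert i P ⊆ V then μ V else 0) := by
          refine Finset.sum_le_sum fun V hV => ?_
          rw [mem_powerset] at hV
          split_ifs with hc
          · obtain ⟨hPV, hcost⟩ := hc
            have hsplit : ∑ i ∈ V, x i = ∑ i ∈ V \ P, x i + ∑ i ∈ P, x i :=
              (Finset.sum_sdiff hPV).symm
            calc μ V * (2 * B) ≤ μ V * ∑ i ∈ V \ P, x i := by
                  refine mul_le_mul_of_nonneg_left ?_ (hμ0 V)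
                  linarith
              _ = ∑ i ∈ V \ P, x i * (if insert i P ⊆ V then μ V else 0) := by
                  rw [Finset.mul_sum]
                  refine Finset.sum_congr rfl fun i hi => ?_
                  rw [if_pos (Finset.insert_subset (mem_sdiff.1 hi).1 hPV), mul_comm]
              _ ≤ _ := by
                  refine Finset.sum_le_sum_of_subset_of_nonneg
                    (Finset.sdiff_subset_sdiff hV subset_rfl) fun i _ _ => mul_nonneg (hx i) ?_
                  split_ifs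
                  exacts [hμ0 V, le_rfl]
          · rw [zero_mul]
            refine Finset.sum_nonneg fun i _ => mul_nonneg (hx i) ?_
            split_ifs
            exacts [hμ0 V, le_rfl]
      _ = (∑ i ∈ U \ P, w i * x i) * ∏ i ∈ P, w i := by
          rw [Finset.sum_comm, Finset.sum_mul]
          refine Finset.sum_congr rfl fun i hi => ?_
          rw [← Finset.mul_sum, key _ (Finset.insert_subset (mem_sdiff.1 hi).1 hP),
            Finset.prod_insert (mem_sdiff.1 hi).2]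
          ring
      _ ≤ _ := by
          refine mul_le_mul_of_nonneg_right (le_trans ?_ hE) (prod_nonneg fun i _ => hw0 i)
          exact Finset.sum_le_sum_of_subset_of_nonneg Finset.sdiff_subset fun i _ _ =>
            mul_nonneg (hw0 i) (hx i)
  rw [← Finset.sum_mul] at hbad
  have hsum : ∑ V ∈ U.powerset, (if P ⊆ V ∧ L < ∑ i ∈ V, x i then μ V else 0) +
      ∑ V ∈ U.powerset, (if P ⊆ V ∧ ∑ i ∈ V, x i ≤ L then μ V else 0) = ∏ i ∈ P, w i := by
    rw [← Finset.sum_add_distrib, ← key P hP]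
    refine Finset.sum_congr rfl fun V _ => ?_
    by_cases h : P ⊆ V
    · by_cases h' : L < ∑ i ∈ V, x i
      · simp [h, h', not_le.2 h']
      · simp [h, h', not_lt.1 h']
    · simp [h]
  nlinarith

/-- The contribution of all moduli built on a divisor of `T` with cofactor `s`. -/
theorem sum_divisor_fibre (A : Finset ℤ) (W : ℝ) (T s : ℕ) (hT : 1 ≤ T) (hs : 1 ≤ s)
    (hco : Nat.Coprime T s) :
    ∑ r ∈ T.divisors, ∑ a ∈ reduced (r * s), ‖fhat A W ((a : ℝ) / (r * s : ℕ))‖ ^ 2 =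
      ∑ x ∈ range T, ∑ c ∈ reduced s,
        T * (‖∑ n ∈ inClass A T x, ee ((n : ℝ) * ((c : ℝ) / s))‖ ^ 2 / W ^ 2) := by
  set F : ℝ → ℝ := fun t => ‖fhat A W t‖ ^ 2 with hF
  have hper : ∀ (t : ℝ) (k : ℤ), F (t + k) = F t := by
    intro t k
    simp only [hF, fhat]
    congr 3
    refine Finset.sum_congr rfl fun n _ => ?_
    rw [mul_add, show (n : ℝ) * (k : ℝ) = ((n * k : ℤ) : ℝ) by push_cast; ring, ee_add_int]
  have hFe : ∀ t, F t = ‖∑ n ∈ A, ee ((n : ℝ) * t)‖ ^ 2 / W ^ 2 := by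
    intro t
    simp only [hF, fhat, norm_div, Complex.norm_real, Real.norm_eq_abs, div_pow, sq_abs]
  calc _ = ∑ r ∈ T.divisors, ∑ b ∈ reduced r, ∑ c ∈ reduced s, F ((b : ℝ) / r + (c : ℝ) / s) :=
        Finset.sum_congr rfl fun r hr => sum_reduced_mul r s (Nat.pos_of_mem_divisors hr) hs
          (hco.coprime_dvd_left (Nat.dvd_of_mem_divisors hr)) F hper
    _ = ∑ j ∈ range T, ∑ c ∈ reduced s, F ((j : ℝ) / T + (c : ℝ) / s) :=
        sum_divisors_reduced T hT fun t => ∑ c ∈ reduced s, F (t + (c : ℝ) / s)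
    _ = _ := by
        rw [Finset.sum_comm, Finset.sum_comm (s := range T)]
        refine Finset.sum_congr rfl fun c _ => ?_
        simp only [hFe]
        rw [← Finset.sum_div, sum_norm_sq_range A T hT, Finset.mul_sum, Finset.sum_div]
        exact Finset.sum_congr rfl fun x _ => mul_div_assoc _ _ _

theorem inClass_rescale_card_le (A : Finset ℤ) (T r : ℕ) (hT : 1 ≤ T) (x y : ℤ) :
    (inClass (rescale A T x) r y).card ≤ (inClass A (T * r) (x + T * y)).card := by
  refine Finset.card_le_card_of_injOn (fun m => x + T * m) ?_ ?_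
  · intro m hm
    simp only [inClass, rescale, Finset.mem_coe, mem_filter, mem_image] at hm ⊢
    obtain ⟨⟨n, ⟨hn, hd⟩, rfl⟩, hr⟩ := hm
    have he : x + (T : ℤ) * ((n - x) / (T : ℤ)) = n := by
      rw [Int.mul_ediv_cancel' hd]; ring
    obtain ⟨l, hl⟩ := hr
    refine ⟨he.symm ▸ hn, l, ?_⟩
    push_cast
    linear_combination (T : ℤ) * hl
  · intro a _ b _ h
    have hT0 : (T : ℤ) ≠ 0 := by omega
    exact mul_left_cancel₀ hT0 (add_left_cancel h)

theorem sum_rescale (A : Finset ℤ) (T s c : ℕ) (hT : 1 ≤ T) (hs : 1 ≤ s) (x : ℤ) :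
    ‖∑ n ∈ inClass A T x, ee ((n : ℝ) * ((c : ℝ) / s))‖ =
      ‖∑ y ∈ rescale A T x, ee ((y : ℝ) * ((((T * c) % s : ℕ) : ℝ) / s))‖ := by
  have hinj : Set.InjOn (fun n => (n - x) / (T : ℤ)) (inClass A T x : Set ℤ) := by
    intro a ha b hb h
    simp only [inClass, Finset.mem_coe, mem_filter] at ha hb
    have := congrArg (fun z => (T : ℤ) * z) h
    simp only [Int.mul_ediv_cancel' ha.2, Int.mul_ediv_cancel' hb.2] at this
    linarith
  rw [rescale, Finset.sum_image hinj]
  have key : ∀ n ∈ inClass A T x, ee ((n : ℝ) * ((c : ℝ) / s)) = ee ((x : ℝ) * ((c : ℝ) / s)) *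
      ee (((((n - x) / (T : ℤ)) : ℤ) : ℝ) * ((((T * c) % s : ℕ) : ℝ) / s)) := by
    intro n hn
    simp only [inClass, mem_filter] at hn
    obtain ⟨y, hy⟩ := hn.2
    have hT0 : (T : ℤ) ≠ 0 := by omega
    rw [hy, Int.mul_ediv_cancel_left _ hT0, ← ee_add]
    have hn' : (n : ℝ) = x + T * y := by
      have : n = x + T * y := by linarith
      exact_mod_cast this
    have hdiv : (((T * c) % s : ℕ) : ℝ) = (T : ℝ) * c - (s : ℝ) * ((T * c) / s : ℕ) := by
      rw [eq_sub_iff_add_eq]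
      exact_mod_cast Nat.mod_add_div (T * c) s
    generalize (T * c) / s = wd at hdiv
    rw [← ee_add_int ((x : ℝ) * ((c : ℝ) / s) + _) (y * (wd : ℤ))]
    congr 1
    rw [hn', hdiv]
    have hs0 : (s : ℝ) ≠ 0 := by exact_mod_cast (show s ≠ 0 by omega)
    push_cast
    field_simp
    ring
  rw [Finset.sum_congr rfl key, ← Finset.mul_sum, norm_mul, norm_ee, one_mul]

theorem sum_reduced_mul_mod (s T : ℕ) (hs : 1 ≤ s) (hco : Nat.Coprime T s) (G : ℕ → ℝ) :
    ∑ c ∈ reduced s, G ((T * c) % s) = ∑ c ∈ reduced s, G c := by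
  have hmaps : ∀ c ∈ reduced s, (T * c) % s ∈ reduced s := by
    intro c hc
    simp only [reduced, mem_filter, mem_range] at hc ⊢
    refine ⟨Nat.mod_lt _ (by omega), ?_⟩
    rw [Nat.Coprime, Nat.gcd_comm, ← Nat.gcd_rec, ← Nat.coprime_iff_gcd_eq_one]
    exact Nat.Coprime.mul_right hco.symm hc.2
  have hinj : Set.InjOn (fun c => (T * c) % s) (reduced s : Set ℕ) := by
    intro a ha b hb h
    simp only [reduced, Finset.mem_coe, mem_filter, mem_range] at ha hb
    exact (Nat.ModEq.cancel_left_of_coprime hco.symm (h : T * a ≡ T * b [MOD s])).eq_of_lt_of_lt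
      ha.1 hb.1
  refine Finset.sum_nbij (fun c => (T * c) % s) hmaps hinj ?_ fun _ _ => rfl
  exact Finset.surjOn_of_injOn_of_card_le _ hmaps hinj le_rfl

/-- The weighted mass for one modulus `T` with small prime factors. -/
theorem fixed_modulus (ω : ℕ → ℕ → ℝ) (C δ : ℝ) (hω : GoodWeight ω C δ) (α η ε : ℝ) (X T Q : ℕ)
    (hT : 1 ≤ T) (hsm : ∀ p ∈ T.primeFactors, p ≤ X) (W : ℕ) (hW : 1 ≤ W) (A : Finset ℤ)
    (hcls : ∀ x : ℤ, ((inClass A T x).card : ℝ) ≤ (1 + η) * α * W / T)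
    (hrough : ∀ x : ℕ, x < T →
      ∑ s ∈ (Icc 2 Q).filter (fun s => ∀ p ∈ s.primeFactors, X < p),
        wt ω s * ∑ c ∈ reduced s, ‖fhat (rescale A T x) ((W : ℝ) / T) ((c : ℝ) / s)‖ ^ 2 ≤ ε)
    (R : Finset (ℕ × ℕ))
    (hR : R ⊆ T.divisors ×ˢ (Icc 1 Q).filter (fun s => ∀ p ∈ s.primeFactors, X < p))
    (h11 : (1, 1) ∉ R) :
    ∑ p ∈ R, wt ω p.2 * ∑ a ∈ reduced (p.1 * p.2), ‖fhat A W ((a : ℝ) / (p.1 * p.2 : ℕ))‖ ^ 2 ≤
      ((1 + η) * α * (A.card / W) - (A.card / W : ℝ) ^ 2) + ε := by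
  set G : ℕ × ℕ → ℝ := fun p =>
    wt ω p.2 * ∑ a ∈ reduced (p.1 * p.2), ‖fhat A W ((a : ℝ) / (p.1 * p.2 : ℕ))‖ ^ 2 with hG
  have hG0 : ∀ p, 0 ≤ G p := fun p => mul_nonneg (hω.wt_nonneg _) (sum_nonneg fun _ _ => sq_nonneg _)
  set S1 : Finset ℕ := (Icc 1 Q).filter (fun s => ∀ p ∈ s.primeFactors, X < p) with hS1
  have hcop : ∀ s ∈ S1, Nat.Coprime T s := by
    intro s hs
    simp only [hS1, mem_filter, mem_Icc] at hs
    refine Nat.coprime_of_dvd fun p hp hpT hps => ?_
    have h1 := hsm p (Nat.mem_primeFactors.2 ⟨hp, hpT, by omega⟩)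
    have h2 := hs.2 p (Nat.mem_primeFactors.2 ⟨hp, hps, by omega⟩)
    omega
  rcases Nat.eq_zero_or_pos Q with hQ | hQ
  · have hRe : R = ∅ := by
      refine eq_empty_of_forall_notMem fun p hp => ?_
      have := (mem_product.1 (hR hp)).2
      simp [hS1, hQ] at this
    have hd : ((A.card : ℝ) / W) ^ 2 ≤ (1 + η) * α * (A.card / W) := by
      have hle : (A.card : ℝ) / W ≤ (1 + η) * α := by
        rw [div_le_iff₀ (by exact_mod_cast hW)]
        have hsum : A.card ≤ ∑ x ∈ range T, (inClass A T x).card := by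
          refine le_trans (card_le_card ?_) card_biUnion_le
          intro n hn
          simp only [mem_biUnion, inClass, mem_filter, mem_range]
          have hT' : (0 : ℤ) < T := by omega
          refine ⟨(n % T).toNat, ?_, hn, ?_⟩
          · have := Int.emod_lt_of_pos n hT'
            have := Int.emod_nonneg n (ne_of_gt hT')
            omega
          · rw [Int.toNat_of_nonneg (Int.emod_nonneg n (ne_of_gt hT'))]
            exact Int.dvd_self_sub_emod
        calc (A.card : ℝ) ≤ ∑ x ∈ range T, ((inClass A T x).card : ℝ) := by exact_mod_cast hsum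
          _ ≤ ∑ x ∈ range T, (1 + η) * α * W / T := sum_le_sum fun x _ => hcls x
          _ = _ := by
            rw [sum_const, card_range, nsmul_eq_mul]
            field_simp
      rw [sq]
      exact mul_le_mul_of_nonneg_right hle (by positivity)
    have hε : 0 ≤ ε := le_trans (sum_nonneg fun s _ => mul_nonneg (hω.wt_nonneg s)
      (sum_nonneg fun _ _ => sq_nonneg _)) (hrough 0 hT)
    rw [hRe, sum_empty]
    linarith
  have h1S : (1 : ℕ) ∈ S1 := by
    simp only [hS1, mem_filter, mem_Icc]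
    exact ⟨⟨le_rfl, hQ⟩, by simp⟩
  have h11' : ((1, 1) : ℕ × ℕ) ∈ T.divisors ×ˢ S1 :=
    mem_product.2 ⟨Nat.mem_divisors.2 ⟨one_dvd T, by omega⟩, h1S⟩
  have hfib : ∀ s ∈ S1, ∑ r ∈ T.divisors, G (r, s) = wt ω s * ∑ x ∈ range T, ∑ c ∈ reduced s,
      (T : ℝ) * (‖∑ n ∈ inClass A T x, ee ((n : ℝ) * ((c : ℝ) / s))‖ ^ 2 / (W : ℝ) ^ 2) := by
    intro s hs
    rw [← sum_divisor_fibre A W T s hT (mem_Icc.1 (mem_filter.1 hs).1).1 (hcop s hs),
      Finset.mul_sum]
  calc ∑ p ∈ R, G p ≤ ∑ p ∈ (T.divisors ×ˢ S1).erase (1, 1), G p :=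
        sum_le_sum_of_subset_of_nonneg (fun p hp => mem_erase.2
          ⟨fun h => h11 (h ▸ hp), hR hp⟩) fun p _ _ => hG0 p
    _ = ∑ p ∈ T.divisors ×ˢ S1, G p - G (1, 1) := sum_erase_eq_sub h11'
    _ = ∑ r ∈ T.divisors, G (r, 1) + ∑ s ∈ S1.erase 1, ∑ r ∈ T.divisors, G (r, s) - G (1, 1) := by
        rw [sum_product_right, ← add_sum_erase _ _ h1S]
    _ ≤ _ := by
        have hG11 : G (1, 1) = ((A.card : ℝ) / W) ^ 2 := by
          simp [hG, wt_one, reduced, fhat, ee_zero]
        have hmain : ∑ r ∈ T.divisors, G (r, 1) ≤ (1 + η) * α * (A.card / W) := by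
          rw [hfib 1 h1S, wt_one, one_mul]
          calc _ = ∑ x ∈ range T, (T : ℝ) * (((inClass A T x).card : ℝ) ^ 2 / (W : ℝ) ^ 2) := by
                refine sum_congr rfl fun x _ => ?_
                have : reduced 1 = {0} := by decide
                simp [this, ee_zero]
            _ ≤ ∑ x ∈ range T, (1 + η) * α * (((inClass A T x).card : ℝ) / W) := by
                refine sum_le_sum fun x _ => ?_
                have hT0 : (0 : ℝ) < T := by exact_mod_cast hT
                have hW0 : (0 : ℝ) < W := by exact_mod_cast hW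
                have := hcls x
                rw [le_div_iff₀ hT0] at this
                rw [sq, ← mul_div_assoc, ← mul_div_assoc, div_le_div_iff₀ (by positivity) hW0]
                nlinarith [mul_le_mul_of_nonneg_left this
                  (mul_nonneg (Nat.cast_nonneg (inClass A T x).card) hW0.le : (0:ℝ) ≤ _)]
            _ = _ := by
                rw [← mul_sum, ← sum_div]
                congr 2
                have hcard : A.card = ∑ x ∈ range T, (inClass A T x).card := by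
                  have hT' : (0 : ℤ) < T := by omega
                  rw [card_eq_sum_card_fiberwise (f := fun n : ℤ => (n % T).toNat) (t := range T)]
                  · refine sum_congr rfl fun x hx => congrArg card (filter_congr fun n _ => ?_)
                    rw [mem_range] at hx
                    have h1 := Int.emod_nonneg n (ne_of_gt hT')
                    have hxm : (x : ℤ) % T = x := Int.emod_eq_of_lt (by omega) (by omega)
                    rw [← Int.modEq_iff_dvd, Int.ModEq, hxm]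
                    omega
                  · intro n _
                    have := Int.emod_lt_of_pos n hT'
                    have := Int.emod_nonneg n (ne_of_gt hT')
                    simp only [mem_coe, mem_range]
                    omega
                exact_mod_cast hcard.symm
        have hrest : ∑ s ∈ S1.erase 1, ∑ r ∈ T.divisors, G (r, s) ≤ ε := by
          have hset : S1.erase 1 = (Icc 2 Q).filter (fun s => ∀ p ∈ s.primeFactors, X < p) := by
            ext s
            simp only [hS1, mem_erase, mem_filter, mem_Icc]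
            constructor
            · rintro ⟨hne, ⟨h1, h2⟩, h3⟩; exact ⟨⟨by omega, h2⟩, h3⟩
            · rintro ⟨⟨h1, h2⟩, h3⟩; exact ⟨by omega, ⟨by omega, h2⟩, h3⟩
          have hrew : ∀ s ∈ S1.erase 1, ∑ r ∈ T.divisors, G (r, s) = ∑ x ∈ range T, (1 / T : ℝ) *
              (wt ω s * ∑ c ∈ reduced s,
                ‖fhat (rescale A T x) ((W : ℝ) / T) ((c : ℝ) / s)‖ ^ 2) := by
            intro s hs
            have hs' := mem_of_mem_erase hs
            have hs1 : 1 ≤ s := (mem_Icc.1 (mem_filter.1 hs').1).1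
            rw [hfib s hs', Finset.mul_sum]
            refine sum_congr rfl fun x _ => ?_
            rw [← sum_reduced_mul_mod s T hs1 (hcop s hs')
              (fun c => ‖fhat (rescale A T x) ((W : ℝ) / T) ((c : ℝ) / s)‖ ^ 2)]
            simp only [Finset.mul_sum]
            refine sum_congr rfl fun c _ => ?_
            rw [sum_rescale A T s c hT hs1, fhat, norm_div, Complex.norm_real, Real.norm_eq_abs,
              div_pow, sq_abs]
            generalize ‖∑ y ∈ rescale A T (x : ℤ), ee ((y : ℝ) * ((((T * c) % s : ℕ) : ℝ) / s))‖ = N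
            have hT0 : (T : ℝ) ≠ 0 := by exact_mod_cast (show T ≠ 0 by omega)
            have hW0 : (W : ℝ) ≠ 0 := by exact_mod_cast (show W ≠ 0 by omega)
            field_simp
          rw [sum_congr rfl hrew, sum_comm, hset]
          calc _ ≤ ∑ x ∈ range T, (1 / T : ℝ) * ε := by
                refine sum_le_sum fun x hx => ?_
                rw [← mul_sum]
                exact mul_le_mul_of_nonneg_left (hrough x (mem_range.1 hx)) (by positivity)
            _ = ε := by
                rw [sum_const, card_range, nsmul_eq_mul]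
                field_simp
        linarith

theorem split_moduli (ω : ℕ → ℕ → ℝ) (C δ : ℝ) (hω : GoodWeight ω C δ) (A : Finset ℤ) (W : ℝ)
    (X Q : ℕ) :
    ∑ q ∈ Icc 2 Q, wt ω q * ∑ a ∈ reduced q, ‖fhat A W ((a : ℝ) / q)‖ ^ 2 ≤
      ∑ p ∈ (((Icc 1 Q).filter fun r => ∀ p ∈ r.primeFactors, p ≤ X) ×ˢ
          ((Icc 1 Q).filter fun s => ∀ p ∈ s.primeFactors, X < p)).erase (1, 1),
        wt ω p.1 * (wt ω p.2 *
          ∑ a ∈ reduced (p.1 * p.2), ‖fhat A W ((a : ℝ) / (p.1 * p.2 : ℕ))‖ ^ 2) := by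
  set S0 : Finset ℕ := (Icc 1 Q).filter (fun r => ∀ p ∈ r.primeFactors, p ≤ X) with hS0
  set S1 : Finset ℕ := (Icc 1 Q).filter (fun s => ∀ p ∈ s.primeFactors, X < p) with hS1
  set smooth : ℕ → ℕ := fun q => ∏ p ∈ q.primeFactors.filter (· ≤ X), p ^ q.factorization p
    with hsmooth
  set rough : ℕ → ℕ := fun q => ∏ p ∈ q.primeFactors.filter (¬ · ≤ X), p ^ q.factorization p
    with hrgh
  have hsplit : ∀ q, q ∈ Icc 2 Q → smooth q * rough q = q ∧
      smooth q ∈ S0 ∧ rough q ∈ S1 ∧ Nat.Coprime (smooth q) (rough q) := by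
    intro q hq
    rw [mem_Icc] at hq
    have hq0 : q ≠ 0 := by omega
    have hprod : smooth q * rough q = q := by
      rw [hsmooth, hrgh, prod_filter_mul_prod_filter_not]
      exact Nat.factorization_prod_pow_eq_self hq0
    have hd1 : smooth q ∣ q := ⟨_, hprod.symm⟩
    have hd2 : rough q ∣ q := ⟨smooth q, by rw [mul_comm]; exact hprod.symm⟩
    have hpf : ∀ (P : Finset ℕ), P ⊆ q.primeFactors → ∀ l, l.Prime →
        l ∣ ∏ p ∈ P, p ^ q.factorization p → l ∈ P := by
      intro P hP l hl hdvd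
      obtain ⟨p, hp, hlp⟩ := (Prime.dvd_finsetProd_iff hl.prime _).1 hdvd
      have hpp : p.Prime := Nat.prime_of_mem_primeFactors (hP hp)
      rwa [(Nat.prime_dvd_prime_iff_eq hl hpp).1 (hl.dvd_of_dvd_pow hlp)]
    refine ⟨hprod, ?_, ?_, ?_⟩
    · simp only [hS0, mem_filter, mem_Icc]
      refine ⟨⟨Nat.pos_of_dvd_of_pos hd1 (by omega),
        (Nat.le_of_dvd (by omega) hd1).trans hq.2⟩, fun p hp => ?_⟩
      obtain ⟨hpp, hpd, -⟩ := Nat.mem_primeFactors.1 hp
      exact (mem_filter.1 (hpf _ (filter_subset _ _) p hpp hpd)).2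
    · simp only [hS1, mem_filter, mem_Icc]
      refine ⟨⟨Nat.pos_of_dvd_of_pos hd2 (by omega),
        (Nat.le_of_dvd (by omega) hd2).trans hq.2⟩, fun p hp => ?_⟩
      obtain ⟨hpp, hpd, -⟩ := Nat.mem_primeFactors.1 hp
      exact not_le.1 (mem_filter.1 (hpf _ (filter_subset _ _) p hpp hpd)).2
    · refine Nat.coprime_of_dvd fun p hp h1 h2 => ?_
      exact (mem_filter.1 (hpf _ (filter_subset _ _) p hp h2)).2
        (mem_filter.1 (hpf _ (filter_subset _ _) p hp h1)).2
  set S : Finset (ℕ × ℕ) := (S0 ×ˢ S1).erase (1, 1) with hS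
  set G : ℕ × ℕ → ℝ := fun p =>
    wt ω p.2 * ∑ a ∈ reduced (p.1 * p.2), ‖fhat A W ((a : ℝ) / (p.1 * p.2 : ℕ))‖ ^ 2 with hG
  have hG0 : ∀ p, 0 ≤ G p := fun p =>
    mul_nonneg (hω.wt_nonneg _) (sum_nonneg fun _ _ => sq_nonneg _)
  have hinj : Set.InjOn (fun q => (smooth q, rough q)) (Icc 2 Q : Set ℕ) := by
    intro a ha b hb h
    simp only [Prod.mk.injEq] at h
    rw [← (hsplit a (by simpa using ha)).1, ← (hsplit b (by simpa using hb)).1, h.1, h.2]
  calc _ = ∑ p ∈ (Icc 2 Q).image (fun q => (smooth q, rough q)), wt ω p.1 * G p := by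
        rw [sum_image (by simpa using hinj)]
        refine sum_congr rfl fun q hq => ?_
        obtain ⟨h1, -, -, h4⟩ := hsplit q hq
        simp only [hG]
        rw [← mul_assoc, ← wt_mul ω h4, h1]
    _ ≤ _ := by
        refine sum_le_sum_of_subset_of_nonneg ?_ fun p _ _ => mul_nonneg (hω.wt_nonneg _) (hG0 p)
        intro p hp
        obtain ⟨q, hq, rfl⟩ := mem_image.1 hp
        obtain ⟨h1, h2, h3, -⟩ := hsplit q hq
        refine mem_erase.2 ⟨fun h => ?_, mem_product.2 ⟨h2, h3⟩⟩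
        simp only [Prod.mk.injEq] at h
        rw [h.1, h.2] at h1
        have := (mem_Icc.1 hq).1
        omega

/-- The prime pairs of a modulus. -/
def pairs (r : ℕ) : Finset (ℕ × ℕ) := r.primeFactors.image fun p => (p, r.factorization p)

/-- The cost of a prime pair. -/
def cost (i : ℕ × ℕ) : ℝ := i.2 * Real.log i.1

theorem cost_nonneg (i : ℕ × ℕ) : 0 ≤ cost i :=
  mul_nonneg (Nat.cast_nonneg _) (Real.log_natCast_nonneg _)

theorem pairs_prob (ω : ℕ → ℕ → ℝ) (C δ : ℝ) (hω : GoodWeight ω C δ) (X Q r : ℕ) (hr1 : 1 ≤ r)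
    (hrQ : r ≤ Q) (hsm : ∀ p ∈ r.primeFactors, p ≤ X) (B L : ℝ) (hB : 0 < B)
    (hE : ∑ i ∈ (Icc 1 X).filter Nat.Prime ×ˢ Icc 1 Q, ω i.1 i.2 * cost i ≤ B)
    (hL : Real.log r + 2 * B ≤ L) :
    wt ω r ≤ 2 * ∑ V ∈ ((Icc 1 X).filter Nat.Prime ×ˢ Icc 1 Q).powerset,
      if pairs r ⊆ V ∧ ∑ i ∈ V, cost i ≤ L then
        (∏ i ∈ V, ω i.1 i.2) * ∏ i ∈ ((Icc 1 X).filter Nat.Prime ×ˢ Icc 1 Q) \ V, (1 - ω i.1 i.2)
      else 0 := by
  have hinj : Set.InjOn (fun p => (p, r.factorization p)) (r.primeFactors : Set ℕ) :=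
    fun a _ b _ h => congrArg Prod.fst h
  have hsub : pairs r ⊆ (Icc 1 X).filter Nat.Prime ×ˢ Icc 1 Q := by
    intro i hi
    obtain ⟨l, hl, rfl⟩ := mem_image.1 hi
    obtain ⟨hlp, hld, hr0⟩ := Nat.mem_primeFactors.1 hl
    simp only [mem_product, mem_filter, mem_Icc]
    refine ⟨⟨⟨hlp.one_le, hsm l hl⟩, hlp⟩, hlp.factorization_pos_of_dvd hr0 hld, ?_⟩
    exact ((Nat.factorization_lt l hr0).le).trans hrQ
  have hwt : wt ω r = ∏ i ∈ pairs r, ω i.1 i.2 := by
    simp only [pairs, wt, Finsupp.prod, Nat.support_factorization]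
    rw [prod_image hinj]
  have hcost : ∑ i ∈ pairs r, cost i = Real.log r := by
    simp only [pairs, cost]
    rw [sum_image hinj, Real.log_nat_eq_sum_factorization]
    simp [Finsupp.sum]
  rw [hwt]
  exact random_modulus _ (pairs r) hsub (fun i => ω i.1 i.2) cost (fun i => hω.nonneg _ _)
    (fun i => hω.le_one _ _) cost_nonneg B L hB hE (by rw [hcost]; exact hL)

theorem per_config (ω : ℕ → ℕ → ℝ) (C δ : ℝ) (hω : GoodWeight ω C δ) (α η ε K₀ K₁ L : ℝ)
    (X Q A₀ m : ℕ) (hm1 : (1 : ℝ) ≤ m) (hα0 : 0 < α) (hη : 0 ≤ η) (hη1 : η ≤ 1) (hK0 : 0 ≤ K₀)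
    (hK1 : 0 ≤ K₁) (hLK : L ≤ K₁ * m) (hQ' : (Q : ℝ) ≤ Real.exp (K₀ * m)) (hε : 0 ≤ ε) (W : ℕ) (u : ℤ)
    (A : Finset ℤ) (hW : Real.exp ((A₀ + K₁ + K₀ + 1) * (m : ℝ) ^ 2) ≤ W) (hA : A ⊆ Ioc u (u + W))
    (hcls : ∀ (r : ℕ) (x : ℤ), 1 ≤ r → (r : ℝ) ≤ Real.exp ((A₀ + K₁ + K₀ + 1) * m) →
          ((inClass A r x).card : ℝ) ≤ (1 + η) * α * W / r)
    (hrough : ∀ (B : Finset ℤ) (M : ℝ), Real.exp ((A₀ : ℝ) * (m : ℝ) ^ 2) * Q ≤ M → Glob B α M Q →
        ∑ q ∈ (Icc 2 Q).filter (fun q => ∀ p ∈ q.primeFactors, X < p),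
            wt ω q * ∑ a ∈ reduced q, ‖fhat B M ((a : ℝ) / q)‖ ^ 2 ≤ ε * α ^ 2)
    (V : Finset (ℕ × ℕ)) (hV : V ⊆ (Icc 1 X).filter Nat.Prime ×ˢ Icc 1 Q) (hc : ∑ i ∈ V, cost i ≤ L) :
    ∑ p ∈ ((((Icc 1 Q).filter fun r => ∀ p ∈ r.primeFactors, p ≤ X) ×ˢ
          ((Icc 1 Q).filter fun s => ∀ p ∈ s.primeFactors, X < p)).erase (1, 1)).filter
          (fun p => pairs p.1 ⊆ V),
        wt ω p.2 * ∑ a ∈ reduced (p.1 * p.2), ‖fhat A W ((a : ℝ) / (p.1 * p.2 : ℕ))‖ ^ 2 ≤
      ((1 + η) * α * (A.card / W) - (A.card / W : ℝ) ^ 2) + ε * α ^ 2 := by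
  have hW0 : (0 : ℝ) < W := (Real.exp_pos _).trans_le hW
  have hW1 : 1 ≤ W := by exact_mod_cast hW0
  set S0 : Finset ℕ := (Icc 1 Q).filter (fun r => ∀ p ∈ r.primeFactors, p ≤ X) with hS0
  set S1 : Finset ℕ := (Icc 1 Q).filter (fun s => ∀ p ∈ s.primeFactors, X < p) with hS1
  set T : ℕ := ∏ p ∈ (Icc 1 X).filter Nat.Prime, p ^ (V.filter fun i => i.1 = p).sup Prod.snd
    with hT
  have hTpos : 0 < T := prod_pos fun p hp => pow_pos (mem_filter.1 hp).2.pos _
  have hlogT : Real.log T ≤ L := by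
    refine le_trans ?_ hc
    rw [hT, Nat.cast_prod, Real.log_prod (fun p hp => by
      have := (mem_filter.1 hp).2.pos; positivity)]
    rw [← sum_fiberwise_of_maps_to (g := Prod.fst) (t := (Icc 1 X).filter Nat.Prime) (s := V)
      (fun i hi => (mem_product.1 (hV hi)).1)]
    refine sum_le_sum fun p hp => ?_
    rw [Nat.cast_pow, Real.log_pow]
    rcases (V.filter fun i => i.1 = p).eq_empty_or_nonempty with he | hne
    · simp [he]
    · obtain ⟨i, hi, hsup⟩ := exists_mem_eq_sup _ hne Prod.snd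
      rw [hsup]
      refine le_trans ?_ (single_le_sum (fun j _ => cost_nonneg j) hi)
      simp [cost, (mem_filter.1 hi).2]
  have hTle : (T : ℝ) ≤ Real.exp (K₁ * m) := by
    rw [← Real.log_le_iff_le_exp (by exact_mod_cast hTpos)]
    exact hlogT.trans hLK
  have hsm : ∀ p ∈ T.primeFactors, p ≤ X := by
    intro p hp
    obtain ⟨hpp, hpd, -⟩ := Nat.mem_primeFactors.1 hp
    obtain ⟨l, hl, hpl⟩ := (Prime.dvd_finsetProd_iff hpp.prime _).1 hpd
    rw [(Nat.prime_dvd_prime_iff_eq hpp (mem_filter.1 hl).2).1 (hpp.dvd_of_dvd_pow hpl)]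
    exact (mem_Icc.1 (mem_filter.1 hl).1).2
  have hclsT : ∀ (r : ℕ) (x : ℤ), 1 ≤ r → r ≤ max Q 1 →
      ((inClass A (T * r) x).card : ℝ) ≤ (1 + η) * α * W / ((T : ℝ) * r) := by
    intro r x hr hrQ
    have := hcls (T * r) x (Nat.mul_pos hTpos hr) ?_
    · simpa using this
    · push_cast
      have hr' : (r : ℝ) ≤ Real.exp (K₀ * m) := by
        have : (r : ℝ) ≤ max (Q : ℝ) 1 := by exact_mod_cast hrQ
        exact this.trans (max_le hQ' (Real.one_le_exp (by positivity)))
      refine (mul_le_mul hTle hr' (Nat.cast_nonneg r) (Real.exp_pos _).le).trans ?_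
      rw [← Real.exp_add]
      exact Real.exp_le_exp.2 (by nlinarith)
  refine fixed_modulus ω C δ hω α η (ε * α ^ 2) X T Q hTpos hsm W hW1 A
    (fun x => by simpa using hclsT 1 x le_rfl (le_max_right _ _)) ?_ _ ?_ ?_
  · intro x _
    have hsupp : ∀ y ∈ rescale A T (x : ℤ), ((u : ℝ) - x) / T ≤ y ∧
        (y : ℝ) ≤ ((u : ℝ) - x) / T + (W : ℝ) / T := by
      intro y hy
      simp only [rescale, inClass, mem_image, mem_filter] at hy
      obtain ⟨n, ⟨hn, ⟨z, hz⟩⟩, rfl⟩ := hy
      rw [hz, Int.mul_ediv_cancel_left _ (by omega : (T : ℤ) ≠ 0)]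
      have hn2 := mem_Ioc.1 (hA hn)
      have h1 : (u : ℝ) < n := by exact_mod_cast hn2.1
      have h2 : (n : ℝ) ≤ u + W := by exact_mod_cast hn2.2
      have h3 : (n : ℝ) - x = T * z := by exact_mod_cast hz
      have hT0 : (0 : ℝ) < T := by exact_mod_cast hTpos
      rw [← add_div, div_le_iff₀ hT0, le_div_iff₀ hT0]
      constructor <;> linarith
    refine hrough _ _ ?_ ⟨⟨((u : ℝ) - x) / T, fun y hy => ?_⟩, ?_⟩
    · have hT0 : (0 : ℝ) < T := by exact_mod_cast hTpos
      rw [le_div_iff₀ hT0]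
      calc Real.exp ((A₀ : ℝ) * (m : ℝ) ^ 2) * Q * T
          ≤ Real.exp ((A₀ : ℝ) * (m : ℝ) ^ 2) * Real.exp (K₀ * m) * Real.exp (K₁ * m) := by
            gcongr
        _ ≤ Real.exp ((A₀ + K₁ + K₀ + 1) * (m : ℝ) ^ 2) := by
            rw [← Real.exp_add, ← Real.exp_add]
            have hmm : (m : ℝ) ≤ (m : ℝ) ^ 2 := by nlinarith
            exact Real.exp_le_exp.2 (by nlinarith)
        _ ≤ _ := hW
    · obtain ⟨h1, h2⟩ := hsupp y hy
      refine ⟨h1, h2.trans ?_⟩
      have : 0 ≤ (W : ℝ) / T := by positivity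
      linarith
    · intro r y hr hrQ
      calc ((inClass (rescale A T (x : ℤ)) r y).card : ℝ)
          ≤ ((inClass A (T * r) ((x : ℤ) + T * y)).card : ℝ) := by
            exact_mod_cast inClass_rescale_card_le A T r hTpos x y
        _ ≤ (1 + η) * α * W / ((T : ℝ) * r) := hclsT r _ hr (hrQ.trans (le_max_left _ _))
        _ ≤ 4 * α * W / ((T : ℝ) * r) := by gcongr; linarith
        _ = _ := by ring
  · intro p hp
    rw [mem_filter] at hp
    obtain ⟨hr0, hs1⟩ := mem_product.1 (mem_of_mem_erase hp.1)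
    refine mem_product.2 ⟨Nat.mem_divisors.2 ⟨?_, by omega⟩, hs1⟩
    simp only [hS0, mem_filter, mem_Icc] at hr0
    rw [← Nat.factorization_le_iff_dvd (by omega) (by omega)]
    intro l
    by_cases hl : l ∈ p.1.primeFactors
    · have hmem : (l, p.1.factorization l) ∈ V := hp.2 (mem_image.2 ⟨l, hl, rfl⟩)
      have hdvd : l ^ (V.filter fun i => i.1 = l).sup Prod.snd ∣ T := by
        refine dvd_prod_of_mem (fun p => p ^ (V.filter fun i => i.1 = p).sup Prod.snd) ?_
        exact mem_filter.2 ⟨mem_Icc.2 ⟨(Nat.prime_of_mem_primeFactors hl).one_le, hr0.2 l hl⟩,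
          Nat.prime_of_mem_primeFactors hl⟩
      refine le_trans ?_ ((Nat.prime_of_mem_primeFactors hl).pow_dvd_iff_le_factorization
        (by omega) |>.1 hdvd)
      exact le_sup (f := Prod.snd) (b := (l, p.1.factorization l)) (s := V.filter fun i => i.1 = l)
          (mem_filter.2 ⟨hmem, rfl⟩)
    · rw [← Nat.support_factorization, Finsupp.notMem_support_iff] at hl
      simp [hl]
  · intro h
    exact (mem_erase.1 (mem_filter.1 h).1).1 rfl

/-- The weighted Fourier mass of a window at rationals. -/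
theorem level_bound (ω : ℕ → ℕ → ℝ) (C δ : ℝ) (hω : GoodWeight ω C δ) (ε : ℝ) (hε : 0 < ε)
    (K : ℝ) :
    ∃ C₂ : ℝ, 0 < C₂ ∧ ∀ m : ℕ, C₂ ≤ m → ∀ α η : ℝ, Real.exp (-(m : ℝ)) ≤ α → α ≤ 1 →
      0 ≤ η → η ≤ 1 → ∀ (W : ℕ) (u : ℤ) (A : Finset ℤ),
        Real.exp (C₂ * (m : ℝ) ^ 2) ≤ W → A ⊆ Ioc u (u + W) →
        (∀ (r : ℕ) (x : ℤ), 1 ≤ r → (r : ℝ) ≤ Real.exp (C₂ * m) →
          ((inClass A r x).card : ℝ) ≤ (1 + η) * α * W / r) →
        ∀ Q : ℕ, (Q : ℝ) ≤ Real.exp (K * m) →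
          ∑ q ∈ Icc 2 Q, wt ω q * ∑ a ∈ reduced q, ‖fhat A W ((a : ℝ) / q)‖ ^ 2 ≤
            2 * ((1 + η) * α * (A.card / W) - (A.card / W : ℝ) ^ 2) + ε * α ^ 2 := by
  have hC : 0 ≤ C := by
    by_contra hC
    have := hω.sum_le 2 0 Nat.prime_two
    have h2 : C / Real.sqrt (2 : ℕ) < 0 := div_neg_of_neg_of_pos (not_le.1 hC) (by norm_num)
    simp only [show Icc 1 0 = (∅ : Finset ℕ) from rfl, sum_empty] at this
    linarith
  obtain ⟨A₀, hA₀, hrough⟩ := rough_bound ω C δ hω (ε / 2) (by positivity) (max K 0)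
  set K₀ : ℝ := max K 0 with hK₀
  have hK0 : 0 ≤ K₀ := le_max_right _ _
  set K₁ : ℝ := K₀ + 16 * C * A₀ + 2 with hK₁
  have hK1 : 0 ≤ K₁ := by positivity
  refine ⟨A₀ + K₁ + K₀ + 1, by positivity, ?_⟩
  intro m hm α η hα hα1 hη hη1 W u A hW hA hcls Q hQ
  set X : ℕ := (A₀ * m) ^ 2 with hX
  have hA₀' : (1 : ℝ) ≤ A₀ := by exact_mod_cast hA₀
  have hm1 : (1 : ℝ) ≤ m := by linarith
  have hmA : A₀ ≤ m := by exact_mod_cast (show (A₀ : ℝ) ≤ m by linarith)
  have hα0 : 0 < α := (Real.exp_pos _).trans_le hα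
  have hW0 : (0 : ℝ) < W := (Real.exp_pos _).trans_le hW
  have hW1 : 1 ≤ W := by exact_mod_cast hW0
  have hQ' : (Q : ℝ) ≤ Real.exp (K₀ * m) :=
    hQ.trans (Real.exp_le_exp.2 (mul_le_mul_of_nonneg_right (le_max_left _ _) (by positivity)))
  set U : Finset (ℕ × ℕ) := (Icc 1 X).filter Nat.Prime ×ˢ Icc 1 Q with hU
  set B : ℝ := 8 * C * (A₀ * m) + 1 with hB
  have hE : ∑ i ∈ U, ω i.1 i.2 * cost i ≤ B := by
    rw [hU, sum_product]
    calc _ ≤ ∑ p ∈ (Icc 1 X).filter Nat.Prime, C * (Real.log p / Real.sqrt p) := by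
          refine sum_le_sum fun p hp => ?_
          calc ∑ j ∈ Icc 1 Q, ω p j * cost (p, j)
              = (∑ j ∈ Icc 1 Q, (j : ℝ) * ω p j) * Real.log p := by
                rw [sum_mul]; exact sum_congr rfl fun j _ => by simp only [cost]; ring
            _ ≤ C / Real.sqrt p * Real.log p :=
                mul_le_mul_of_nonneg_right (hω.sum_le p Q (mem_filter.1 hp).2)
                  (Real.log_natCast_nonneg p)
            _ = _ := by ring
      _ ≤ C * (8 * Real.sqrt X) := by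
          rw [← mul_sum]; exact mul_le_mul_of_nonneg_left (sum_log_div_sqrt_le X) hC
      _ ≤ B := by
          have : Real.sqrt (X : ℝ) = A₀ * m := by
            rw [hX]; push_cast; exact Real.sqrt_sq (by positivity)
          rw [this, hB]; linarith
  refine (split_moduli ω C δ hω A W X Q).trans ?_
  set L : ℝ := K₀ * m + 2 * B with hL
  set μ : Finset (ℕ × ℕ) → ℝ := fun V =>
    (∏ i ∈ V, ω i.1 i.2) * ∏ i ∈ U \ V, (1 - ω i.1 i.2) with hμ
  set Bd : ℝ := ((1 + η) * α * (A.card / W) - (A.card / W : ℝ) ^ 2) + ε / 2 * α ^ 2 with hBd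
  have hμ0 : ∀ V, 0 ≤ μ V := fun V => mul_nonneg (prod_nonneg fun i _ => hω.nonneg _ _)
    (prod_nonneg fun i _ => sub_nonneg.2 (hω.le_one _ _))
  have hBd0 : 0 ≤ Bd := by
    have hle : (A.card : ℝ) / W ≤ (1 + η) * α := by
      rw [div_le_iff₀ hW0]
      have := hcls 1 0 le_rfl (by simp only [Nat.cast_one]; exact Real.one_le_exp (by positivity))
      simpa [inClass] using this
    have hd2 : ((A.card : ℝ) / W) ^ 2 ≤ (1 + η) * α * (A.card / W) := by
      rw [sq]
      exact mul_le_mul_of_nonneg_right hle (by positivity)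
    have : 0 ≤ ε / 2 * α ^ 2 := by positivity
    linarith
  set S : Finset (ℕ × ℕ) := (((Icc 1 Q).filter fun r => ∀ p ∈ r.primeFactors, p ≤ X) ×ˢ
    ((Icc 1 Q).filter fun s => ∀ p ∈ s.primeFactors, X < p)).erase (1, 1) with hS
  calc _ ≤ ∑ p ∈ S, (2 * ∑ V ∈ U.powerset,
          if pairs p.1 ⊆ V ∧ ∑ i ∈ V, cost i ≤ L then μ V else 0) *
            (wt ω p.2 * ∑ a ∈ reduced (p.1 * p.2), ‖fhat A W ((a : ℝ) / (p.1 * p.2 : ℕ))‖ ^ 2) := by
        refine sum_le_sum fun p hp => mul_le_mul_of_nonneg_right ?_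
          (mul_nonneg (hω.wt_nonneg _) (sum_nonneg fun _ _ => sq_nonneg _))
        rw [hS] at hp
        have hr := (mem_product.1 (mem_of_mem_erase hp)).1
        rw [mem_filter, mem_Icc] at hr
        refine pairs_prob ω C δ hω X Q p.1 hr.1.1 hr.1.2 hr.2 B L (by rw [hB]; positivity) hE ?_
        have : Real.log (p.1 : ℝ) ≤ K₀ * m := by
          rw [Real.log_le_iff_le_exp (by exact_mod_cast hr.1.1)]
          exact le_trans (by exact_mod_cast hr.1.2) hQ'
        rw [hL]
        linarith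
    _ = 2 * ∑ V ∈ U.powerset, ∑ p ∈ S,
          (if pairs p.1 ⊆ V ∧ ∑ i ∈ V, cost i ≤ L then μ V else 0) *
            (wt ω p.2 * ∑ a ∈ reduced (p.1 * p.2), ‖fhat A W ((a : ℝ) / (p.1 * p.2 : ℕ))‖ ^ 2) := by
        rw [sum_comm, mul_sum]
        refine sum_congr rfl fun p _ => ?_
        rw [mul_assoc, sum_mul]
    _ ≤ 2 * ∑ V ∈ U.powerset, μ V * Bd := by
        refine mul_le_mul_of_nonneg_left (sum_le_sum fun V hV => ?_) (by norm_num)
        by_cases hc : ∑ i ∈ V, cost i ≤ L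
        · refine le_trans (le_of_eq ?_) (mul_le_mul_of_nonneg_left
            (per_config ω C δ hω α η (ε / 2) K₀ K₁ L X Q A₀ m hm1 hα0 hη hη1 hK0 hK1 ?_ hQ'
              (by positivity) W u A hW hA hcls (fun B M => hrough m hmA α hα hα1 Q hQ' B M) V
              (mem_powerset.1 hV) hc) (hμ0 V))
          · rw [sum_filter, mul_sum]
            refine sum_congr rfl fun p _ => ?_
            simp only [hc, and_true]
            split_ifs <;> ring
          · rw [hL, hB, hK₁]
            nlinarith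
        · simp only [hc, and_false, if_false, zero_mul, sum_const_zero]
          exact mul_nonneg (hμ0 V) hBd0
    _ = _ := by
        rw [← sum_mul]
        have : ∑ V ∈ U.powerset, μ V = 1 := by
          rw [hμ, ← prod_add]
          simp
        rw [this, hBd]
        ring

end

end Vale.Agent.P042.Upper
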