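import Vale.Agent.P042.Upper.Weil.Main

/-!
Bounds for complete exponential sums of polynomials of bounded content: multiplicativity, the
stationary phase bound at prime powers with a count of roots, and Weil's bound at primes.
-/

open Finset Polynomial

namespace Vale.Agent.P042.Upper

noncomputable section

namespace Local

/-! ### Characters modulo `q` -/

/-- The character `n ↦ e (n / q)`. -/
def eq' (q : ℕ) (n : ℤ) : ℂ := ee ((n : ℝ) / q)

theorem norm_eq' (q : ℕ) (n : ℤ) : ‖eq' q n‖ = 1 := norm_ee _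

theorem eq'_congr {q : ℕ} (hq : q ≠ 0) {n m : ℤ} (h : (q : ℤ) ∣ n - m) : eq' q n = eq' q m := by
  obtain ⟨c, hc⟩ := h
  have hn : (n : ℝ) = m + q * c := by
    rw [show n = m + q * c by linarith]; push_cast; ring
  have hq' : (q : ℝ) ≠ 0 := Nat.cast_ne_zero.2 hq
  rw [eq', eq', hn, add_div, mul_div_cancel_left₀ _ hq', ee_add_int]

theorem gauss_eq (g : ℤ[X]) (a : ℤ) (q : ℕ) :
    gauss g a q = (∑ x ∈ range q, eq' q (a * g.eval (x : ℤ))) / q := rfl

theorem norm_gauss_le_one (g : ℤ[X]) (a : ℤ) (q : ℕ) : ‖gauss g a q‖ ≤ 1 := by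
  rw [gauss_eq, norm_div, Complex.norm_natCast]
  refine div_le_one_of_le₀ ?_ (Nat.cast_nonneg _)
  refine (norm_sum_le _ _).trans ?_
  simp [norm_eq']

/-! ### Multiplicativity -/

theorem sum_crt {q r : ℕ} (h : Nat.Coprime q r) (hq : q ≠ 0) (hr : r ≠ 0) (F G : ℕ → ℂ) :
    ∑ x ∈ range (q * r), F (x % q) * G (x % r) = (∑ x ∈ range q, F x) * ∑ y ∈ range r, G y := by
  rw [Finset.sum_mul_sum, ← Finset.sum_product']
  refine Finset.sum_nbij' (fun x => (x % q, x % r))
    (fun z => (Nat.chineseRemainder h z.1 z.2 : ℕ)) ?_ ?_ ?_ ?_ ?_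
  · intro x _
    simp only [Finset.mem_product, Finset.mem_range]
    exact ⟨Nat.mod_lt _ (Nat.pos_of_ne_zero hq), Nat.mod_lt _ (Nat.pos_of_ne_zero hr)⟩
  · intro z _
    exact Finset.mem_range.2 (Nat.chineseRemainder_lt_mul h _ _ hq hr)
  · intro x hx
    have := Nat.chineseRemainder_modEq_unique h (a := x % q) (b := x % r) (z := x)
      (Nat.mod_modEq x q).symm (Nat.mod_modEq x r).symm
    rw [Nat.ModEq, Nat.mod_eq_of_lt (Finset.mem_range.1 hx),
      Nat.mod_eq_of_lt (Nat.chineseRemainder_lt_mul h _ _ hq hr)] at this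
    exact this.symm
  · intro z hz
    obtain ⟨h1, h2⟩ := Finset.mem_product.1 hz
    obtain ⟨e1, e2⟩ := (Nat.chineseRemainder h z.1 z.2).2
    exact Prod.ext (Eq.trans e1 (Nat.mod_eq_of_lt (Finset.mem_range.1 h1)))
      (Eq.trans e2 (Nat.mod_eq_of_lt (Finset.mem_range.1 h2)))
  · intro x _
    rfl

theorem gauss_mul (g : ℤ[X]) (a : ℤ) {q r : ℕ} (h : Nat.Coprime q r) (hq : q ≠ 0) (hr : r ≠ 0)
    (ha : Int.gcd a (q * r : ℕ) = 1) :
    ∃ b c : ℤ, Int.gcd b q = 1 ∧ Int.gcd c r = 1 ∧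
      gauss g a (q * r) = gauss g b q * gauss g c r := by
  have hco : IsCoprime (q : ℤ) (r : ℤ) := Nat.Coprime.isCoprime h
  obtain ⟨s, t, hst⟩ := hco
  have hco' : IsCoprime a ((q : ℤ) * r) := by
    rw [Int.isCoprime_iff_gcd_eq_one, ← Nat.cast_mul]; exact ha
  have hb : IsCoprime (a * t) (q : ℤ) :=
    IsCoprime.mul_left hco'.of_mul_right_left ⟨r, s, by rw [← hst]; ring⟩
  have hc : IsCoprime (a * s) (r : ℤ) :=
    IsCoprime.mul_left hco'.of_mul_right_right ⟨q, t, by rw [← hst]; ring⟩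
  refine ⟨a * t, a * s, Int.isCoprime_iff_gcd_eq_one.1 hb, Int.isCoprime_iff_gcd_eq_one.1 hc, ?_⟩
  have hper : ∀ (b : ℤ) (n x : ℕ), n ≠ 0 →
      eq' n (b * g.eval ((x % n : ℕ) : ℤ)) = eq' n (b * g.eval (x : ℤ)) := fun b n x hn =>
    eq'_congr hn (by
      have h1 : (n : ℤ) ∣ ((x % n : ℕ) : ℤ) - (x : ℤ) := (Nat.mod_modEq x n).symm.dvd
      rw [← mul_sub]
      exact (h1.trans (Polynomial.sub_dvd_eval_sub _ _ g)).mul_left b)
  rw [gauss_eq, gauss_eq, gauss_eq, div_mul_div_comm, ← sum_crt h hq hr, Nat.cast_mul]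
  congr 1
  refine Finset.sum_congr rfl fun x _ => ?_
  rw [hper _ q x hq, hper _ r x hr]
  simp only [eq', ← ee_add]
  congr 1
  have e1 : (q : ℝ) ≠ 0 := Nat.cast_ne_zero.2 hq
  have e2 : (r : ℝ) ≠ 0 := Nat.cast_ne_zero.2 hr
  have e3 : (s : ℝ) * q + t * r = 1 := by exact_mod_cast hst
  push_cast
  field_simp
  linear_combination (-(a : ℝ) * (g.eval (x : ℤ) : ℤ)) * e3

/-! ### Stationary phase -/

theorem sum_range_split (P M : ℕ) (hP : P ≠ 0) (F : ℕ → ℂ) :
    ∑ x ∈ range (P * M), F x = ∑ u ∈ range P, ∑ y ∈ range M, F (u + P * y) := by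
  rw [← Finset.sum_product']
  refine Finset.sum_nbij' (fun x => (x % P, x / P)) (fun z => z.1 + P * z.2) ?_ ?_ ?_ ?_ ?_
  · intro x hx
    simp only [Finset.mem_product, Finset.mem_range] at hx ⊢
    exact ⟨Nat.mod_lt _ (Nat.pos_of_ne_zero hP),
      (Nat.div_lt_iff_lt_mul (Nat.pos_of_ne_zero hP)).2 (by rwa [mul_comm])⟩
  · intro z hz
    simp only [Finset.mem_product, Finset.mem_range] at hz ⊢
    calc z.1 + P * z.2 < P + P * z.2 := Nat.add_lt_add_right hz.1 _
      _ = P * (z.2 + 1) := by ring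
      _ ≤ P * M := Nat.mul_le_mul_left _ hz.2
  · intro x _
    exact Nat.mod_add_div x P
  · intro z hz
    simp only [Finset.mem_product, Finset.mem_range] at hz
    have hP' := Nat.pos_of_ne_zero hP
    exact Prod.ext (by simp [Nat.add_mul_mod_self_left, Nat.mod_eq_of_lt hz.1])
      (by simp [Nat.add_mul_div_left _ _ hP', Nat.div_eq_of_lt hz.1])
  · intro x _
    simp [Nat.mod_add_div]

theorem ee_nat_mul (y : ℕ) (t : ℝ) : ee ((y : ℝ) * t) = ee t ^ y := by
  rw [ee, ee, ← Complex.exp_nat_mul]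
  congr 1
  push_cast
  ring

/-- The sum of a nontrivial character over all residues vanishes. -/
theorem geom_zero {M : ℕ} (hM : M ≠ 0) {b : ℤ} (hb : ¬ (M : ℤ) ∣ b) :
    ∑ y ∈ range M, ee ((y : ℝ) * ((b : ℝ) / M)) = 0 := by
  have hM' : (M : ℝ) ≠ 0 := Nat.cast_ne_zero.2 hM
  have hz : ee ((b : ℝ) / M) ≠ 1 := by
    intro h
    rw [ee, Complex.exp_eq_one_iff] at h
    obtain ⟨n, hn⟩ := h
    have h2 : (2 * Real.pi * Complex.I : ℂ) ≠ 0 := by simp [Real.pi_ne_zero]
    have h3 : (((b : ℝ) / M : ℝ) : ℂ) = ((n : ℝ) : ℂ) := by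
      apply mul_left_cancel₀ h2
      push_cast at hn ⊢
      linear_combination hn
    have h4 : (b : ℝ) / M = n := Complex.ofReal_inj.1 h3
    rw [div_eq_iff hM'] at h4
    exact hb ⟨n, by rw [mul_comm]; exact_mod_cast h4⟩
  simp only [ee_nat_mul]
  rw [geom_sum_eq hz, ← ee_nat_mul, mul_div_cancel₀ _ hM', ee_int, sub_self, zero_div]

/-- A complete sum at a prime power is supported on the roots of the derivative. -/
theorem gauss_stationary (g : ℤ[X]) {a : ℤ} {p : ℕ} (hp : p.Prime) (t i : ℕ) (hit : i ≤ t)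
    (ha : ¬ (p : ℤ) ∣ a) :
    ‖gauss g a (p ^ (t + i))‖ ≤
      (((range (p ^ t)).filter fun u : ℕ => ((p ^ i : ℕ) : ℤ) ∣ g.derivative.eval (u : ℤ)).card : ℝ) /
        (p ^ t : ℕ) := by
  have hp0 : p ≠ 0 := hp.ne_zero
  have hP : p ^ t ≠ 0 := pow_ne_zero _ hp0
  have hM : p ^ i ≠ 0 := pow_ne_zero _ hp0
  have hq : p ^ (t + i) = p ^ t * p ^ i := pow_add p t i
  have hterm : ∀ u y : ℕ, eq' (p ^ (t + i)) (a * g.eval ((u + p ^ t * y : ℕ) : ℤ)) =
      eq' (p ^ (t + i)) (a * g.eval (u : ℤ)) *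
        ee ((y : ℝ) * (((a * g.derivative.eval (u : ℤ) : ℤ) : ℝ) / (p ^ i : ℕ))) := by
    intro u y
    obtain ⟨w, hw⟩ := Polynomial.binomExpansion g (u : ℤ) (((p ^ t * y : ℕ) : ℤ))
    have hd : ((p ^ (t + i) : ℕ) : ℤ) ∣ a * g.eval ((u + p ^ t * y : ℕ) : ℤ) -
        (a * g.eval (u : ℤ) + (p ^ t : ℕ) * (y * (a * g.derivative.eval (u : ℤ)))) := by
      rw [Nat.cast_add, hw]
      have h1 : ((p ^ (t + i) : ℕ) : ℤ) ∣ (((p ^ t * y : ℕ) : ℤ)) ^ 2 := by
        rw [← Nat.cast_pow, Int.natCast_dvd_natCast, mul_pow, ← pow_mul]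
        exact (Nat.pow_dvd_pow p (by omega)).mul_right _
      refine (h1.mul_left (a * w)).trans (dvd_of_eq ?_)
      push_cast
      ring
    rw [eq'_congr (pow_ne_zero _ hp0) hd]
    simp only [eq', ← ee_add]
    congr 1
    have e1 : (p : ℝ) ≠ 0 := Nat.cast_ne_zero.2 hp0
    rw [hq]
    push_cast
    field_simp
  rw [gauss_eq, hq, sum_range_split _ _ hP, norm_div, Complex.norm_natCast, ← hq]
  simp only [hterm, ← Finset.mul_sum]
  have key : ∀ u : ℕ, ‖eq' (p ^ (t + i)) (a * g.eval (u : ℤ)) *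
      ∑ y ∈ range (p ^ i), ee ((y : ℝ) * (((a * g.derivative.eval (u : ℤ) : ℤ) : ℝ) / (p ^ i : ℕ)))‖
      ≤ if ((p ^ i : ℕ) : ℤ) ∣ g.derivative.eval (u : ℤ) then ((p ^ i : ℕ) : ℝ) else 0 := by
    intro u
    rw [norm_mul, norm_eq', one_mul]
    split_ifs with hu
    · refine (norm_sum_le _ _).trans ?_
      simp [norm_ee]
    · rw [geom_zero hM, norm_zero]
      intro hd
      refine hu (Int.dvd_of_dvd_mul_right_of_gcd_one hd ?_)
      rw [← Int.isCoprime_iff_gcd_eq_one, Nat.cast_pow]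
      exact ((Nat.prime_iff_prime_int.1 hp).coprime_iff_not_dvd.2 ha).pow_left
  refine (div_le_div_of_nonneg_right ((norm_sum_le _ _).trans (Finset.sum_le_sum fun u _ => key u))
    (Nat.cast_nonneg _)).trans (le_of_eq ?_)
  rw [Finset.sum_ite, Finset.sum_const_zero, add_zero, Finset.sum_const, nsmul_eq_mul, hq,
    Nat.cast_mul, mul_div_mul_right _ _ (Nat.cast_ne_zero.2 hM)]

/-! ### Roots modulo prime powers -/

theorem roots_incongruent {p : ℕ} (hp : p.Prime) (s : ℕ) : ∀ (m : ℕ) (f : ℤ[X]) (c i : ℕ)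
    (T : Finset ℤ), f.natDegree ≤ m → ¬ C ((p : ℤ) ^ (c + 1)) ∣ f → c + m * s < i →
    (∀ u ∈ T, (p : ℤ) ^ i ∣ f.eval u) →
    (∀ u ∈ T, ∀ v ∈ T, (p : ℤ) ^ (s + 1) ∣ u - v → u = v) → T.card ≤ m := by
  intro m
  induction m with
  | zero =>
    intro f c i T hf hc hi hroot _
    rw [Nat.le_zero, Finset.card_eq_zero]
    refine Finset.eq_empty_of_forall_notMem fun u hu => hc ?_
    rw [Polynomial.eq_C_of_natDegree_eq_zero (Nat.le_zero.1 hf)] at hroot ⊢
    have h := hroot u hu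
    rw [eval_C] at h
    exact C_dvd_iff_dvd_coeff _ _ |>.2 fun n => by
      rw [coeff_C]
      split_ifs
      · exact (pow_dvd_pow _ (by omega)).trans h
      · exact dvd_zero _
  | succ m ih =>
    intro f c i T hf hc hi hroot hinc
    rcases T.eq_empty_or_nonempty with rfl | ⟨u₀, hu₀⟩
    · simp
    obtain ⟨f₁, hf₁⟩ := Polynomial.X_sub_C_dvd_sub_C_eval (a := u₀) (p := f)
    have hdeg : f₁.natDegree ≤ m := by
      by_cases h0 : f₁ = 0
      · simp [h0]
      have h := congrArg natDegree hf₁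
      rw [natDegree_sub_C, natDegree_mul (X_sub_C_ne_zero _) h0, natDegree_X_sub_C] at h
      omega
    have hc₁ : ¬ C ((p : ℤ) ^ (c + 1)) ∣ f₁ := fun h => hc <| by
      have h1 : C ((p : ℤ) ^ (c + 1)) ∣ C (f.eval u₀) :=
        map_dvd C ((pow_dvd_pow _ (by nlinarith)).trans (hroot u₀ hu₀))
      have h2 := dvd_add (h.mul_left (X - C u₀)) h1
      rwa [← hf₁, sub_add_cancel] at h2
    have hih := ih f₁ c (i - s) (T.erase u₀) hdeg hc₁
      (by have := add_one_mul m s; omega) ?_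
      fun u hu v hv => hinc u (Finset.mem_of_mem_erase hu) v (Finset.mem_of_mem_erase hv)
    · rw [Finset.card_erase_of_mem hu₀] at hih
      omega
    intro u hu
    have hmem := Finset.mem_of_mem_erase hu
    have hne : ¬ (p : ℤ) ^ (s + 1) ∣ u - u₀ := fun h =>
      Finset.ne_of_mem_erase hu (hinc u hmem u₀ hu₀ h)
    have hmul : (p : ℤ) ^ i ∣ (u - u₀) * f₁.eval u := by
      have h := congrArg (eval u) hf₁
      simp only [eval_sub, eval_C, eval_mul, eval_X] at h
      rw [← h]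
      exact dvd_sub (hroot u hmem) (hroot u₀ hu₀)
    have hpZ := Nat.prime_iff_prime_int.1 hp
    have hsi := add_one_mul m s
    have hfin : FiniteMultiplicity (p : ℤ) (u - u₀) := Int.finiteMultiplicity_iff.2 ⟨by
      simpa using hp.ne_one, fun h => hne (by rw [h]; exact dvd_zero _)⟩
    obtain ⟨w, hw, hw'⟩ := hfin.exists_eq_pow_mul_and_not_dvd
    have hv : multiplicity (p : ℤ) (u - u₀) ≤ s := by
      by_contra hlt
      exact hne ((pow_dvd_pow _ (by omega)).trans (pow_multiplicity_dvd _ _))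
    set v := multiplicity (p : ℤ) (u - u₀) with hvdef
    rw [hw, mul_assoc, show i = v + (i - v) by omega, pow_add] at hmul
    have h2 := Int.dvd_of_mul_dvd_mul_left (pow_ne_zero _ hpZ.ne_zero) hmul
    refine (pow_dvd_pow _ (show i - s ≤ i - v by omega)).trans ?_
    exact ((hpZ.coprime_iff_not_dvd.2 hw').pow_left).dvd_of_dvd_mul_left h2

theorem root_count {p : ℕ} (hp : p.Prime) {f : ℤ[X]} {m c i s t : ℕ} (hf : f.natDegree ≤ m)
    (hc : ¬ C ((p : ℤ) ^ (c + 1)) ∣ f) (hi : c + m * s < i) (hst : s + 1 ≤ t) :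
    ((range (p ^ t)).filter fun u : ℕ => ((p ^ i : ℕ) : ℤ) ∣ f.eval (u : ℤ)).card ≤
      p ^ (t - (s + 1)) * m := by
  classical
  set U := (range (p ^ t)).filter fun u : ℕ => ((p ^ i : ℕ) : ℤ) ∣ f.eval (u : ℤ) with hU
  set P := p ^ (s + 1) with hP
  have hP0 : 0 < P := pow_pos hp.pos _
  refine (Finset.card_le_mul_card_image (f := fun u => u % P) U (p ^ (t - (s + 1))) ?_).trans
    (Nat.mul_le_mul_left _ ?_)
  · intro r _
    refine (Finset.card_le_card_of_injOn (fun u => u / P) ?_ ?_).trans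
      (Finset.card_range _).le
    · intro u hu
      simp only [Finset.coe_filter, hU, Finset.mem_filter, Finset.mem_range, Set.mem_ofPred_eq] at hu
      simp only [Finset.coe_range, Set.mem_Iio]
      rw [Nat.div_lt_iff_lt_mul hP0, hP, ← pow_add, Nat.sub_add_cancel hst]
      exact hu.1.1
    · intro u hu v hv huv
      simp only [Finset.coe_filter, Set.mem_ofPred_eq] at hu hv
      have h1 := Nat.mod_add_div u P
      have h2 := Nat.mod_add_div v P
      rw [hu.2] at h1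
      rw [hv.2, ← (show u / P = v / P from huv)] at h2
      exact h1.symm.trans h2
  · have hrep : ∀ r ∈ U.image (fun u => u % P), ∃ u ∈ U, u % P = r := fun r hr => by
      simpa using hr
    choose rep hrep₁ hrep₂ using hrep
    let T : Finset ℤ := (U.image fun u => u % P).attach.image fun r => (rep r.1 r.2 : ℤ)
    have hT : T.card = (U.image fun u => u % P).card := by
      rw [Finset.card_image_of_injective, Finset.card_attach]
      intro r r' h
      have h' : rep r.1 r.2 = rep r'.1 r'.2 := by simpa using h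
      exact Subtype.ext (by rw [← hrep₂ r.1 r.2, ← hrep₂ r'.1 r'.2, h'])
    rw [← hT]
    refine roots_incongruent hp s m f c i T hf hc hi ?_ ?_
    · intro u hu
      simp only [T, Finset.mem_image, Finset.mem_attach, true_and] at hu
      obtain ⟨r, rfl⟩ := hu
      have := (Finset.mem_filter.1 (hrep₁ r.1 r.2)).2
      exact_mod_cast this
    · intro u hu v hv h
      simp only [T, Finset.mem_image, Finset.mem_attach, true_and] at hu hv
      obtain ⟨r, rfl⟩ := hu
      obtain ⟨r', rfl⟩ := hv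
      rw [← Nat.cast_pow] at h
      have hm : rep r'.1 r'.2 ≡ rep r.1 r.2 [MOD P] := Nat.modEq_of_dvd h
      rw [Nat.ModEq, hrep₂, hrep₂] at hm
      rw [Subtype.ext hm]

/-- The bound at a prime power from a root count. -/
theorem gauss_pow_le (g : ℤ[X]) {a : ℤ} {p : ℕ} (hp : p.Prime) {k c t i s : ℕ}
    (hg : g.natDegree ≤ k) (hit : i ≤ t) (ha : ¬ (p : ℤ) ∣ a)
    (hc : ¬ C ((p : ℤ) ^ (c + 1)) ∣ g.derivative) (hi : c + k * s < i) (hst : s + 1 ≤ t) :
    ‖gauss g a (p ^ (t + i))‖ ≤ (k : ℝ) / (p : ℝ) ^ (s + 1) := by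
  refine (gauss_stationary g hp t i hit ha).trans ?_
  have h := root_count hp ((natDegree_derivative_le g).trans (le_trans (Nat.sub_le _ _) hg)) hc hi hst
  have hp' : (0 : ℝ) < p := Nat.cast_pos.2 hp.pos
  rw [div_le_div_iff₀ (Nat.cast_pos.2 (pow_pos hp.pos _)) (by positivity)]
  have h' : (((range (p ^ t)).filter fun u : ℕ =>
      ((p ^ i : ℕ) : ℤ) ∣ g.derivative.eval (u : ℤ)).card : ℝ) ≤
      (p : ℝ) ^ (t - (s + 1)) * k := by exact_mod_cast h
  calc _ ≤ (p : ℝ) ^ (t - (s + 1)) * k * (p : ℝ) ^ (s + 1) := by gcongr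
    _ = k * ((p : ℝ) ^ (t - (s + 1)) * (p : ℝ) ^ (s + 1)) := by ring
    _ = k * ((p ^ t : ℕ) : ℝ) := by rw [← pow_add, Nat.sub_add_cancel hst, Nat.cast_pow]

/-! ### Primes -/

theorem gauss_prime_le (g : ℤ[X]) {a : ℤ} {p k : ℕ} (hp : p.Prime) (hg : g.natDegree ≤ k)
    (hk : k < p) (ha : ¬ (p : ℤ) ∣ a) (hcoeff : ∃ i, 1 ≤ i ∧ ¬ (p : ℤ) ∣ g.coeff i) :
    ‖gauss g a p‖ ≤ (k : ℝ) / Real.sqrt p := by
  have := Fact.mk hp
  set G : (ZMod p)[X] := C (a : ZMod p) * g.map (Int.castRingHom (ZMod p)) with hGdef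
  have ha' : (a : ZMod p) ≠ 0 := fun h => ha ((ZMod.intCast_zmod_eq_zero_iff_dvd a p).1 h)
  have h1 : 1 ≤ G.natDegree := by
    obtain ⟨i, hi, hne⟩ := hcoeff
    refine le_trans hi (le_natDegree_of_ne_zero ?_)
    rw [hGdef, coeff_C_mul, coeff_map]
    exact mul_ne_zero ha' fun h => hne ((ZMod.intCast_zmod_eq_zero_iff_dvd _ p).1 h)
  have h2 : G.natDegree ≤ k :=
    (natDegree_C_mul_le _ _).trans (natDegree_map_le.trans hg)
  have hw := Weil.weil_bound p G h1 (lt_of_le_of_lt h2 hk)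
  have hsum : ∑ x ∈ range p, eq' p (a * g.eval (x : ℤ)) =
      ∑ x : ZMod p, ee (((G.eval x).val : ℝ) / p) := by
    refine Finset.sum_nbij' (fun x => (x : ZMod p)) (fun x => x.val) (fun _ _ => Finset.mem_univ _)
      (fun x _ => Finset.mem_range.2 (ZMod.val_lt x))
      (fun x hx => ZMod.val_cast_of_lt (Finset.mem_range.1 hx))
      (fun x _ => ZMod.natCast_zmod_val x) fun x _ => ?_
    rw [show ((G.eval (x : ZMod p)).val : ℝ) = (((G.eval (x : ZMod p)).val : ℤ) : ℝ) by simp,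
      ← eq']
    refine eq'_congr hp.ne_zero ?_
    rw [← ZMod.intCast_zmod_eq_zero_iff_dvd, Int.cast_sub, Int.cast_mul, Int.cast_natCast,
      ZMod.natCast_zmod_val, hGdef, eval_mul, eval_C, show ((x : ZMod p)) = ((x : ℤ) : ZMod p) by simp,
      eval_intCast_map, eq_intCast, Int.cast_id, sub_self]
  have hp' : (0 : ℝ) < p := Nat.cast_pos.2 hp.pos
  rw [gauss_eq, hsum, norm_div, Complex.norm_natCast, div_le_div_iff₀ hp' (Real.sqrt_pos.2 hp')]
  calc _ ≤ (k : ℝ) * Real.sqrt p * Real.sqrt p := by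
        gcongr
        refine hw.trans ?_
        gcongr
        have : (G.natDegree : ℝ) ≤ k := Nat.cast_le.2 h2
        linarith
    _ = k * p := by rw [mul_assoc, Real.mul_self_sqrt hp'.le]

/-- The content of the derivative. -/
theorem derivative_content {g : ℤ[X]} {k D p : ℕ} (hp : p.Prime) (hD : D ≠ 0)
    (hg : g.natDegree ≤ k) (hcont : ∀ e : ℕ, (∀ i, 1 ≤ i → (e : ℤ) ∣ g.coeff i) → e ∣ D) :
    ¬ C ((p : ℤ) ^ ((D * k.factorial).factorization p + 1)) ∣ g.derivative := by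
  intro h
  rw [C_dvd_iff_dvd_coeff] at h
  set e := p ^ ((D * k.factorial).factorization p + 1) with he
  refine Nat.pow_succ_factorization_not_dvd (mul_ne_zero hD k.factorial_ne_zero) hp ?_
  set G := (Icc 1 k).gcd fun i => (g.coeff i).natAbs with hG
  have hGD : G ∣ D := hcont G fun i hi => by
    by_cases hik : i ≤ k
    · exact Int.natCast_dvd.2 (Finset.gcd_dvd (Finset.mem_Icc.2 ⟨hi, hik⟩))
    · rw [coeff_eq_zero_of_natDegree_lt (by omega)]; exact dvd_zero _
  have he' : e ∣ k.factorial * G := by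
    rw [hG, ← normalize_eq k.factorial, ← Finset.gcd_mul_left]
    refine Finset.dvd_gcd fun i hi => ?_
    obtain ⟨h1, h2⟩ := Finset.mem_Icc.1 hi
    have hd := h (i - 1)
    rw [coeff_derivative, Nat.sub_add_cancel h1] at hd
    have hd' : (e : ℤ) ∣ g.coeff i * (i : ℤ) := by
      rw [he, Nat.cast_pow]
      rwa [show ((i - 1 : ℕ) : ℤ) + 1 = (i : ℤ) by omega] at hd
    rw [Int.natCast_dvd, Int.natAbs_mul, Int.natAbs_natCast] at hd'
    rw [mul_comm]
    exact hd'.trans (Nat.mul_dvd_mul_left _ (Nat.dvd_factorial h1 h2))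
  exact he'.trans (by rw [mul_comm]; exact Nat.mul_dvd_mul_right hGD _)

/-! ### The weight -/

/-- The exponent of decay at `p ^ j`. -/
def expo (k j : ℕ) : ℝ := 1 / 2 + ((j : ℝ) - 1) / (8 * k)

theorem le_const_mul_rpow {x K e : ℝ} {k p n D : ℕ} (hp : p.Prime) (hx : x ≤ k / (p : ℝ) ^ n)
    (hpn : (p : ℝ) ^ (e - n) ≤ D) (hK : (k : ℝ) * D ≤ K) : x ≤ K * (p : ℝ) ^ (-e) := by
  have hp' : (0 : ℝ) < p := Nat.cast_pos.2 hp.pos
  calc x ≤ k / (p : ℝ) ^ n := hx
    _ = k * ((p : ℝ) ^ (e - n) * (p : ℝ) ^ (-e)) := by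
        rw [← Real.rpow_add hp', show e - n + -e = -(n : ℝ) by ring, Real.rpow_neg hp'.le,
          Real.rpow_natCast, div_eq_mul_inv]
    _ ≤ k * (D * (p : ℝ) ^ (-e)) := by gcongr
    _ ≤ _ := by rw [← mul_assoc]; gcongr

theorem rpow_le_nat {p n D : ℕ} {e : ℝ} (hp : p.Prime) (he : e ≤ n) (hn : p ^ n ≤ D) :
    (p : ℝ) ^ e ≤ D := by
  calc (p : ℝ) ^ e ≤ (p : ℝ) ^ (n : ℝ) :=
        Real.rpow_le_rpow_of_exponent_le (by exact_mod_cast hp.one_le) he
    _ ≤ D := by rw [Real.rpow_natCast]; exact_mod_cast hn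

theorem gauss_le_weight {g : ℤ[X]} {a : ℤ} {k D p j : ℕ} (hk : 1 ≤ k) (hD : D ≠ 0) (hp : p.Prime)
    (hj : 1 ≤ j) (hg : g.natDegree ≤ k)
    (hcont : ∀ e : ℕ, (∀ i, 1 ≤ i → (e : ℤ) ∣ g.coeff i) → e ∣ D) (ha : ¬ (p : ℤ) ∣ a) :
    ‖gauss g a (p ^ j)‖ ≤
      ((k * (D * k.factorial) ^ 2 : ℕ) : ℝ) * (p : ℝ) ^ (-expo k j) := by
  set D' := D * k.factorial with hD'
  have hD0 : D' ≠ 0 := mul_ne_zero hD k.factorial_ne_zero
  set c := D'.factorization p with hc
  have hK1 : ((k : ℕ) : ℝ) * ((1 : ℕ) : ℝ) ≤ ((k * D' ^ 2 : ℕ) : ℝ) := by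
    exact_mod_cast Nat.mul_le_mul_left k (Nat.one_le_pow _ _ (Nat.pos_of_ne_zero hD0))
  have hK2 : ((k : ℕ) : ℝ) * ((D' ^ 2 : ℕ) : ℝ) ≤ ((k * D' ^ 2 : ℕ) : ℝ) := le_of_eq (by push_cast; ring)
  have hk' : (1 : ℝ) ≤ k := by exact_mod_cast hk
  have hbad : p ∣ D' → p ^ (1 + c) ≤ D' ^ 2 := fun hd => by
    rw [pow_add, pow_one, sq]
    exact Nat.mul_le_mul (Nat.le_of_dvd (Nat.pos_of_ne_zero hD0) hd)
      (Nat.le_of_dvd (Nat.pos_of_ne_zero hD0) (Nat.ordProj_dvd D' p))
  have h1le : ∀ {x : ℝ}, x ≤ 1 → x ≤ (k : ℝ) / (p : ℝ) ^ 0 := fun h => by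
    rw [pow_zero, div_one]; linarith
  obtain rfl | hj2 : j = 1 ∨ 2 ≤ j := by omega
  · by_cases hd : p ∣ D'
    · refine le_const_mul_rpow (n := 0) (D := D' ^ 2) hp (h1le (norm_gauss_le_one _ _ _))
        (rpow_le_nat hp (n := 1 + c) ?_ (hbad hd)) hK2
      simp only [expo]; push_cast; norm_num; linarith [(Nat.cast_nonneg c : (0 : ℝ) ≤ c)]
    · have hkp : k < p := by
        by_contra hle
        exact hd ((Nat.dvd_factorial hp.pos (by omega)).mul_left _)
      have hc' : ∃ i, 1 ≤ i ∧ ¬ (p : ℤ) ∣ g.coeff i := by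
        by_contra hcon
        push Not at hcon
        exact hd ((hcont p hcon).mul_right _)
      rw [pow_one]
      refine (gauss_prime_le g hp hg hkp ha hc').trans ?_
      rw [show expo k 1 = 1 / 2 by simp [expo], Real.rpow_neg (Nat.cast_nonneg _),
        ← Real.sqrt_eq_rpow, div_eq_mul_inv]
      gcongr
      exact_mod_cast Nat.le_mul_of_pos_right k (pow_pos (Nat.pos_of_ne_zero hD0) 2)
  set i := j / 2 with hi
  set t := j - i with ht
  have hsum : j = t + i := by omega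
  have hit : i ≤ t := by omega
  have hi1 : 1 ≤ i := by omega
  have hji : (j : ℝ) - 1 ≤ 2 * i := by
    have h' : j ≤ 2 * i + 1 := by omega
    have h'' : (j : ℝ) ≤ ((2 * i + 1 : ℕ) : ℝ) := Nat.cast_le.2 h'
    push_cast at h''
    linarith
  have he : expo k j ≤ 1 / 2 + (i : ℝ) / (4 * k) := by
    rw [expo, show (i : ℝ) / (4 * k) = (2 * i) / (8 * k) by ring]
    gcongr
  by_cases hci : i ≤ c
  · have hd : p ∣ D' := Nat.dvd_of_factorization_pos (by rw [← hc]; omega)
    refine le_const_mul_rpow (n := 0) (D := D' ^ 2) hp (h1le (norm_gauss_le_one _ _ _))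
      (rpow_le_nat hp (n := 1 + c) ?_ (hbad hd)) hK2
    have : (i : ℝ) / (4 * k) ≤ c := by
      rw [div_le_iff₀ (by positivity)]
      have : (i : ℝ) ≤ c := Nat.cast_le.2 hci
      nlinarith
    push_cast
    linarith
  push Not at hci
  set s := (i - 1 - c) / k with hs
  have hks : c + k * s < i := by
    have := Nat.mul_div_le (i - 1 - c) k
    rw [← hs] at this
    omega
  have hst : s + 1 ≤ t := by
    have := Nat.le_mul_of_pos_left s hk
    omega
  have hlow : (i : ℝ) - c ≤ k * ((s : ℝ) + 1) := by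
    have h' : i ≤ c + k * (s + 1) := by
      have := Nat.lt_div_mul_add (show 0 < k by omega) (a := i - 1 - c)
      rw [← hs] at this
      rw [mul_add, mul_one, mul_comm k s]
      omega
    have h'' : (i : ℝ) ≤ ((c + k * (s + 1) : ℕ) : ℝ) := Nat.cast_le.2 h'
    push_cast at h''
    linarith
  have hx := gauss_pow_le g hp hg hit ha (derivative_content hp hD hg hcont) hks hst
  rw [← hsum] at hx
  have hdiv : (i : ℝ) / (4 * k) ≤ ((s : ℝ) + 1) / 4 + c := by
    rw [div_le_iff₀ (by positivity)]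
    have : (c : ℝ) ≤ c * k := le_mul_of_one_le_right (Nat.cast_nonneg _) hk'
    nlinarith
  have hs0 : (0 : ℝ) ≤ s := Nat.cast_nonneg _
  by_cases hd : p ∣ D'
  · refine le_const_mul_rpow (D := D' ^ 2) hp hx (rpow_le_nat hp (n := 1 + c) ?_ (hbad hd)) hK2
    push_cast
    linarith
  · have hc0 : c = 0 := Nat.factorization_eq_zero_of_not_dvd hd
    refine le_const_mul_rpow (D := 1) hp hx (rpow_le_nat hp (n := 0) ?_ (by simp)) hK1
    rw [hc0] at hdiv
    push_cast at hdiv ⊢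
    linarith

theorem exists_weight_of_pos (k D : ℕ) (hk : 1 ≤ k) (hD : D ≠ 0) :
    ∃ (ω : ℕ → ℕ → ℝ) (C δ : ℝ), GoodWeight ω C δ ∧
      ∀ g : ℤ[X], g.natDegree ≤ k →
        (∀ e : ℕ, (∀ i, 1 ≤ i → (e : ℤ) ∣ g.coeff i) → e ∣ D) →
        ∀ q : ℕ, 1 ≤ q → ∀ a : ℤ, Int.gcd a q = 1 → ‖gauss g a q‖ ≤ wt ω q := by
  set Kn : ℕ := k * (D * k.factorial) ^ 2 with hKn
  set K : ℝ := (Kn : ℝ) with hK
  have hKn1 : 1 ≤ Kn :=
    Nat.mul_pos hk (pow_pos (Nat.mul_pos (Nat.pos_of_ne_zero hD) k.factorial_pos) 2)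
  have hK1 : 1 ≤ K := by rw [hK]; exact_mod_cast hKn1
  have hkpos : (0 : ℝ) < 8 * k := by positivity
  set δ : ℝ := 1 / (16 * k) with hδ
  have hδ0 : 0 < δ := by positivity
  set ρ : ℝ := (2 : ℝ) ^ (-(1 / (8 * k : ℝ))) with hρ
  have hρ0 : 0 ≤ ρ := by positivity
  have hρ1 : ρ < 1 := Real.rpow_lt_one_of_one_lt_of_neg one_lt_two (by simp; omega)
  have hS : Summable fun n : ℕ => ((n : ℝ) + 1) * ρ ^ n := by
    have h1 := summable_pow_mul_geometric_of_norm_lt_one 1 (r := ρ)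
      (by rw [Real.norm_eq_abs, abs_of_nonneg hρ0]; exact hρ1)
    simp only [pow_one] at h1
    simpa [add_mul] using h1.add (summable_geometric_of_lt_one hρ0 hρ1)
  set S := ∑' n : ℕ, ((n : ℝ) + 1) * ρ ^ n with hSdef
  set P0 := ⌈K ^ (1 / δ)⌉₊ with hP0
  set ω : ℕ → ℕ → ℝ := fun p j => min 1 (K * (p : ℝ) ^ (-expo k j)) with hω
  have hnn : ∀ p j, 0 ≤ ω p j := fun p j =>
    le_min zero_le_one (mul_nonneg (by linarith) (Real.rpow_nonneg (Nat.cast_nonneg _) _))
  refine ⟨ω, max (K * S) (K ^ (P0 + 1)), δ, ⟨hδ0, hnn, fun p j => min_le_left _ _, ?_, ?_⟩, ?_⟩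
  · intro p J hp
    have hp' : (0 : ℝ) < p := Nat.cast_pos.2 hp.pos
    have hρp : (p : ℝ) ^ (-(1 / (8 * k : ℝ))) ≤ ρ :=
      Real.rpow_le_rpow_of_nonpos two_pos (by exact_mod_cast hp.two_le) (by simp)
    have hterm : ∀ n : ℕ, ((n + 1 : ℕ) : ℝ) * ω p (n + 1) ≤
        K / Real.sqrt p * (((n : ℝ) + 1) * ρ ^ n) := by
      intro n
      have e : (p : ℝ) ^ (-expo k (n + 1)) =
          (p : ℝ) ^ (-(1 / 2 : ℝ)) * ((p : ℝ) ^ (-(1 / (8 * k : ℝ)))) ^ n := by
        rw [← Real.rpow_natCast _ n, ← Real.rpow_mul hp'.le, ← Real.rpow_add hp', expo]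
        congr 1
        push_cast
        ring
      calc _ ≤ ((n : ℝ) + 1) * (K * (p : ℝ) ^ (-expo k (n + 1))) := by
            rw [Nat.cast_add, Nat.cast_one]
            exact mul_le_mul_of_nonneg_left (min_le_right _ _) (by positivity)
        _ ≤ ((n : ℝ) + 1) * (K * ((p : ℝ) ^ (-(1 / 2 : ℝ)) * ρ ^ n)) := by
            rw [e]; gcongr
        _ = _ := by
            rw [Real.sqrt_eq_rpow, Real.rpow_neg hp'.le, div_eq_mul_inv]; ring
    calc ∑ j ∈ Icc 1 J, (j : ℝ) * ω p j = ∑ n ∈ range J, ((n + 1 : ℕ) : ℝ) * ω p (n + 1) := by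
          refine Finset.sum_nbij' (fun j => j - 1) (fun n => n + 1) ?_ ?_ ?_ ?_ ?_ <;>
            intro j hj <;> simp only [Finset.mem_Icc, Finset.mem_range] at hj ⊢
          · omega
          · omega
          · omega
          · omega
          · rw [Nat.sub_add_cancel hj.1]
      _ ≤ ∑ n ∈ range J, K / Real.sqrt p * (((n : ℝ) + 1) * ρ ^ n) :=
          Finset.sum_le_sum fun n _ => hterm n
      _ ≤ K / Real.sqrt p * S := by
          rw [← Finset.mul_sum]
          exact mul_le_mul_of_nonneg_left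
            (hS.sum_le_tsum _ fun n _ => by positivity) (by positivity)
      _ ≤ _ := by
          rw [div_mul_eq_mul_div]
          exact div_le_div_of_nonneg_right (le_max_left _ _) (Real.sqrt_nonneg _)
  · intro q hq
    set F : ℕ → ℝ := fun p => if p ≤ P0 then K else 1 with hF
    have hF1 : ∀ p, 1 ≤ F p := fun p => by simp only [hF]; split_ifs <;> linarith
    have hfac : ∀ p ∈ q.factorization.support,
        ω p (q.factorization p) ≤ F p * ((p : ℝ) ^ (q.factorization p)) ^ (-δ) := by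
      intro p hp
      have hpp : p.Prime := Nat.prime_of_mem_primeFactors hp
      have hp' : (0 : ℝ) < p := Nat.cast_pos.2 hpp.pos
      have hj0 : 1 ≤ q.factorization p := Nat.one_le_iff_ne_zero.2 (Finsupp.mem_support_iff.1 hp)
      set j := q.factorization p
      have hj' : (1 : ℝ) ≤ j := by exact_mod_cast hj0
      have hexp : -expo k j ≤ -δ * j + -δ * j := by
        rw [expo, hδ]
        have e : (j : ℝ) / (8 * k) = 1 / (16 * k) * j + 1 / (16 * k) * j := by ring
        have e' : 1 / (8 * k : ℝ) ≤ 1 / 2 := by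
          apply one_div_le_one_div_of_le two_pos
          have : (1 : ℝ) ≤ k := by exact_mod_cast hk
          linarith
        rw [sub_div]
        linarith
      refine (min_le_right _ _).trans ?_
      calc K * (p : ℝ) ^ (-expo k j) ≤ K * (p : ℝ) ^ (-δ * j + -δ * j) := by
            gcongr
            exact_mod_cast hpp.one_le
        _ = K * (p : ℝ) ^ (-δ * j) * (p : ℝ) ^ (-δ * j) := by rw [Real.rpow_add hp', mul_assoc]
        _ ≤ F p * (p : ℝ) ^ (-δ * j) := by
            gcongr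
            simp only [hF]
            split_ifs with hpP
            · exact mul_le_of_le_one_right (by linarith)
                (Real.rpow_le_one_of_one_le_of_nonpos (by exact_mod_cast hpp.one_le)
                  (by nlinarith))
            · have h1 : K ^ (1 / δ) ≤ p :=
                (Nat.le_ceil _).trans (Nat.cast_le.2 (by omega))
              have h2 : K ≤ (p : ℝ) ^ δ := by
                calc K = (K ^ (1 / δ)) ^ δ := by
                      rw [← Real.rpow_mul (by linarith), one_div_mul_cancel hδ0.ne', Real.rpow_one]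
                  _ ≤ _ := Real.rpow_le_rpow (by positivity) h1 hδ0.le
              calc K * (p : ℝ) ^ (-δ * j) ≤ (p : ℝ) ^ δ * (p : ℝ) ^ (-δ * j) := by gcongr
                _ = (p : ℝ) ^ (δ + -δ * j) := (Real.rpow_add hp' _ _).symm
                _ ≤ 1 := Real.rpow_le_one_of_one_le_of_nonpos (by exact_mod_cast hpp.one_le)
                      (by nlinarith)
        _ = _ := by rw [← Real.rpow_natCast, ← Real.rpow_mul hp'.le, mul_comm (-δ)]
    have hprod : (q : ℝ) = ∏ p ∈ q.factorization.support, (p : ℝ) ^ (q.factorization p) := by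
      conv_lhs => rw [← Nat.prod_factorization_pow_eq_self (show q ≠ 0 by omega), Finsupp.prod]
      push_cast
      rfl
    calc wt ω q ≤ ∏ p ∈ q.factorization.support,
          F p * ((p : ℝ) ^ (q.factorization p)) ^ (-δ) :=
          Finset.prod_le_prod (fun p _ => hnn p _) hfac
      _ = (∏ p ∈ q.factorization.support, F p) * (q : ℝ) ^ (-δ) := by
          rw [Finset.prod_mul_distrib, hprod, Real.finsetProd_rpow _ _ (fun p _ => by positivity)]
      _ ≤ _ := by
          gcongr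
          refine le_trans ?_ (le_max_right _ _)
          rw [Finset.prod_ite, Finset.prod_const_one, mul_one, Finset.prod_const]
          refine pow_le_pow_right₀ hK1 ((Finset.card_le_card (t := range (P0 + 1)) ?_).trans_eq
            (Finset.card_range _))
          intro p hp
          have := (Finset.mem_filter.1 hp).2
          exact Finset.mem_range.2 (by omega)
  · intro g hg hcont q hq
    induction q using Nat.recOnPosPrimePosCoprime with
    | prime_pow p j hp hj =>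
      intro a ha
      rw [wt, hp.factorization_pow, Finsupp.prod, Finsupp.support_single _ hj.ne',
        Finset.prod_singleton, Finsupp.single_eq_same]
      refine le_min (norm_gauss_le_one _ _ _) ?_
      refine gauss_le_weight hk hD hp hj hg hcont fun hd => hp.one_lt.ne' ?_
      have h := Int.dvd_gcd hd (Int.natCast_dvd_natCast.2 (dvd_pow_self p hj.ne'))
      rw [ha] at h
      exact Nat.dvd_one.1 (by exact_mod_cast h)
    | zero => omega
    | one =>
      intro a _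
      rw [wt_one]
      exact norm_gauss_le_one _ _ _
    | coprime b c hb hc hbc ihb ihc =>
      intro a ha
      obtain ⟨b', c', hb', hc', e⟩ := gauss_mul g a hbc (by omega) (by omega) ha
      rw [e, norm_mul, wt_mul ω hbc]
      exact mul_le_mul (ihb (by omega) b' hb') (ihc (by omega) c' hc') (norm_nonneg _)
        ((norm_nonneg _).trans (ihb (by omega) b' hb'))

end Local

/-- Complete sums of polynomials of degree at most `k` and content dividing `D` are dominated by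
one good weight. -/
theorem exists_weight (k D : ℕ) (hD : D ≠ 0) :
    ∃ (ω : ℕ → ℕ → ℝ) (C δ : ℝ), GoodWeight ω C δ ∧
      ∀ g : ℤ[X], g.natDegree ≤ k →
        (∀ e : ℕ, (∀ i, 1 ≤ i → (e : ℤ) ∣ g.coeff i) → e ∣ D) →
        ∀ q : ℕ, 1 ≤ q → ∀ a : ℤ, Int.gcd a q = 1 → ‖gauss g a q‖ ≤ wt ω q := by
  obtain ⟨ω, C, δ, h1, h2⟩ := Local.exists_weight_of_pos (k + 1) D (by omega) hD
  exact ⟨ω, C, δ, h1, fun g hg => h2 g (hg.trans (Nat.le_succ k))⟩

end

end Vale.Agent.P042.Upper
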