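import Vale.Agent.P042.Upper.Increment
import Vale.Agent.P042.Upper.Local
import Vale.Agent.P042.Upper.Auxiliary

/-!
Sets without intersective polynomial differences have size `N exp (-c (log N) ^ (1/2))`.
-/

open Finset Polynomial

namespace Vale.Agent.P042.Upper

noncomputable section

theorem sqrt_le_of_le_mul_sq {a b : ℝ} (hb : 0 ≤ b) (h : a ≤ b ^ 2) : Real.sqrt a ≤ b :=
  (Real.sqrt_le_sqrt h).trans_eq (Real.sqrt_sq hb)

/-- The number of elements of a set of positive integers below `N`, as a density. -/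
theorem density_le_one {N : ℕ} {A : Finset ℤ} (h : A ⊆ Icc 1 (N : ℤ)) : A.card ≤ N := by
  have := card_le_card h
  simpa using this

/-- Iterating the increment: no set of density `exp (-m)` survives. -/
theorem no_dense_set {h : ℤ[X]} {k D : ℕ} {C : ℝ} (hk : 1 ≤ k) (F : Family h k D C)
    {ω : ℕ → ℕ → ℝ} {C' δ : ℝ} (hω : GoodWeight ω C' δ)
    (hg : ∀ d, 1 ≤ d → ∀ q : ℕ, 1 ≤ q → ∀ a : ℤ, Int.gcd a q = 1 →
      ‖gauss (F.poly d) a q‖ ≤ wt ω q) :
    ∃ c : ℝ, 0 < c ∧ ∀ m N : ℕ, c ≤ m → Real.exp (c * (m : ℝ) ^ 2) ≤ N → ∀ A : Finset ℤ,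
      A ⊆ Icc 1 (N : ℤ) →
      (∀ a ∈ A, ∀ b ∈ A, ∀ n : ℕ, 1 ≤ n → h.eval (n : ℤ) ≠ 0 → a - b ≠ h.eval (n : ℤ)) →
      (A.card : ℝ) < Real.exp (-(m : ℝ)) * N := by
  obtain ⟨η, C₁, hη, hC₁, hinc⟩ := increment h k D C hk F ω C' δ hω hg
  obtain ⟨S, hS⟩ : ∃ S : ℕ, Real.exp 1 ≤ (1 + η) ^ S :=
    (pow_unbounded_of_one_lt (Real.exp 1) (by linarith : (1 : ℝ) < 1 + η)).imp fun _ h => h.le
  obtain ⟨C₃, hC₃, hinc⟩ := hinc (C₁ * (S + 1))
  set E : ℝ := C₁ * (S + 1) with hE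
  refine ⟨C₃ + E + 1, by positivity, fun m N hm hN A hA hav => ?_⟩
  by_contra hcon
  rw [not_lt] at hcon
  have hm1 : (1 : ℝ) ≤ m := by
    have : (0 : ℝ) ≤ E := by positivity
    linarith
  have hm3 : C₃ ≤ (m : ℝ) := by
    have : (0 : ℝ) ≤ E := by positivity
    linarith
  set I : ℕ := S * m + 1 with hI
  have hI' : (I : ℝ) ≤ (S + 1) * m := by
    rw [hI]
    push_cast
    nlinarith
  have key : ∀ i : ℕ, i ≤ I → ∃ (N' d : ℕ) (B : Finset ℤ), 1 ≤ d ∧
      (d : ℝ) ≤ Real.exp (C₁ * i * m) ∧ Real.exp (-(C₁ * i * m)) * N ≤ N' ∧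
      B ⊆ Icc 1 (N' : ℤ) ∧ (1 + η) ^ i * Real.exp (-(m : ℝ)) * N' ≤ B.card ∧
      (∀ a ∈ B, ∀ b ∈ B, ∀ n : ℕ, 1 ≤ n → (F.poly d).eval (n : ℤ) ≠ 0 →
        a - b ≠ (F.poly d).eval (n : ℤ)) := by
    intro i
    induction i with
    | zero => intro _; exact ⟨N, 1, A, le_rfl, by simp, by simp, hA, by simpa using hcon,
        by rw [F.poly_one]; exact hav⟩
    | succ i ih =>
      intro hi
      obtain ⟨N', d, B, hd, hdle, hN', hB, hcard, hBav⟩ := ih (Nat.le_of_succ_le hi)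
      have hiI : (i : ℝ) ≤ (S + 1) * m := le_trans (by exact_mod_cast Nat.le_of_succ_le hi) hI'
      have h1 : C₁ * i * m ≤ E * (m : ℝ) ^ 2 := by
        rw [hE, show C₁ * (S + 1) * (m : ℝ) ^ 2 = C₁ * ((S + 1) * m) * m by ring]
        gcongr
      have hN'3 : Real.exp (C₃ * (m : ℝ) ^ 2) ≤ (N' : ℝ) := by
        refine le_trans ?_ hN'
        calc Real.exp (C₃ * (m : ℝ) ^ 2)
            ≤ Real.exp (-(C₁ * i * m)) * Real.exp ((C₃ + E + 1) * (m : ℝ) ^ 2) := by
              rw [← Real.exp_add]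
              refine Real.exp_le_exp.2 ?_
              nlinarith [sq_nonneg (m : ℝ)]
          _ ≤ _ := by gcongr
      have hN'0 : (0 : ℝ) < N' := (Real.exp_pos _).trans_le hN'3
      have hα : Real.exp (-(m : ℝ)) * N' ≤ B.card := by
        refine le_trans ?_ hcard
        have h2 : (1 : ℝ) ≤ (1 + η) ^ i := one_le_pow₀ (by linarith)
        have h3 : 0 ≤ Real.exp (-(m : ℝ)) * (N' : ℝ) := by positivity
        calc Real.exp (-(m : ℝ)) * N' ≤ (1 + η) ^ i * (Real.exp (-(m : ℝ)) * N') :=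
              le_mul_of_one_le_left h3 h2
          _ = _ := by ring
      obtain ⟨r, N'', x, hr, hrle, hN'', hcard''⟩ := hinc m N' d hm3 hd
        (hdle.trans (Real.exp_le_exp.2 h1)) hN'3 B hB hα hBav
      refine ⟨N'', d * r, (Icc 1 (N'' : ℤ)).filter fun y => x + (F.lam r : ℤ) * y ∈ B,
        Nat.one_le_iff_ne_zero.2 (Nat.mul_ne_zero (by omega) (by omega)), ?_, ?_,
        filter_subset _ _, ?_, ?_⟩
      · push_cast
        calc (d : ℝ) * r ≤ Real.exp (C₁ * i * m) * Real.exp (C₁ * m) := by gcongr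
          _ = _ := by rw [← Real.exp_add]; congr 1; ring
      · calc Real.exp (-(C₁ * ((i + 1 : ℕ) : ℝ) * m)) * N
            = Real.exp (-C₁ * m) * (Real.exp (-(C₁ * i * m)) * N) := by
              rw [← mul_assoc, ← Real.exp_add]; congr 2; push_cast; ring
          _ ≤ Real.exp (-C₁ * m) * N' := by gcongr
          _ ≤ _ := hN''
      · refine le_trans ?_ hcard''
        rw [pow_succ']
        calc (1 + η) * (1 + η) ^ i * Real.exp (-(m : ℝ)) * N''
            = (1 + η) * ((1 + η) ^ i * Real.exp (-(m : ℝ))) * N'' := by ring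
          _ ≤ (1 + η) * ((B.card : ℝ) / N') * N'' := by
            gcongr
            rw [le_div_iff₀ hN'0]
            exact hcard
      · intro a ha b hb n hn hne he
        obtain ⟨n', hn', hlift⟩ := F.lift d r hd hr n hn
        have hlam : (F.lam r : ℤ) ≠ 0 := by have := F.lam_pos r hr; omega
        refine hBav _ (mem_filter.1 ha).2 _ (mem_filter.1 hb).2 n' hn' ?_ ?_
        · rw [hlift]; exact mul_ne_zero hlam hne
        · rw [hlift, ← he]; ring
  obtain ⟨N', d, B, _, _, hN', hB, hcard, _⟩ := key I le_rfl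
  have hN0 : (0 : ℝ) < N := (Real.exp_pos _).trans_le hN
  have hN'0 : (0 : ℝ) < N' := lt_of_lt_of_le (by positivity) hN'
  have hBle : (B.card : ℝ) ≤ N' := by exact_mod_cast density_le_one hB
  have hbig : 1 < (1 + η) ^ I * Real.exp (-(m : ℝ)) := by
    rw [hI, pow_succ, pow_mul]
    calc (1 : ℝ) < Real.exp 1 ^ m * (1 + η) * Real.exp (-(m : ℝ)) := by
          rw [Real.exp_one_pow, mul_comm (Real.exp _), mul_assoc, ← Real.exp_add, add_neg_cancel,
            Real.exp_zero, mul_one]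
          linarith
      _ ≤ _ := by gcongr
  nlinarith

theorem upper (h : ℤ[X]) (hk : 2 ≤ h.natDegree) (hpos : 0 < h.leadingCoeff)
    (hint : ∀ q : ℕ, 1 ≤ q → ∃ t : ℤ, (q : ℤ) ∣ h.eval t) :
    ∃ c C : ℝ, 0 < c ∧ ∀ N : ℕ, ∀ A : Finset ℤ, A ⊆ Icc 1 (N : ℤ) →
      (∀ a ∈ A, ∀ b ∈ A, ∀ n : ℕ, 1 ≤ n → h.eval (n : ℤ) ≠ 0 → a - b ≠ h.eval (n : ℤ)) →
      (A.card : ℝ) ≤ C * N * Real.exp (-c * Real.sqrt (Real.log N)) := by
  obtain ⟨D, C, hD, ⟨F⟩⟩ := exists_family h (by omega) hpos hint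
  obtain ⟨ω, C', δ, hω, hg⟩ := exists_weight h.natDegree D hD
  obtain ⟨c₀, hc₀, hno⟩ := no_dense_set (k := h.natDegree) (by omega) F hω fun d hd =>
    hg (F.poly d) (F.degree_eq d hd).le (F.content d hd)
  have hc : 0 < (1 / Real.sqrt c₀ : ℝ) := by positivity
  refine ⟨1 / Real.sqrt c₀, Real.exp (c₀ + 1), hc, fun N A hA hav => ?_⟩
  rcases Nat.eq_zero_or_pos N with rfl | hN
  · simp only [Nat.cast_zero] at hA ⊢
    have : A = ∅ := by
      apply eq_empty_of_forall_notMem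
      intro a ha
      have := mem_Icc.1 (hA ha)
      omega
    simp [this]
  have hN1 : (1 : ℝ) ≤ N := by exact_mod_cast hN
  set y : ℝ := 1 / Real.sqrt c₀ * Real.sqrt (Real.log N) with hy
  have hy0 : 0 ≤ y := by positivity
  have hcard : (A.card : ℝ) ≤ N := by exact_mod_cast density_le_one hA
  rw [show -(1 / Real.sqrt c₀) * Real.sqrt (Real.log N) = -y by rw [hy]; ring]
  rcases le_or_gt y (c₀ + 1) with hy1 | hy1
  · calc (A.card : ℝ) ≤ (N : ℝ) * 1 := by rwa [mul_one]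
      _ ≤ N * (Real.exp (c₀ + 1) * Real.exp (-y)) := by
        gcongr
        rw [← Real.exp_add]
        exact Real.one_le_exp (by linarith)
      _ = _ := by ring
  · set m : ℕ := ⌊y⌋₊ with hm
    have hmy : (m : ℝ) ≤ y := Nat.floor_le hy0
    have hym : y - 1 < m := by have := Nat.lt_floor_add_one y; linarith
    have hlog : c₀ * y ^ 2 = Real.log N := by
      rw [hy, mul_pow, div_pow, one_pow, Real.sq_sqrt hc₀.le,
        Real.sq_sqrt (Real.log_nonneg hN1)]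
      field_simp
    have hNm : Real.exp (c₀ * (m : ℝ) ^ 2) ≤ N := by
      calc Real.exp (c₀ * (m : ℝ) ^ 2) ≤ Real.exp (c₀ * y ^ 2) := by gcongr
        _ = _ := by rw [hlog, Real.exp_log (by linarith)]
    refine (hno m N (by linarith) hNm A hA hav).le.trans ?_
    calc Real.exp (-(m : ℝ)) * N ≤ Real.exp (c₀ + 1 + -y) * N := by
          gcongr
          linarith
      _ = _ := by rw [Real.exp_add]; ring

end

end Vale.Agent.P042.Upper
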