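import Vale.Agent.P042.Upper.Basic

/-!
A moment inequality on products of cyclic groups (global hypercontractivity).
-/

open Finset Function

namespace Vale.Agent.P042.Upper

noncomputable section

variable {I : Type*} [Fintype I] [DecidableEq I] {P : I → ℕ}

/-- The character with frequency `v`. -/
def chr (v x : ∀ i, Fin (P i)) : ℂ := ∏ i, ee (((v i).val * (x i).val : ℝ) / P i)

/-- The support of a frequency. -/
def fsupp (v : ∀ i, Fin (P i)) : Finset I := univ.filter fun i => (v i).val ≠ 0

/-- The frequency equal to `v` on its support and to `u` elsewhere. -/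
def merge (u v : ∀ i, Fin (P i)) : ∀ i, Fin (P i) := fun i =>
  if (v i).val = 0 then u i else v i

section step

/-- Second order Taylor bound for a power. -/
lemma one_add_pow_le (m : ℕ) {t : ℝ} (ht : |t| ≤ 1) :
    (1 + t) ^ m ≤ 1 + m * t + (m : ℝ) ^ 2 * (1 + |t|) ^ m * t ^ 2 := by
  induction m with
  | zero => simp
  | succ n ih =>
    have h0 : 0 ≤ 1 + t := by linarith [(abs_le.1 ht).1]
    have hE : (1 : ℝ) ≤ (1 + |t|) ^ (n + 1) := one_le_pow₀ (by linarith [abs_nonneg t])
    have h1 : (1 + t) * (1 + |t|) ^ n ≤ (1 + |t|) ^ (n + 1) := by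
      rw [pow_succ']; exact mul_le_mul_of_nonneg_right (by linarith [le_abs_self t]) (by positivity)
    calc (1 + t) ^ (n + 1) = (1 + t) * (1 + t) ^ n := pow_succ' _ _
      _ ≤ (1 + t) * (1 + n * t + (n : ℝ) ^ 2 * (1 + |t|) ^ n * t ^ 2) :=
          mul_le_mul_of_nonneg_left ih h0
      _ = 1 + (n + 1) * t + n * t ^ 2
          + (n : ℝ) ^ 2 * t ^ 2 * ((1 + t) * (1 + |t|) ^ n) := by ring
      _ ≤ 1 + (n + 1) * t + n * t ^ 2 * (1 + |t|) ^ (n + 1)
          + (n : ℝ) ^ 2 * t ^ 2 * (1 + |t|) ^ (n + 1) :=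
          add_le_add (add_le_add le_rfl (le_mul_of_one_le_right (by positivity) hE))
            (mul_le_mul_of_nonneg_left h1 (by positivity))
      _ ≤ _ := by
          push_cast
          have : 0 ≤ ((n : ℝ) + 1) * t ^ 2 * (1 + |t|) ^ (n + 1) := by positivity
          nlinarith

/-- Bernoulli, homogeneous form. -/
lemma pow_add_linear_le {A X : ℝ} (hA : 0 ≤ A) (hX : 0 ≤ X) : ∀ m : ℕ,
    A ^ (m + 1) + (m + 1) * A ^ m * X ≤ (A + X) ^ (m + 1)
  | 0 => by simp
  | m + 1 => by
    have := mul_le_mul_of_nonneg_left (pow_add_linear_le hA hX m) (add_nonneg hA hX)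
    rw [← pow_succ'] at this
    refine le_trans ?_ this
    push_cast
    ring_nf
    nlinarith [mul_nonneg (pow_nonneg hA m) (sq_nonneg X),
      mul_nonneg (mul_nonneg (pow_nonneg hA m) (sq_nonneg X)) (Nat.cast_nonneg (α := ℝ) m)]

/-- The pointwise bound for `(A + L + B) ^ m`. -/
lemma pow_pointwise {m : ℕ} (hm : 1 ≤ m) {A B L : ℝ} (hA : 0 ≤ A) (hB : 0 ≤ B)
    (hL : L ^ 2 ≤ 4 * A * B) (hF : 0 ≤ A + L + B) :
    (A + L + B) ^ m ≤ A ^ m + m * A ^ (m - 1) * L + 14 * m ^ 2 * A ^ (m - 1) * B
      + (10 * m : ℝ) ^ (2 * m) * B ^ m := by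
  obtain ⟨n, rfl⟩ : ∃ n, m = n + 1 := ⟨m - 1, by omega⟩
  rw [Nat.add_sub_cancel]
  set M : ℝ := ((n + 1 : ℕ) : ℝ) with hM
  have hM1 : 1 ≤ M := by rw [hM]; exact_mod_cast hm
  rcases le_or_gt (16 * M ^ 2 * B) A with hs | hs
  · rcases hA.eq_or_lt with hA0 | hA0
    · have hB0 : B = 0 := by
        have : M ^ 2 * B ≤ 0 := by linarith
        have := (le_mul_of_one_le_left hB (one_le_pow₀ hM1 : (1:ℝ) ≤ M ^ 2))
        linarith
      have hL0 : L = 0 := by rw [hB0] at hL; nlinarith
      simp [← hA0, hB0, hL0]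
    have hLs : |L| ≤ A / (2 * M) := by
      rw [← abs_of_pos (div_pos hA0 (by positivity : (0 : ℝ) < 2 * M))]
      refine sq_le_sq.1 ?_
      rw [div_pow, le_div_iff₀ (by positivity)]
      nlinarith [mul_le_mul_of_nonneg_left hs hA0.le,
        mul_le_mul_of_nonneg_right hL (sq_nonneg (2 * M))]
    have hBs : B ≤ A / (16 * M) := by
      rw [le_div_iff₀ (by positivity)]
      nlinarith [mul_le_mul_of_nonneg_left hM1 (mul_nonneg hB (by positivity : (0 : ℝ) ≤ 16 * M))]
    set t := (L + B) / A with ht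
    have hMt : M * |t| ≤ 9 / 16 := by
      rw [ht, abs_div, abs_of_pos hA0, ← mul_div_assoc, div_le_iff₀ hA0]
      have := abs_add_le L B
      rw [abs_of_nonneg hB] at this
      have h2 : |L| * (2 * M) ≤ A := (le_div_iff₀ (by positivity)).1 hLs
      have h3 : B * (16 * M) ≤ A := (le_div_iff₀ (by positivity)).1 hBs
      nlinarith [mul_le_mul_of_nonneg_left this (by positivity : (0 : ℝ) ≤ M)]
    have ht1 : |t| ≤ 1 := by nlinarith [abs_nonneg t]
    have hexp : (1 + |t|) ^ (n + 1) ≤ 16 / 7 := by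
      have he : (1 + |t|) ≤ Real.exp |t| := by linarith [Real.add_one_le_exp |t|]
      refine (pow_le_pow_left₀ (by positivity) he _).trans ?_
      rw [← Real.exp_nat_mul, ← hM]
      refine (Real.exp_le_exp.2 hMt).trans ?_
      exact (Real.exp_bound_div_one_sub_of_interval (by norm_num) (by norm_num)).trans
        (by norm_num)
    have hsq : (L + B) ^ 2 ≤ 81 / 16 * A * B := by
      have h16 : 16 * B ≤ A := by nlinarith [mul_le_mul hM1 hM1 zero_le_one (by positivity)]
      nlinarith [sq_nonneg (2 * L * (1 / 8) - 2 * B), mul_le_mul_of_nonneg_left h16 hB]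
    have hmain := one_add_pow_le (n + 1) ht1
    rw [← hM] at hmain
    have hAt : A + L + B = A * (1 + t) := by rw [ht]; field_simp; ring
    have hq : M ^ 2 * (1 + |t|) ^ (n + 1) * ((L + B) ^ 2 * A ^ n) ≤
        M ^ 2 * (16 / 7) * (81 / 16 * A * B * A ^ n) :=
      mul_le_mul (mul_le_mul_of_nonneg_left hexp (sq_nonneg M))
        (mul_le_mul_of_nonneg_right hsq (by positivity)) (by positivity) (by positivity)
    calc (A + L + B) ^ (n + 1) = A ^ (n + 1) * (1 + t) ^ (n + 1) := by rw [hAt, mul_pow]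
      _ ≤ A ^ (n + 1) * (1 + M * t + M ^ 2 * (1 + |t|) ^ (n + 1) * t ^ 2) :=
          mul_le_mul_of_nonneg_left hmain (by positivity)
      _ = A ^ (n + 1) + M * A ^ n * (L + B)
          + M ^ 2 * (1 + |t|) ^ (n + 1) * ((L + B) ^ 2 * A ^ n) / A := by
          rw [ht, pow_succ A]; field_simp
      _ ≤ A ^ (n + 1) + M * A ^ n * (L + B)
          + M ^ 2 * (16 / 7) * (81 / 16 * A * B * A ^ n) / A := by gcongr
      _ ≤ A ^ (n + 1) + M * A ^ n * L + 14 * M ^ 2 * A ^ n * B := by
          rw [show M ^ 2 * (16 / 7) * (81 / 16 * A * B * A ^ n) / A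
            = 81 / 7 * M ^ 2 * A ^ n * B by field_simp]
          nlinarith [mul_nonneg (mul_nonneg (pow_nonneg hA n) hB) (by linarith : (0 : ℝ) ≤ M),
            mul_le_mul_of_nonneg_left hM1 (mul_nonneg (mul_nonneg (pow_nonneg hA n) hB)
              (by linarith : (0 : ℝ) ≤ M))]
      _ ≤ _ := le_add_of_nonneg_right (by positivity)
  · have h25 : A + L + B ≤ 100 * M ^ 2 * B := by
      have hLab : |L| ≤ A + B := by
        rw [← abs_of_nonneg (add_nonneg hA hB)]
        refine sq_le_sq.1 ?_
        nlinarith [sq_nonneg (A - B)]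
      have hM2 : (1 : ℝ) ≤ M ^ 2 := one_le_pow₀ hM1
      nlinarith [le_abs_self L, le_mul_of_one_le_left hB hM2]
    have hlin : 0 ≤ A + M * L + 14 * M ^ 2 * B := by
      have hp : 0 ≤ A + 14 * M ^ 2 * B := by positivity
      have : |M * L| ≤ A + 14 * M ^ 2 * B := by
        rw [← abs_of_nonneg hp]
        refine sq_le_sq.1 ?_
        nlinarith [mul_le_mul_of_nonneg_left hL (sq_nonneg M), sq_nonneg (A - 14 * M ^ 2 * B),
          mul_nonneg (mul_nonneg hA hB) (sq_nonneg M)]
      linarith [(abs_le.1 this).1]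
    have hrest : 0 ≤ A ^ (n + 1) + M * A ^ n * L + 14 * M ^ 2 * A ^ n * B := by
      have := mul_nonneg (pow_nonneg hA n) hlin
      rw [pow_succ]; nlinarith
    refine le_add_of_nonneg_of_le hrest ?_
    calc (A + L + B) ^ (n + 1) ≤ (100 * M ^ 2 * B) ^ (n + 1) := pow_le_pow_left₀ hF h25 _
      _ = _ := by rw [mul_pow, pow_mul]; ring

/-- One step: mean zero perturbations of a fixed vector. -/
lemma one_step {ι X : Type*} [Fintype X] (U : Finset ι) {w : ι → ℝ} (hw : ∀ u ∈ U, 0 ≤ w u)
    (a : ι → ℂ) (h : X → ι → ℂ) (h0 : ∀ u ∈ U, ∑ z, h z u = 0) {N : ℝ} (hN : 0 < N)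
    (hcard : (Fintype.card X : ℝ) = N) {m : ℕ} (hm : 1 ≤ m) :
    ∑ z, (∑ u ∈ U, w u * ‖a u + h z u‖ ^ 2) ^ m ≤
      N * (∑ u ∈ U, w u * ‖a u‖ ^ 2 + 14 * m * (∑ z, ∑ u ∈ U, w u * ‖h z u‖ ^ 2) / N) ^ m
      + (10 * m : ℝ) ^ (2 * m) * ∑ z, (∑ u ∈ U, w u * ‖h z u‖ ^ 2) ^ m := by
  set A := ∑ u ∈ U, w u * ‖a u‖ ^ 2 with hA
  set B : X → ℝ := fun z => ∑ u ∈ U, w u * ‖h z u‖ ^ 2 with hB
  let L : X → ℝ := fun z => ∑ u ∈ U, w u * (2 * (a u * starRingEnd ℂ (h z u)).re)
  have hA0 : 0 ≤ A := sum_nonneg fun u hu => mul_nonneg (hw u hu) (sq_nonneg _)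
  have hB0 : ∀ z, 0 ≤ B z := fun z => sum_nonneg fun u hu => mul_nonneg (hw u hu) (sq_nonneg _)
  have hsplit : ∀ z, ∑ u ∈ U, w u * ‖a u + h z u‖ ^ 2 = A + L z + B z := fun z => by
    simp only [hA, hB, L, ← sum_add_distrib]
    refine sum_congr rfl fun u _ => ?_
    simp only [Complex.sq_norm, Complex.normSq_add]; ring
  have hL : ∀ z, L z ^ 2 ≤ 4 * A * B z := fun z => by
    have h1 : |L z| ≤ ∑ u ∈ U, 2 * ((√(w u) * ‖a u‖) * (√(w u) * ‖h z u‖)) := by
      refine (abs_sum_le_sum_abs _ _).trans (sum_le_sum fun u hu => ?_)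
      rw [abs_mul, abs_of_nonneg (hw u hu), abs_mul, abs_two,
        show 2 * ((√(w u) * ‖a u‖) * (√(w u) * ‖h z u‖))
          = (√(w u) * √(w u)) * (2 * (‖a u‖ * ‖h z u‖)) by ring, Real.mul_self_sqrt (hw u hu)]
      refine mul_le_mul_of_nonneg_left (mul_le_mul_of_nonneg_left ?_ zero_le_two) (hw u hu)
      exact (Complex.abs_re_le_norm _).trans_eq (by rw [norm_mul, Complex.norm_conj])
    rw [← sq_abs]
    refine (pow_le_pow_left₀ (abs_nonneg _) h1 2).trans ?_
    rw [← mul_sum, mul_pow]
    norm_num only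
    rw [mul_assoc]
    refine mul_le_mul_of_nonneg_left ((sum_mul_sq_le_sq_mul_sq _ _ _).trans_eq ?_) (by norm_num)
    have hsq : ∀ g : ι → ℝ, ∑ u ∈ U, (√(w u) * g u) ^ 2 = ∑ u ∈ U, w u * g u ^ 2 := fun g =>
      sum_congr rfl fun u hu => by rw [mul_pow, Real.sq_sqrt (hw u hu)]
    rw [hsq, hsq]
  have hL0 : ∑ z, L z = 0 := by
    simp only [L]
    rw [sum_comm]
    refine sum_eq_zero fun u hu => ?_
    rw [← mul_sum, ← mul_sum, ← Complex.re_sum, ← mul_sum, ← map_sum, h0 u hu]
    simp
  obtain ⟨n, rfl⟩ : ∃ n, m = n + 1 := ⟨m - 1, by omega⟩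
  calc ∑ z, (∑ u ∈ U, w u * ‖a u + h z u‖ ^ 2) ^ (n + 1)
      ≤ ∑ z, (A ^ (n + 1) + ((n + 1 : ℕ) : ℝ) * A ^ n * L z
          + 14 * ((n + 1 : ℕ) : ℝ) ^ 2 * A ^ n * B z
          + (10 * ((n + 1 : ℕ) : ℝ)) ^ (2 * (n + 1)) * B z ^ (n + 1)) := by
        refine sum_le_sum fun z _ => ?_
        rw [hsplit]
        refine pow_pointwise hm hA0 (hB0 z) (hL z) ?_
        rw [← hsplit]; exact sum_nonneg fun u hu => mul_nonneg (hw u hu) (sq_nonneg _)
    _ = N * (A ^ (n + 1) + ((n : ℝ) + 1) * A ^ n * (14 * ((n + 1 : ℕ) : ℝ) * (∑ z, B z) / N))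
          + (10 * ((n + 1 : ℕ) : ℝ)) ^ (2 * (n + 1)) * ∑ z, B z ^ (n + 1) := by
        simp only [sum_add_distrib, ← mul_sum, hL0, sum_const, card_univ, nsmul_eq_mul, hcard]
        push_cast; field_simp; ring
    _ ≤ _ := by
        refine add_le_add (mul_le_mul_of_nonneg_left (pow_add_linear_le hA0 ?_ n) hN.le) le_rfl
        exact div_nonneg (mul_nonneg (by positivity) (sum_nonneg fun z _ => hB0 z)) hN.le

end step

lemma chr_update (hP : ∀ i, 0 < P i) (v x : ∀ i, Fin (P i)) (i : I) (z : Fin (P i)) :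
    chr v (update x i z) =
      chr (update v i ⟨0, hP i⟩) x * ee (((v i).val * z.val : ℝ) / P i) := by
  simp only [chr]
  rw [← prod_erase_mul univ _ (mem_univ i), ← prod_erase_mul univ _ (mem_univ i)]
  simp only [update_self, Nat.cast_zero, zero_mul, zero_div, ee_zero, mul_one]
  congr 1
  refine prod_congr rfl fun j hj => ?_
  rw [update_of_ne (ne_of_mem_erase hj), update_of_ne (ne_of_mem_erase hj)]

lemma sum_update_eq (i : I) (G : (∀ i, Fin (P i)) → ℝ) :
    ∑ x, ∑ z, G (update x i z) = (P i : ℝ) * ∑ x, G x := by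
  let e : (∀ i, Fin (P i)) × Fin (P i) ≃ (∀ i, Fin (P i)) × Fin (P i) :=
    { toFun := fun q => (update q.1 i q.2, q.1 i)
      invFun := fun q => (update q.1 i q.2, q.1 i)
      left_inv := fun q => by simp
      right_inv := fun q => by simp }
  rw [← Fintype.sum_prod_type', Fintype.sum_equiv e (fun q => G (update q.1 i q.2))
    (fun q => G q.1) (fun q => rfl), Fintype.sum_prod_type]
  simp [mul_sum]

lemma sum_ee_eq_zero {n : ℕ} {a b : Fin n} (hab : a ≠ b) :
    ∑ z : Fin n, ee (((a.val : ℝ) - b.val) * z.val / n) = 0 := by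
  have hn : (n : ℝ) ≠ 0 := by
    have := a.isLt; exact_mod_cast (show n ≠ 0 by omega)
  set r := ee (((a.val : ℝ) - b.val) / n) with hr
  have hpow : ∀ j : ℕ, r ^ j = ee (((a.val : ℝ) - b.val) * j / n) := fun j => by
    simp only [hr, ee, ← Complex.exp_nat_mul]
    congr 1; push_cast; ring
  have hr1 : r ≠ 1 := by
    rw [hr, ee, Ne, Complex.exp_eq_one_iff]
    rintro ⟨l, hl⟩
    have h2 : (((a.val : ℝ) - b.val) / n : ℝ) = (l : ℝ) := by
      have h3 : ((((a.val : ℝ) - b.val) / n : ℝ) : ℂ) * (2 * Real.pi * Complex.I)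
          = ((l : ℝ) : ℂ) * (2 * Real.pi * Complex.I) := by
        push_cast at hl ⊢; linear_combination hl
      exact_mod_cast mul_right_cancel₀ Complex.two_pi_I_ne_zero h3
    rw [div_eq_iff hn] at h2
    have h3 : (a.val : ℤ) - b.val = l * n := by exact_mod_cast h2
    have h4 : l = 0 := by
      have := a.isLt; have := b.isLt
      by_contra h
      rcases lt_or_gt_of_ne h with h | h <;> nlinarith
    rw [h4, zero_mul, sub_eq_zero] at h3
    exact hab (Fin.ext (by exact_mod_cast h3))
  have hn1 : r ^ n = 1 := by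
    rw [hpow, mul_div_assoc, div_self hn, mul_one]
    exact_mod_cast ee_int ((a.val : ℤ) - b.val)
  rw [Fin.sum_univ_eq_sum_range (fun j => ee (((a.val : ℝ) - b.val) * j / n))]
  simp_rw [← hpow]
  rw [geom_sum_eq hr1, hn1, sub_self, zero_div]

lemma parseval {n : ℕ} (W : Finset (Fin n)) (b : Fin n → ℂ) :
    ∑ z : Fin n, ‖∑ w ∈ W, ee ((w.val * z.val : ℝ) / n) * b w‖ ^ 2 =
      (n : ℝ) * ∑ w ∈ W, ‖b w‖ ^ 2 := by
  apply Complex.ofReal_injective
  push_cast
  simp_rw [← Complex.mul_conj', map_sum, map_mul, sum_mul_sum, mul_sum]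
  rw [sum_comm]
  refine sum_congr rfl fun w hw => ?_
  rw [sum_comm]
  have hterm : ∀ w' (z : Fin n), ee ((w.val * z.val : ℝ) / n) * b w *
      (starRingEnd ℂ (ee ((w'.val * z.val : ℝ) / n)) * starRingEnd ℂ (b w')) =
      ee (((w.val : ℝ) - (w' : Fin n).val) * z.val / n) * (b w * starRingEnd ℂ (b w')) := by
    intro w' z
    rw [← ee_neg, mul_mul_mul_comm, ← ee_add]
    congr 2; ring
  simp_rw [hterm, ← sum_mul]
  rw [sum_eq_single_of_mem w hw fun w' _ hne => by rw [sum_ee_eq_zero hne.symm, zero_mul]]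
  simp [ee_zero]

/-- Frequencies of the smoothed coordinates. -/
def uSet (s S : Finset I) : Finset (∀ i, Fin (P i)) := univ.filter fun u => fsupp u ⊆ s \ S

/-- Frequencies with support `S` on the processed coordinates. -/
def vSet (s S : Finset I) : Finset (∀ i, Fin (P i)) := univ.filter fun v => fsupp v ∩ s = S

/-- Partial sums after processing `s`. -/
def part (c : (∀ i, Fin (P i)) → ℂ) (s S : Finset I) (u x : ∀ i, Fin (P i)) : ℂ :=
  ∑ v ∈ vSet s S, c (merge u v) * chr v x

/-- The potential after processing `s`. -/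
def potl (c : (∀ i, Fin (P i)) → ℂ) (m : ℕ) (s : Finset I) : ℝ :=
  ∑ S ∈ s.powerset, (10 * m : ℝ) ^ (2 * m * S.card) *
    ∑ x : ∀ i, Fin (P i),
      (∑ u ∈ uSet s S, (14 * m : ℝ) ^ (fsupp u).card * ‖part c s S u x‖ ^ 2) ^ m

omit [DecidableEq I] in
lemma mem_fsupp {v : ∀ i, Fin (P i)} {i : I} : i ∈ fsupp v ↔ (v i).val ≠ 0 := by simp [fsupp]

lemma fsupp_update_zero (hP : ∀ i, 0 < P i) (v : ∀ i, Fin (P i)) (i : I) :
    fsupp (update v i ⟨0, hP i⟩) = (fsupp v).erase i := by
  ext j; by_cases hj : j = i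
  · subst hj; simp [fsupp]
  · simp [fsupp, hj]

lemma fsupp_update_ne (v : ∀ i, Fin (P i)) (i : I) {w : Fin (P i)} (hw : w.val ≠ 0) :
    fsupp (update v i w) = insert i (fsupp v) := by
  ext j; by_cases hj : j = i
  · subst hj; simp [fsupp, hw]
  · simp [fsupp, hj]

/-- Processing one more coordinate increases the potential. -/
lemma potl_insert (hP : ∀ i, 0 < P i) (c : (∀ i, Fin (P i)) → ℂ) {m : ℕ} (hm : 1 ≤ m)
    {s : Finset I} {i : I} (hi : i ∉ s) : potl c m s ≤ potl c m (insert i s) := by
  set W : Finset (Fin (P i)) := univ.filter fun w => w.val ≠ 0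
  have hkey : ∀ S ∈ s.powerset,
      ∑ x, (∑ u ∈ uSet s S, (14 * m : ℝ) ^ (fsupp u).card * ‖part c s S u x‖ ^ 2) ^ m ≤
      ∑ x, (∑ u ∈ uSet (insert i s) S,
          (14 * m : ℝ) ^ (fsupp u).card * ‖part c (insert i s) S u x‖ ^ 2) ^ m
        + (10 * m : ℝ) ^ (2 * m) * ∑ x, (∑ u ∈ uSet (insert i s) (insert i S),
          (14 * m : ℝ) ^ (fsupp u).card * ‖part c (insert i s) (insert i S) u x‖ ^ 2) ^ m := by
    intro S hS
    rw [mem_powerset] at hS
    have hiS : i ∉ S := fun h => hi (hS h)
    -- the frequencies split according to the coordinate `i`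
    have hV : ∀ u x, part c s S u x =
        part c (insert i s) S u x + part c (insert i s) (insert i S) u x := by
      intro u x
      unfold part
      rw [← sum_union]
      · congr 1
        ext v
        simp only [vSet, mem_union, mem_filter, mem_univ, true_and]
        by_cases hv : i ∈ fsupp v
        · rw [inter_insert_of_mem hv]
          constructor
          · intro h; right; rw [h]
          · rintro (h | h)
            · exact absurd (h ▸ mem_insert_self i _) hiS
            · rw [← erase_insert (by simp [hi] : i ∉ fsupp v ∩ s), h, erase_insert hiS]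
        · rw [inter_insert_of_notMem hv]
          constructor
          · exact Or.inl
          · rintro (h | h)
            · exact h
            · have : i ∈ fsupp v ∩ s := h ▸ mem_insert_self i S
              exact absurd (mem_inter.1 this).2 hi
      · refine disjoint_left.2 fun v h1 h2 => ?_
        simp only [vSet, mem_filter, mem_univ, true_and] at h1 h2
        exact hiS (h1 ▸ h2 ▸ mem_insert_self i S)
    have hU : uSet (insert i s) (insert i S) = uSet (P := P) s S := by
      rw [uSet, uSet, insert_sdiff_insert, sdiff_insert_of_notMem hi]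
    have hconst : ∀ u x z, part c (insert i s) S u (update x i z) = part c (insert i s) S u x := by
      intro u x z
      refine sum_congr rfl fun v hv => ?_
      simp only [vSet, mem_filter, mem_univ, true_and] at hv
      have hvi : (v i).val = 0 := by
        by_contra h
        exact hiS (hv ▸ mem_inter.2 ⟨mem_fsupp.2 h, mem_insert_self i s⟩)
      have hv0 : update v i ⟨0, hP i⟩ = v := by
        rw [update_eq_self_iff]; exact (Fin.ext hvi).symm
      rw [chr_update hP, hv0, hvi]; simp [ee_zero]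
    have hexp : ∀ u x (z : Fin (P i)), part c (insert i s) (insert i S) u (update x i z) =
        ∑ w ∈ W, ee ((w.val * z.val : ℝ) / P i) * part c (insert i s) S (update u i w) x := by
      intro u x z
      simp only [part, mul_sum]
      rw [← sum_product']
      refine sum_bij' (fun v _ => (v i, update v i ⟨0, hP i⟩)) (fun q _ => update q.2 i q.1)
        ?_ ?_ ?_ ?_ ?_
      · intro v hv
        simp only [vSet, mem_filter, mem_univ, true_and] at hv
        have hvi : i ∈ fsupp v := (mem_inter.1 (hv ▸ mem_insert_self i S)).1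
        simp only [mem_product, W, vSet, mem_filter, mem_univ, true_and,
          fsupp_update_zero hP]
        exact ⟨mem_fsupp.1 hvi, by rw [erase_inter, hv, erase_insert hiS]⟩
      · intro q hq
        simp only [mem_product, W, vSet, mem_filter, mem_univ, true_and] at hq
        simp only [vSet, mem_filter, mem_univ, true_and, fsupp_update_ne _ _ hq.1]
        rw [insert_inter_of_mem (mem_insert_self i s), hq.2]
      · intro v _; simp
      · intro q hq
        simp only [mem_product, W, vSet, mem_filter, mem_univ, true_and] at hq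
        have : (q.2 i).val = 0 := by
          by_contra h
          exact hiS (hq.2 ▸ mem_inter.2 ⟨mem_fsupp.2 h, mem_insert_self i s⟩)
        simp only [update_idem, update_self, Prod.ext_iff, true_and]
        rw [update_eq_self_iff]; exact (Fin.ext this).symm
      · intro v hv
        simp only [vSet, mem_filter, mem_univ, true_and] at hv
        have hvi : (v i).val ≠ 0 := mem_fsupp.1 (mem_inter.1 (hv ▸ mem_insert_self i S)).1
        rw [chr_update hP]
        have : merge (update u i (v i)) (update v i ⟨0, hP i⟩) = merge u v := by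
          funext j; by_cases hj : j = i
          · subst hj; simp [merge, hvi]
          · simp [merge, hj]
        rw [this]; ring
    have hsplitU : ∀ x, ∑ u ∈ uSet (insert i s) S,
          (14 * m : ℝ) ^ (fsupp u).card * ‖part c (insert i s) S u x‖ ^ 2 =
        ∑ u ∈ uSet s S, (14 * m : ℝ) ^ (fsupp u).card * (‖part c (insert i s) S u x‖ ^ 2 +
          14 * m * ∑ w ∈ W, ‖part c (insert i s) S (update u i w) x‖ ^ 2) := by
      intro x
      rw [← sum_filter_add_sum_filter_not (uSet (insert i s) S) (fun u => i ∉ fsupp u)]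
      simp only [mul_add, sum_add_distrib]
      congr 1
      · refine sum_congr ?_ fun _ _ => rfl
        ext u
        simp only [uSet, mem_filter, mem_univ, true_and, insert_sdiff_of_notMem _ hiS]
        constructor
        · rintro ⟨h, hiu⟩; exact (subset_insert_iff_of_notMem hiu).1 h
        · intro h; exact ⟨h.trans (subset_insert _ _), fun hm => hi (mem_sdiff.1 (h hm)).1⟩
      · simp only [mul_sum]
        rw [← sum_product']
        refine sum_bij' (fun u _ => (update u i ⟨0, hP i⟩, u i)) (fun q _ => update q.1 i q.2)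
          ?_ ?_ ?_ ?_ ?_
        · intro u hu
          simp only [uSet, mem_filter, mem_univ, true_and, not_not,
            insert_sdiff_of_notMem _ hiS] at hu
          simp only [mem_product, uSet, W, mem_filter, mem_univ, true_and, fsupp_update_zero hP]
          exact ⟨subset_insert_iff.1 hu.1, mem_fsupp.1 hu.2⟩
        · intro q hq
          simp only [mem_product, uSet, W, mem_filter, mem_univ, true_and] at hq
          simp only [uSet, mem_filter, mem_univ, true_and, not_not, fsupp_update_ne _ _ hq.2,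
            insert_sdiff_of_notMem _ hiS]
          exact ⟨insert_subset_insert i hq.1, mem_insert_self _ _⟩
        · intro u _; simp
        · intro q hq
          simp only [mem_product, uSet, W, mem_filter, mem_univ, true_and] at hq
          have : (q.1 i).val = 0 := by
            by_contra h
            exact hi (mem_sdiff.1 (hq.1 (mem_fsupp.2 h))).1
          simp only [update_idem, update_self, Prod.ext_iff, and_true]
          rw [update_eq_self_iff]; exact (Fin.ext this).symm
        · intro u hu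
          simp only [uSet, mem_filter, mem_univ, true_and, not_not] at hu
          rw [update_idem, update_eq_self, fsupp_update_zero hP,
            ← card_erase_add_one hu.2, pow_succ]
          ring
    have hN : (0 : ℝ) < P i := by exact_mod_cast hP i
    have hpt : ∀ x, ∑ z, (∑ u ∈ uSet s S,
          (14 * m : ℝ) ^ (fsupp u).card * ‖part c s S u (update x i z)‖ ^ 2) ^ m ≤
        (P i : ℝ) * (∑ u ∈ uSet (insert i s) S,
            (14 * m : ℝ) ^ (fsupp u).card * ‖part c (insert i s) S u x‖ ^ 2) ^ m +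
        (10 * m : ℝ) ^ (2 * m) * ∑ z, (∑ u ∈ uSet (insert i s) (insert i S),
          (14 * m : ℝ) ^ (fsupp u).card *
            ‖part c (insert i s) (insert i S) u (update x i z)‖ ^ 2) ^ m := by
      intro x
      simp only [hV, hconst, hU]
      refine (one_step _ (fun u _ => by positivity) _
        (fun z u => part c (insert i s) (insert i S) u (update x i z)) ?_ hN
        (by simp) hm).trans_eq ?_
      · intro u _
        simp only [hexp]
        rw [sum_comm]
        refine sum_eq_zero fun w hw => ?_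
        simp only [W, mem_filter, mem_univ, true_and] at hw
        rw [← sum_mul]
        have : (w : Fin (P i)) ≠ ⟨0, hP i⟩ := fun h => hw (by rw [h])
        have h2 := sum_ee_eq_zero this
        simp only [Nat.cast_zero, sub_zero] at h2
        rw [h2, zero_mul]
      · congr 3
        rw [hsplitU]
        simp only [mul_add, sum_add_distrib]
        congr 1
        rw [sum_comm]
        simp only [hexp, ← mul_sum, parseval]
        rw [mul_sum, sum_div]
        refine sum_congr rfl fun u _ => ?_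
        field_simp
    refine le_of_mul_le_mul_left ?_ hN
    rw [← sum_update_eq i, mul_add, mul_left_comm, ← sum_update_eq i (G := fun x =>
      (∑ u ∈ uSet (insert i s) (insert i S), (14 * m : ℝ) ^ (fsupp u).card *
        ‖part c (insert i s) (insert i S) u x‖ ^ 2) ^ m), mul_sum, mul_sum, ← sum_add_distrib]
    exact sum_le_sum fun x _ => hpt x
  simp only [potl]
  rw [sum_powerset_insert hi, ← sum_add_distrib]
  refine sum_le_sum fun S hS => (mul_le_mul_of_nonneg_left (hkey S hS) (by positivity)).trans_eq ?_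
  rw [card_insert_of_notMem fun h => hi (mem_powerset.1 hS h), mul_add]
  ring

/-- The moment inequality: each coordinate is either smoothed or pays `10 m`. -/
theorem hyper (hP : ∀ i, 0 < P i) (c : (∀ i, Fin (P i)) → ℂ) {m : ℕ} (hm : 1 ≤ m) :
    ∑ x : ∀ i, Fin (P i), ‖∑ b, c b * chr b x‖ ^ (2 * m) ≤
      ∑ S : Finset I, (10 * m : ℝ) ^ (2 * m * S.card) *
        ∑ x : ∀ i, Fin (P i),
          (∑ u ∈ univ.filter (fun u : ∀ i, Fin (P i) => Disjoint (fsupp u) S),
            (14 * m : ℝ) ^ (fsupp u).card *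
              ‖∑ v ∈ univ.filter (fun v : ∀ i, Fin (P i) => fsupp v = S),
                c (merge u v) * chr v x‖ ^ 2) ^ m := by
  have hall : ∀ s : Finset I, potl c m ∅ ≤ potl c m s := fun s => by
    induction s using Finset.induction with
    | empty => exact le_rfl
    | insert i s hi ih => exact ih.trans (potl_insert hP c hm hi)
  refine le_trans (le_of_eq ?_) ((hall univ).trans_eq ?_)
  · have h0 : uSet (P := P) ∅ ∅ = {fun i => ⟨0, hP i⟩} := by
      ext u
      simp only [uSet, sdiff_self, bot_eq_empty, subset_empty, mem_filter, mem_univ, true_and,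
        mem_singleton, funext_iff]
      simp [fsupp, filter_eq_empty_iff, Fin.ext_iff]
    have hm0 : ∀ v, merge (fun i => (⟨0, hP i⟩ : Fin (P i))) v = v := fun v => by
      funext i; unfold merge; split_ifs with h
      · exact (Fin.ext h).symm
      · rfl
    simp [potl, h0, part, vSet, hm0, fsupp, pow_mul]
  · simp only [potl, powerset_univ]
    refine sum_congr rfl fun S _ => ?_
    congr 1
    refine sum_congr rfl fun x _ => ?_
    congr 1
    refine sum_congr ?_ fun u _ => ?_
    · ext u; simp [uSet, Finset.subset_sdiff]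
    · simp [part, vSet]

end

end Vale.Agent.P042.Upper
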