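import Vale.Agent.P042.Upper.Rough.Core

/-!
The level inequality for moduli without small prime factors.
-/

open Finset

namespace Vale.Agent.P042.Upper

noncomputable section

open Rgh in
/-- The product over the allowed primes is close to one. -/
theorem prod_small_le (ω : ℕ → ℕ → ℝ) (hnn : ∀ p j, 0 ≤ ω p j) {C : ℝ} (hC : 1 ≤ C)
    (hsum : ∀ p J : ℕ, p.Prime → ∑ j ∈ Icc 1 J, ω p j ≤ C / Real.sqrt p)
    {A₀ m : ℕ} (hA : 4000 ≤ A₀) (hAC : 40 * C ≤ A₀) (hm : A₀ ≤ m) (Q : ℕ) :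
    ∏ i : Ix ((A₀ * m) ^ 2) Q, (1 + (20 * (m : ℝ) * ∑ j ∈ Icc 1 Q, ω i j) ^ (2 * m))
      ≤ 1 + (40 * C / A₀) ^ (2 * m) := by
  set X := (A₀ * m) ^ 2 with hX
  have hAr : (4000 : ℝ) ≤ A₀ := by exact_mod_cast hA
  have hmr : (A₀ : ℝ) ≤ m := by exact_mod_cast hm
  have hA0 : (0 : ℝ) < A₀ := by linarith
  have hm0 : (0 : ℝ) < m := by linarith
  have hX0 : (0 : ℝ) < (X : ℝ) := by rw [hX]; push_cast; positivity
  set x : Ix X Q → ℝ := fun i => (20 * (m : ℝ) * ∑ j ∈ Icc 1 Q, ω i j) ^ (2 * m) with hx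
  set y : ℝ := 2 * (20 * C / A₀) ^ (2 * m) * ((A₀ : ℝ) * m) ^ 4 with hy
  have hm2 : 2 ≤ m := by omega
  have hterm : ∀ i : Ix X Q,
      x i ≤ (20 * C / A₀) ^ (2 * m) * ((A₀ : ℝ) * m) ^ 4 * (((i : ℕ) : ℝ) ^ 2)⁻¹ := by
    intro i
    have hp : (X : ℝ) < ((i : ℕ) : ℝ) := by exact_mod_cast Ix.gt i
    have hp0 : (0 : ℝ) < ((i : ℕ) : ℝ) := hX0.trans hp
    have h0 : 0 ≤ 20 * (m : ℝ) * ∑ j ∈ Icc 1 Q, ω i j :=
      mul_nonneg (by positivity) (sum_nonneg fun j _ => hnn _ _)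
    calc x i ≤ (20 * (m : ℝ) * (C / Real.sqrt ((i : ℕ) : ℝ))) ^ (2 * m) :=
          pow_le_pow_left₀ h0 (mul_le_mul_of_nonneg_left (hsum _ _ i.prime) (by positivity)) _
      _ = (20 * (m : ℝ) * C) ^ (2 * m) / ((i : ℕ) : ℝ) ^ m := by
          rw [← mul_div_assoc, div_pow, pow_mul (Real.sqrt _), Real.sq_sqrt hp0.le]
      _ ≤ (20 * (m : ℝ) * C) ^ (2 * m) / ((X : ℝ) ^ (m - 2) * ((i : ℕ) : ℝ) ^ 2) := by
          refine div_le_div_of_nonneg_left (by positivity) (by positivity) ?_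
          conv_rhs => rw [show m = (m - 2) + 2 by omega, pow_add]
          exact mul_le_mul_of_nonneg_right (pow_le_pow_left₀ hX0.le hp.le _) (by positivity)
      _ = _ := by
          have hXe : (X : ℝ) ^ (m - 2) * ((A₀ : ℝ) * m) ^ 4 = ((A₀ : ℝ) * m) ^ (2 * m) := by
            rw [hX]; push_cast
            rw [← pow_mul, ← pow_add]
            congr 1
            omega
          have hXne : (X : ℝ) ^ (m - 2) ≠ 0 := by positivity
          rw [show (20 * (m : ℝ) * C) ^ (2 * m) =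
            (20 * C / A₀) ^ (2 * m) * ((A₀ : ℝ) * m) ^ (2 * m) by
              rw [← mul_pow]; congr 1; field_simp, ← hXe]
          field_simp
  have hsum2 : ∑ i : Ix X Q, (((i : ℕ) : ℝ) ^ 2)⁻¹ ≤ 2 := by
    rw [Finset.sum_coe_sort (primesIn X Q) (fun p : ℕ => ((p : ℝ) ^ 2)⁻¹)]
    refine (sum_le_sum_of_subset_of_nonneg (t := Ioo 0 (Q + 1)) (fun p hp => ?_)
      fun p _ _ => by positivity).trans ((sum_Ioo_inv_sq_le 0 (Q + 1)).trans (by norm_num))
    obtain ⟨h1, h2, -⟩ := mem_filter.mp hp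
    exact mem_Ioo.mpr ⟨h2.pos, mem_range.mp h1⟩
  have hxy : ∑ i, x i ≤ y := by
    refine (sum_le_sum fun i _ => hterm i).trans ?_
    rw [← mul_sum, hy, mul_comm (2 : ℝ), mul_right_comm]
    gcongr
  have hpoly : 4 * ((A₀ : ℝ) * m) ^ 4 ≤ 4 ^ m := by
    have h1 : (m : ℝ) ^ 10 / (Nat.factorial 10 : ℝ) ≤ Real.exp m :=
      Real.pow_div_factorial_le_exp (x := (m : ℝ)) (Nat.cast_nonneg m) 10
    have h2 : (4 : ℝ) * (Nat.factorial 10 : ℝ) ≤ (m : ℝ) ^ 2 := by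
      rw [show (Nat.factorial 10 : ℝ) = 3628800 by norm_num [Nat.factorial]]
      nlinarith
    have h3 : Real.exp m ≤ 4 ^ m := by
      rw [← mul_one (m : ℝ), Real.exp_nat_mul]
      exact pow_le_pow_left₀ (Real.exp_pos 1).le (by linarith [Real.exp_one_lt_d9]) m
    calc 4 * ((A₀ : ℝ) * m) ^ 4 ≤ 4 * ((m : ℝ) * m) ^ 4 := by gcongr
      _ ≤ (m : ℝ) ^ 10 / (Nat.factorial 10 : ℝ) := by
          rw [le_div_iff₀ (by positivity)]
          nlinarith [pow_nonneg hm0.le 8]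
      _ ≤ _ := h1.trans h3
  have hρ : 2 * y ≤ (40 * C / A₀) ^ (2 * m) := by
    rw [hy, show (40 : ℝ) * C / A₀ = 2 * (20 * C / A₀) by ring, mul_pow (2 : ℝ), pow_mul (2 : ℝ)]
    norm_num
    nlinarith [mul_le_mul_of_nonneg_left hpoly
      (show (0 : ℝ) ≤ (20 * C / A₀) ^ (2 * m) by positivity)]
  have hρ1 : (40 * C / A₀) ^ (2 * m) ≤ 1 :=
    pow_le_one₀ (by positivity) (by rw [div_le_one hA0]; exact hAC)
  have hxn : ∀ i, 0 ≤ x i := fun i => by
    simp only [hx]; rw [pow_mul]; positivity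
  have hs0 : 0 ≤ ∑ i, x i := sum_nonneg fun i _ => hxn i
  calc ∏ i : Ix X Q, (1 + x i) ≤ ∏ i : Ix X Q, Real.exp (x i) :=
        prod_le_prod (fun i _ => by linarith [hxn i]) fun i _ => by linarith [Real.add_one_le_exp (x i)]
    _ = Real.exp (∑ i, x i) := (Real.exp_sum _ _).symm
    _ ≤ 1 + 2 * ∑ i, x i := by
        have := Real.abs_exp_sub_one_le (x := ∑ i, x i) (by rw [abs_of_nonneg hs0]; linarith)
        rw [abs_of_nonneg hs0] at this
        linarith [le_abs_self (Real.exp (∑ i, x i) - 1)]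
    _ ≤ _ := by linarith

open Rgh in
/-- A set of density at most `4 α` on all classes has little weighted Fourier mass at rationals
whose denominators have only primes beyond `(A m) ^ 2`. -/
theorem rough_bound (ω : ℕ → ℕ → ℝ) (C δ : ℝ) (hω : GoodWeight ω C δ) (ε : ℝ) (hε : 0 < ε)
    (K : ℝ) :
    ∃ A₀ : ℕ, 1 ≤ A₀ ∧ ∀ m : ℕ, A₀ ≤ m → ∀ α : ℝ, Real.exp (-(m : ℝ)) ≤ α → α ≤ 1 →
      ∀ Q : ℕ, (Q : ℝ) ≤ Real.exp (K * m) → ∀ (A : Finset ℤ) (M : ℝ),
        Real.exp ((A₀ : ℝ) * (m : ℝ) ^ 2) * Q ≤ M → Glob A α M Q →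
        ∑ q ∈ (Icc 2 Q).filter (fun q => ∀ p ∈ q.primeFactors, (A₀ * m) ^ 2 < p),
            wt ω q * ∑ a ∈ reduced q, ‖fhat A M ((a : ℝ) / q)‖ ^ 2 ≤ ε * α ^ 2 := by
  set C' := max C 1 with hC'
  set ε' := min ε 1 with hε'
  have hC1 : 1 ≤ C' := le_max_right _ _
  have hε0 : 0 < ε' := lt_min hε one_pos
  obtain ⟨A₀, hA₀⟩ : ∃ n : ℕ, 5760 * C' / ε' + 6 * |K| + 4000 ≤ (n : ℝ) :=
    ⟨_, Nat.le_ceil _⟩
  have hdiv : 0 ≤ 5760 * C' / ε' := by positivity
  have hK := abs_nonneg K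
  have hA0 : (0 : ℝ) < A₀ := by linarith
  have hA4 : 4000 ≤ A₀ := by exact_mod_cast (show (4000 : ℝ) ≤ A₀ by linarith)
  have hAε : 5760 * C' ≤ ε' * A₀ := by
    have : 5760 * C' / ε' ≤ A₀ := by linarith
    rw [div_le_iff₀ hε0] at this
    linarith
  have hsum : ∀ p J : ℕ, p.Prime → ∑ j ∈ Icc 1 J, ω p j ≤ C' / Real.sqrt p := fun p J hp => by
    refine le_trans (sum_le_sum fun j hj => ?_)
      ((hω.sum_le p J hp).trans (div_le_div_of_nonneg_right (le_max_left _ _) (Real.sqrt_nonneg _)))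
    exact le_mul_of_one_le_left (hω.nonneg _ _) (by exact_mod_cast (mem_Icc.mp hj).1)
  refine ⟨A₀, by omega, fun m hm α hα hα1 Q hQ A M hM hG => ?_⟩
  have hmr : (A₀ : ℝ) ≤ m := by exact_mod_cast hm
  have hm1 : (1 : ℝ) ≤ m := le_trans (by exact_mod_cast (show 1 ≤ A₀ by omega)) hmr
  have hε1 : ε' ≤ 1 := min_le_right _ _
  have hA40 : 40 * C' ≤ (A₀ : ℝ) := by nlinarith
  have hα0 : 0 < α := (Real.exp_pos _).trans_le hα
  have hN : Num ω ((A₀ * m) ^ 2) Q m α ε' (14 * C' / A₀) (40 * C' / A₀)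
      (Real.exp ((A₀ : ℝ) * (m : ℝ) ^ 2)) := by
    refine ⟨by omega, hα0, hα1, ?_, hε1, hε0, ?_, by positivity, ?_, by positivity, ?_,
      Real.one_le_exp (by positivity), ?_, fun p j hp hpX hj => ?_,
      fun Q' _ => prod_small_le ω hω.nonneg hC1 hsum hA4 hA40 hm Q'⟩
    · have h1 : Real.exp m ≤ 4 ^ m := by
        rw [← mul_one (m : ℝ), Real.exp_nat_mul]
        exact pow_le_pow_left₀ (Real.exp_pos 1).le (by linarith [Real.exp_one_lt_d9]) m
      have h2 : Real.exp m * Real.exp (-(m : ℝ)) = 1 := by rw [← Real.exp_add]; simp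
      have h3 : 1 ≤ (4 : ℝ) ^ m * α :=
        h2.symm.le.trans (mul_le_mul h1 hα (Real.exp_pos _).le (by positivity))
      linarith
    · rw [div_le_one hA0]; linarith
    · rw [mul_div, div_le_iff₀ hA0]; linarith
    · rw [mul_div, div_le_iff₀ hA0]; linarith
    · have hρ : Real.exp (-(m : ℝ)) ≤ 40 * C' / A₀ := by
        rw [Real.exp_neg, le_div_iff₀ hA0, inv_mul_le_iff₀ (Real.exp_pos _)]
        nlinarith [Real.add_one_le_exp (m : ℝ), Real.exp_pos (m : ℝ)]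
      have h16 : (16 : ℝ) * (Q : ℝ) ^ 3 ≤ Real.exp (3 + 3 * |K| * m) := by
        rw [Real.exp_add]
        refine mul_le_mul ?_ ?_ (by positivity) (Real.exp_pos _).le
        · rw [show (3 : ℝ) = ((3 : ℕ) : ℝ) * 1 by norm_num, Real.exp_nat_mul]
          have := Real.exp_one_gt_d9
          nlinarith [pow_le_pow_left₀ (by norm_num) this.le 3]
        · refine (pow_le_pow_left₀ (Nat.cast_nonneg _) hQ 3).trans ?_
          rw [← Real.exp_nat_mul]
          refine Real.exp_le_exp.mpr ?_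
          push_cast
          nlinarith [le_abs_self K]
      have hE : Real.exp (-(2 * m : ℝ)) ^ (2 * m) * Real.exp ((A₀ : ℝ) * (m : ℝ) ^ 2) ≤
          (40 * C' / A₀ * α) ^ (2 * m) * Real.exp ((A₀ : ℝ) * (m : ℝ) ^ 2) := by
        refine mul_le_mul_of_nonneg_right (pow_le_pow_left₀ (Real.exp_pos _).le ?_ _)
          (Real.exp_pos _).le
        rw [show -(2 * m : ℝ) = -(m : ℝ) + -(m : ℝ) by ring, Real.exp_add]
        exact mul_le_mul hρ hα (Real.exp_pos _).le (by positivity)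
      refine le_trans ?_ hE
      rw [← mul_pow, show 16 * (Q : ℝ) ^ 2 * Q = 16 * (Q : ℝ) ^ 3 by ring]
      refine (pow_le_pow_left₀ (by positivity) h16 _).trans ?_
      rw [← Real.exp_nat_mul, ← Real.exp_nat_mul, ← Real.exp_add]
      refine Real.exp_le_exp.mpr ?_
      push_cast
      have h6 : 6 * |K| + 10 ≤ (A₀ : ℝ) := by linarith
      nlinarith [mul_le_mul_of_nonneg_right h6 (sq_nonneg (m : ℝ))]
    · have hp0 : (0 : ℝ) < Real.sqrt p := Real.sqrt_pos.mpr (by exact_mod_cast hp.pos)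
      have hsq : (A₀ : ℝ) * m ≤ Real.sqrt p :=
        Real.le_sqrt_of_sq_le (by exact_mod_cast hpX.le)
      have h1 : ω p j ≤ C' / ((A₀ : ℝ) * m) :=
        (single_le_sum (f := fun i => ω p i) (fun i _ => hω.nonneg p i)
          (mem_Icc.mpr ⟨hj, le_rfl⟩)).trans ((hsum p j hp).trans
            (div_le_div_of_nonneg_left (by linarith) (by positivity) hsq))
      calc 14 * (m : ℝ) * ω p j ≤ 14 * (m : ℝ) * (C' / ((A₀ : ℝ) * m)) := by gcongr
        _ = _ := by field_simp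
  exact (rough_core hN hω.wt_nonneg hω.nonneg Q le_rfl A M hM hG).trans
    (mul_le_mul_of_nonneg_right (min_le_left _ _) (sq_nonneg α))

end

end Vale.Agent.P042.Upper
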